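import Vale.Agent.P237.Petty.Cor.Grid.Tiny.N18.Cert

/-!
# P237: a cell down to zero in dimension 18, checks of pieces
-/

namespace Vale.Agent.P237.Petty.Cor.Grid.Tiny.N18

def pieces0_ok : (cell.pieces.take 74).all (pieceTOk cell.k.k.m) = true := by decide +kernel

end Vale.Agent.P237.Petty.Cor.Grid.Tiny.N18
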