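import Vale.Agent.P237.Petty.Cor.Grid.Tiny.N18.Cert

/-!
# P237: a cell down to zero in dimension 18, checks of rows
-/

namespace Vale.Agent.P237.Petty.Cor.Grid.Tiny.N18

def head_ok : cell.headOk = true := by decide +kernel

def mean_ok : cell.meanOk Vale.Agent.P237.Petty.Cor.Grid.N18.table = true := by decide +kernel

def row0_ok : cell.rowOk Vale.Agent.P237.Petty.Cor.Grid.N18.table row0 = true := by decide +kernel

def row1_ok : cell.rowOk Vale.Agent.P237.Petty.Cor.Grid.N18.table row1 = true := by decide +kernel

def row2_ok : cell.rowOk Vale.Agent.P237.Petty.Cor.Grid.N18.table row2 = true := by decide +kernel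

def row3_ok : cell.rowOk Vale.Agent.P237.Petty.Cor.Grid.N18.table row3 = true := by decide +kernel

def row4_ok : cell.rowOk Vale.Agent.P237.Petty.Cor.Grid.N18.table row4 = true := by decide +kernel

def row5_ok : cell.rowOk Vale.Agent.P237.Petty.Cor.Grid.N18.table row5 = true := by decide +kernel

def row6_ok : cell.rowOk Vale.Agent.P237.Petty.Cor.Grid.N18.table row6 = true := by decide +kernel

def row7_ok : cell.rowOk Vale.Agent.P237.Petty.Cor.Grid.N18.table row7 = true := by decide +kernel

def row8_ok : cell.rowOk Vale.Agent.P237.Petty.Cor.Grid.N18.table row8 = true := by decide +kernel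

def row9_ok : cell.rowOk Vale.Agent.P237.Petty.Cor.Grid.N18.table row9 = true := by decide +kernel

def row10_ok : cell.rowOk Vale.Agent.P237.Petty.Cor.Grid.N18.table row10 = true := by decide +kernel

def row11_ok : cell.rowOk Vale.Agent.P237.Petty.Cor.Grid.N18.table row11 = true := by decide +kernel

def row12_ok : cell.rowOk Vale.Agent.P237.Petty.Cor.Grid.N18.table row12 = true := by decide +kernel

def row13_ok : cell.rowOk Vale.Agent.P237.Petty.Cor.Grid.N18.table row13 = true := by decide +kernel

def row14_ok : cell.rowOk Vale.Agent.P237.Petty.Cor.Grid.N18.table row14 = true := by decide +kernel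

def row15_ok : cell.rowOk Vale.Agent.P237.Petty.Cor.Grid.N18.table row15 = true := by decide +kernel

def row16_ok : cell.rowOk Vale.Agent.P237.Petty.Cor.Grid.N18.table row16 = true := by decide +kernel

def row17_ok : cell.rowOk Vale.Agent.P237.Petty.Cor.Grid.N18.table row17 = true := by decide +kernel

def row18_ok : cell.rowOk Vale.Agent.P237.Petty.Cor.Grid.N18.table row18 = true := by decide +kernel

def row19_ok : cell.rowOk Vale.Agent.P237.Petty.Cor.Grid.N18.table row19 = true := by decide +kernel

def row20_ok : cell.rowOk Vale.Agent.P237.Petty.Cor.Grid.N18.table row20 = true := by decide +kernel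

def row21_ok : cell.rowOk Vale.Agent.P237.Petty.Cor.Grid.N18.table row21 = true := by decide +kernel

def row22_ok : cell.rowOk Vale.Agent.P237.Petty.Cor.Grid.N18.table row22 = true := by decide +kernel

end Vale.Agent.P237.Petty.Cor.Grid.Tiny.N18
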