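import Vale.Agent.P237.Petty.Cor.Grid.Tiny.N18.Cert

/-!
# P237: a cell down to zero in dimension 18, subdivisions
-/

namespace Vale.Agent.P237.Petty.Cor.Grid.Tiny.N18

def covers0 : cell.Covers Vale.Agent.P237.Petty.Cor.Grid.N18.table row0.1 :=
  ⟨(.cut .d 0 (.cut .v 16777216 (.cut .v 8388608 (.cut .v 4194304 (.cut .v 2097152 (.void 6 ⟨⟨0, 0, 100000, 0, 0, 0, 0, 0, 0, ⟨0, 0⟩, 0⟩, 0, 0⟩ 0 0) (.pos 7 .mm ⟨⟨0, 0, 0, 0, 0, 0, 0, 0, 0, ⟨0, 0⟩, 0⟩, 0, 0⟩ 0 0)) (.pos 5 .mm ⟨⟨0, 0, 0, 0, 0, 0, 0, 0, 0, ⟨0, 0⟩, 0⟩, 0, 0⟩ 0 0)) (.cut .v 12582912 (.cut .d (-8388608) (.pos 8 .mm ⟨⟨0, 0, 0, 0, 0, 0, 0, 0, 0, ⟨0, 0⟩, 0⟩, 0, 0⟩ 0 0) (.cut .d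 (-4194304) (.cut .d (-6291456) (.pos 8 .mm ⟨⟨0, 0, 0, 0, 0, 0, 0, 0, 0, ⟨0, 0⟩, 0⟩, 0, 0⟩ 0 0) (.pos 8 .mm ⟨⟨0, 0, 0, 0, 0, 0, 0, 0, 0, ⟨0, 0⟩, 0⟩, 0, 0⟩ 0 0)) (.pos 8 .mm ⟨⟨0, 0, 0, 0, 0, 0, 0, 0, 0, ⟨0, 0⟩, 0⟩, 0, 0⟩ 0 0))) (.cut .d (-8388608) (.pos 9 .mm ⟨⟨0, 0, 0, 0, 0, 0, 0, 0, 0, ⟨0, 0⟩, 0⟩, 0, 0⟩ 0 0) (.cut .d (-4194304) (.cut .v 14680064 (.cut .v 13631488 (.pos 14 .mm ⟨⟨0, 0, 0, 0, 0, 0, 0, 0, 0, ⟨0, 0⟩, 0⟩, 0, 0⟩ 0 0) (.pos 15 .mm ⟨⟨0, 0, 0, 0, 0, 0, 0, 0, 0, ⟨0, 0⟩, 0⟩, 0, 0⟩ 0 0)) (.pos 13 .mm ⟨⟨0, 0, 0, 0, 0, 0, 0, 0, 0, ⟨0, 0⟩, 0⟩, 0, 0⟩ 0 0)) (.cut .v 14680064 (.cut .d (-2097152) (.cut .s 851968 (.cut .s 425984 (.cut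 .v 13631488 (.cut .d (-3145728) (.pos 14 .mm ⟨⟨0, 0, 0, 0, 0, 0, 0, 0, 0, ⟨0, 0⟩, 0⟩, 0, 0⟩ 0 0) (.pos 14 .mm ⟨⟨0, 0, 0, 0, 0, 0, 0, 0, 0, ⟨0, 0⟩, 0⟩, 0, 0⟩ 0 0)) (.cut .d (-3145728) (.pos 15 .mm ⟨⟨0, 0, 0, 0, 0, 0, 0, 0, 0, ⟨0, 0⟩, 0⟩, 0, 0⟩ 0 0) (.cut .d (-2621440) (.cut .v 14155776 (.pos 18 .mm ⟨⟨0, 0, 0, 0, 0, 0, 0, 0, 0, ⟨0, 0⟩, 0⟩, 0, 0⟩ 0 0) (.pos 19 .mm ⟨⟨0, 0, 0, 0, 0, 0, 0, 0, 0, ⟨0, 0⟩, 0⟩, 0, 0⟩ 0 0)) (.pos 15 .mm ⟨⟨0, 0, 0, 0, 0, 0, 0, 0, 0, ⟨0, 0⟩, 0⟩, 0, 0⟩ 0 0)))) (.pos 12 .mm ⟨⟨0, 0, 0, 0, 751684, 7491890, 0, 0, 0, ⟨0, 0⟩, 0⟩, 0, 0⟩ 0 0)) (.void 12 ⟨⟨0, 0, 0, 0, 0, 100000, 0, 0, 0, ⟨0, 0⟩, 0⟩, 0, 0⟩ 0 0)) (.pos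 12 .mm ⟨⟨0, 0, 0, 0, 0, 0, 0, 0, 0, ⟨0, 0⟩, 0⟩, 0, 0⟩ 0 0)) (.cut .d (-2097152) (.pos 13 .mm ⟨⟨0, 0, 0, 0, 0, 0, 0, 0, 0, ⟨0, 0⟩, 0⟩, 0, 0⟩ 0 0) (.cut .d (-1048576) (.cut .v 15728640 (.pos 20 .mm ⟨⟨0, 0, 0, 0, 0, 0, 0, 0, 0, ⟨0, 0⟩, 0⟩, 0, 0⟩ 0 0) (.pos 21 .mm ⟨⟨0, 0, 0, 0, 0, 0, 0, 0, 0, ⟨0, 0⟩, 0⟩, 0, 0⟩ 0 0)) (.cut .v 15728640 (.pos 20 .mm ⟨⟨0, 0, 0, 0, 0, 0, 0, 0, 0, ⟨0, 0⟩, 0⟩, 0, 0⟩ 0 0) (.pos 21 .mm ⟨⟨0, 0, 0, 0, 0, 36154, 0, 0, 0, ⟨0, 0⟩, 0⟩, 0, 0⟩ 0 0))))))))) (.cut .v 25165824 (.cut .v 20971520 (.cut .v 18874368 (.pos 27 .mp ⟨⟨1352288, 0, 0, 0, 0, 7925, 38578, 0, 0, ⟨0, 0⟩, 0⟩, 0, 0⟩ 0 0) (.void 28 ⟨⟨0, 0, 0, 0, 0, 0,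 100000, 0, 0, ⟨0, 0⟩, 0⟩, 0, 0⟩ 0 0)) (.void 26 ⟨⟨0, 0, 0, 0, 0, 0, 100000, 0, 0, ⟨0, 0⟩, 0⟩, 0, 0⟩ 0 0)) (.void 24 ⟨⟨0, 0, 0, 0, 0, 0, 100000, 0, 0, ⟨0, 0⟩, 0⟩, 0, 0⟩ 0 0))) (.cut .v 16777216 (.cut .v 8388608 (.cut .v 4194304 (.cut .v 2097152 (.void 6 ⟨⟨0, 0, 100000, 0, 0, 0, 0, 0, 0, ⟨0, 0⟩, 0⟩, 0, 0⟩ 0 0) (.pos 7 .pm ⟨⟨0, 0, 0, 0, 825648, 0, 0, 0, 0, ⟨0, 0⟩, 0⟩, 0, 0⟩ 0 0)) (.pos 5 .pm ⟨⟨0, 0, 0, 0, 777905, 0, 0, 0, 0, ⟨0, 0⟩, 0⟩, 0, 0⟩ 0 0)) (.cut .v 12582912 (.pos 8 .pm ⟨⟨0, 0, 0, 0, 747853, 0, 0, 0, 0, ⟨0, 0⟩, 0⟩, 0, 0⟩ 0 0) (.pos 9 .pm ⟨⟨0, 0, 0, 0, 0, 0, 0, 0, 0, ⟨0, 0⟩, 0⟩, 0, 482367⟩ 0 0))) (.cut .v 25165824 (.cut .v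 20971520 (.cut .v 18874368 (.cut .v 17825792 (.cut .v 17301504 (.cut .d 372553 (.cut .v 17039360 (.cut .s 851968 (.cut .d 186276 (.pos 33 .pp ⟨⟨444060, 0, 0, 0, 0, 0, 453268, 0, 0, ⟨0, 0⟩, 0⟩, 0, 207281⟩ 0 0) (.pos 33 .pp ⟨⟨935810, 0, 0, 0, 0, 0, 300740, 0, 0, ⟨0, 0⟩, 0⟩, 0, 59511⟩ 0 0)) (.cut .d 186276 (.cut .s 1277952 (.pos 33 .pp ⟨⟨1326424, 0, 0, 0, 0, 0, 0, 0, 0, ⟨0, 0⟩, 0⟩, 0, 309490⟩ 0 0) (.cut .s 1490944 (.pos 33 .pp ⟨⟨1178627, 0, 0, 0, 0, 0, 0, 0, 0, ⟨0, 0⟩, 0⟩, 0, 319270⟩ 0 0) (.pos 33 .pp ⟨⟨1033269, 0, 0, 0, 0, 0, 0, 0, 0, ⟨0, 0⟩, 0⟩, 0, 321828⟩ 0 0))) (.pos 33 .pp ⟨⟨1039419, 0, 0, 0, 0, 0, 0, 0, 0, ⟨0, 0⟩, 0⟩, 0, 676361⟩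 0 0))) (.void 34 ⟨⟨90687, 0, 0, 0, 0, 0, 0, 0, 0, ⟨0, 0⟩, 0⟩, 0, 9313⟩ 0 0)) (.pos 31 .pp ⟨⟨0, 0, 0, 0, 0, 0, 866300, 0, 0, ⟨0, 0⟩, 0⟩, 0, 827526⟩ 0 0)) (.void 32 ⟨⟨0, 0, 0, 0, 0, 0, 100000, 0, 0, ⟨0, 0⟩, 0⟩, 0, 0⟩ 0 0)) (.void 30 ⟨⟨0, 0, 0, 0, 0, 0, 100000, 0, 0, ⟨0, 0⟩, 0⟩, 0, 0⟩ 0 0)) (.void 28 ⟨⟨0, 0, 0, 0, 0, 0, 0, 0, 0, ⟨0, 0⟩, 0⟩, 100000, 0⟩ 0 0)) (.void 26 ⟨⟨0, 0, 0, 0, 0, 0, 0, 0, 0, ⟨0, 0⟩, 0⟩, 100000, 0⟩ 0 0)) (.void 24 ⟨⟨0, 0, 0, 0, 0, 0, 0, 0, 0, ⟨0, 0⟩, 0⟩, 100000, 0⟩ 0 0)))),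
    by decide +kernel⟩

def covers1 : cell.Covers Vale.Agent.P237.Petty.Cor.Grid.N18.table row1.1 :=
  ⟨(.cut .d 0 (.cut .v 16777216 (.cut .v 8388608 (.void 2 ⟨⟨0, 0, 0, 0, 50000, 50000, 0, 0, 0, ⟨0, 0⟩, 0⟩, 0, 0⟩ 0 0) (.cut .v 12582912 (.void 8 ⟨⟨0, 0, 0, 0, 27197, 55023, 0, 0, 17780, ⟨0, 0⟩, 13128881⟩, 0, 0⟩ 0 0) (.cut .d (-8388608) (.void 9 ⟨⟨0, 0, 0, 0, 0, 100000, 0, 0, 0, ⟨0, 0⟩, 0⟩, 0, 0⟩ 0 0) (.cut .d (-4194304) (.void 9 ⟨⟨0, 0, 0, 0, 0, 100000, 0, 0, 0, ⟨0, 0⟩, 0⟩, 0, 0⟩ 0 0) (.cut .v 14680064 (.pos 12 .mm ⟨⟨0, 0, 0, 0, 0, 2657324, 0, 0, 0, ⟨0, 0⟩, 0⟩, 0, 0⟩ 0 0) (.cut .d (-2097152) (.void 13 ⟨⟨0, 0, 0, 0, 0, 100000, 0,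 0, 0, ⟨0, 0⟩, 0⟩, 0, 0⟩ 0 0) (.cut .d (-1048576) (.void 13 ⟨⟨0, 0, 0, 0, 0, 100000, 0, 0, 0, ⟨0, 0⟩, 0⟩, 0, 0⟩ 0 0) (.pos 13 .mm ⟨⟨0, 0, 0, 0, 0, 806755, 0, 0, 0, ⟨0, 0⟩, 0⟩, 0, 0⟩ 0 0)))))))) (.cut .v 25165824 (.cut .d (-8388608) (.void 23 ⟨⟨0, 0, 0, 0, 0, 100000, 0, 0, 0, ⟨0, 0⟩, 0⟩, 0, 0⟩ 0 0) (.cut .d (-4194304) (.void 23 ⟨⟨0, 0, 0, 0, 0, 100000, 0, 0, 0, ⟨0, 0⟩, 0⟩, 0, 0⟩ 0 0) (.cut .v 20971520 (.cut .d (-2097152) (.void 25 ⟨⟨0, 0, 0, 0, 0, 100000, 0, 0, 0, ⟨0, 0⟩, 0⟩, 0, 0⟩ 0 0) (.cut .d (-1048576) (.void 25 ⟨⟨0, 0, 0, 0, 0, 100000, 0, 0, 0, ⟨0, 0⟩, 0⟩, 0, 0⟩ 0 0) (.cut .v 18874368 (.cut .d (-524288) (.void 27 ⟨⟨0, 0, 0,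 0, 0, 100000, 0, 0, 0, ⟨0, 0⟩, 0⟩, 0, 0⟩ 0 0) (.pos 27 .mp ⟨⟨1121918, 0, 0, 0, 0, 0, 0, 0, 0, ⟨0, 0⟩, 0⟩, 0, 0⟩ 0 0)) (.void 28 ⟨⟨0, 0, 0, 0, 0, 0, 100000, 0, 0, ⟨0, 0⟩, 0⟩, 0, 0⟩ 0 0)))) (.void 26 ⟨⟨0, 0, 0, 0, 0, 0, 100000, 0, 0, ⟨0, 0⟩, 0⟩, 0, 0⟩ 0 0)))) (.void 24 ⟨⟨0, 0, 0, 0, 0, 0, 100000, 0, 0, ⟨0, 0⟩, 0⟩, 0, 0⟩ 0 0))) (.cut .v 16777216 (.cut .v 8388608 (.void 2 ⟨⟨0, 0, 0, 0, 100000, 0, 0, 0, 0, ⟨0, 0⟩, 0⟩, 0, 0⟩ 0 0) (.cut .v 12582912 (.void 8 ⟨⟨0, 0, 0, 0, 52986, 0, 0, 0, 47014, ⟨0, 0⟩, 13128881⟩, 0, 0⟩ 0 0) (.cut .v 14680064 (.void 12 ⟨⟨0, 0, 0, 0, 0, 0, 0, 0, 100000, ⟨0, 0⟩, 15100357⟩, 0, 0⟩ 0 0) (.cut .d 928988 (.cut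 .d 464494 (.pos 13 .pm ⟨⟨0, 0, 0, 0, 0, 0, 0, 0, 0, ⟨0, 0⟩, 0⟩, 0, 320279⟩ 0 0) (.void 13 ⟨⟨0, 0, 0, 0, 0, 0, 0, 0, 0, ⟨0, 0⟩, 0⟩, 0, 100000⟩ 0 0)) (.void 13 ⟨⟨0, 0, 0, 0, 0, 0, 0, 0, 0, ⟨0, 0⟩, 0⟩, 0, 100000⟩ 0 0))))) (.cut .v 25165824 (.cut .v 20971520 (.cut .v 18874368 (.cut .d 928988 (.cut .v 17825792 (.cut .d 464494 (.cut .v 17301504 (.cut .s 2359296 (.cut .d 232247 (.cut .v 17039360 (.cut .s 2031616 (.cut .l 102527 (.cut .d 116123 (.cut .s 1867776 (.pos 33 .pp ⟨⟨939715, 0, 0, 0, 0, 0, 0, 0, 0, ⟨0, 0⟩, 0⟩, 0, 313223⟩ 0 0) (.pos 33 .pp ⟨⟨863280, 0, 0, 0, 0, 0, 0, 0, 0, ⟨0, 0⟩, 0⟩, 0, 305842⟩ 0 0)) (.void 33 ⟨⟨700, 0, 0, 0,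 0, 0, 0, 0, 0, ⟨0, 0⟩, 0⟩, 0, 99300⟩ 0 0)) (.pos 33 .pp ⟨⟨858173, 0, 0, 0, 0, 0, 0, 0, 0, ⟨0, 0⟩, 0⟩, 0, 305144⟩ 0 0)) (.cut .s 2195456 (.cut .s 2113536 (.pos 33 .pp ⟨⟨763255, 0, 0, 0, 0, 0, 0, 0, 0, ⟨0, 0⟩, 0⟩, 0, 325389⟩ 0 0) (.pos 33 .pp ⟨⟨714614, 0, 0, 0, 0, 0, 0, 0, 0, ⟨0, 0⟩, 0⟩, 0, 321883⟩ 0 0)) (.cut .s 2277376 (.pos 33 .pp ⟨⟨675177, 0, 0, 0, 0, 0, 0, 0, 0, ⟨0, 0⟩, 0⟩, 0, 314729⟩ 0 0) (.pos 33 .pp ⟨⟨646954, 0, 0, 0, 0, 0, 0, 0, 0, ⟨0, 0⟩, 0⟩, 0, 303848⟩ 0 0)))) (.pos 34 .pp ⟨⟨964321, 0, 0, 0, 0, 0, 0, 0, 0, ⟨0, 0⟩, 0⟩, 0, 362031⟩ 0 0)) (.cut .s 2031616 (.void 31 ⟨⟨1402, 0, 0, 0, 0, 0, 0, 0, 0, ⟨0, 0⟩, 0⟩, 0, 98598⟩ 0 0)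 (.pos 31 .pp ⟨⟨615656, 0, 0, 0, 0, 0, 0, 0, 0, ⟨0, 0⟩, 0⟩, 0, 4063635⟩ 0 0))) (.cut .d 232247 (.cut .v 17039360 (.cut .s 2686976 (.cut .s 2523136 (.cut .s 2441216 (.pos 33 .pp ⟨⟨619486, 0, 0, 0, 0, 0, 0, 0, 0, ⟨0, 0⟩, 0⟩, 0, 293350⟩ 0 0) (.pos 33 .pp ⟨⟨581946, 0, 0, 0, 0, 0, 0, 0, 0, ⟨0, 0⟩, 0⟩, 0, 288336⟩ 0 0)) (.pos 33 .pp ⟨⟨513555, 0, 0, 0, 0, 0, 0, 0, 0, ⟨0, 0⟩, 0⟩, 0, 281024⟩ 0 0)) (.cut .s 2850816 (.pos 33 .pp ⟨⟨438199, 0, 0, 0, 0, 0, 0, 0, 0, ⟨0, 0⟩, 0⟩, 0, 272600⟩ 0 0) (.pos 33 .pp ⟨⟨366580, 0, 0, 0, 0, 0, 0, 0, 0, ⟨0, 0⟩, 0⟩, 0, 263546⟩ 0 0))) (.pos 34 .pp ⟨⟨664510, 0, 0, 0, 0, 0, 0, 0, 0, ⟨0, 0⟩, 0⟩, 0, 308520⟩ 0 0))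 (.cut .s 2686976 (.pos 31 .pp ⟨⟨495356, 0, 0, 0, 0, 0, 0, 0, 0, ⟨0, 0⟩, 0⟩, 0, 381812⟩ 0 0) (.pos 31 .pp ⟨⟨267946, 0, 0, 0, 0, 0, 0, 0, 0, ⟨0, 0⟩, 0⟩, 0, 450924⟩ 0 0)))) (.void 32 ⟨⟨84590, 0, 0, 0, 0, 0, 0, 0, 0, ⟨0, 0⟩, 0⟩, 0, 15410⟩ 0 0)) (.void 29 ⟨⟨0, 0, 0, 0, 0, 0, 628, 0, 0, ⟨0, 0⟩, 0⟩, 0, 99372⟩ 0 0)) (.void 30 ⟨⟨0, 0, 0, 0, 0, 0, 100000, 0, 0, ⟨0, 0⟩, 0⟩, 0, 0⟩ 0 0)) (.void 27 ⟨⟨0, 0, 0, 0, 0, 0, 628, 0, 0, ⟨0, 0⟩, 0⟩, 0, 99372⟩ 0 0)) (.void 28 ⟨⟨0, 0, 0, 0, 0, 0, 100000, 0, 0, ⟨0, 0⟩, 0⟩, 0, 0⟩ 0 0)) (.void 26 ⟨⟨0, 0, 0, 0, 0, 0, 0, 0, 0, ⟨0, 0⟩, 0⟩, 100000, 0⟩ 0 0)) (.void 24 ⟨⟨0, 0, 0, 0, 0, 0, 0, 0, 0, ⟨0, 0⟩, 0⟩,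 100000, 0⟩ 0 0)))),
    by decide +kernel⟩

def covers2 : cell.Covers Vale.Agent.P237.Petty.Cor.Grid.N18.table row2.1 :=
  ⟨(.cut .d 0 (.cut .v 16777216 (.cut .v 8388608 (.void 2 ⟨⟨0, 0, 0, 0, 50000, 50000, 0, 0, 0, ⟨0, 0⟩, 0⟩, 0, 0⟩ 0 0) (.cut .v 12582912 (.void 8 ⟨⟨0, 0, 0, 0, 0, 61015, 0, 0, 38985, ⟨0, 0⟩, 13128881⟩, 0, 0⟩ 0 0) (.cut .d (-8388608) (.void 9 ⟨⟨0, 0, 0, 0, 0, 100000, 0, 0, 0, ⟨0, 0⟩, 0⟩, 0, 0⟩ 0 0) (.cut .d (-4194304) (.void 9 ⟨⟨0, 0, 0, 0, 0, 100000, 0, 0, 0, ⟨0, 0⟩, 0⟩, 0, 0⟩ 0 0) (.cut .d (-2097152) (.void 9 ⟨⟨0, 0, 0, 0, 0, 100000, 0, 0, 0, ⟨0, 0⟩, 0⟩, 0, 0⟩ 0 0) (.cut .v 14680064 (.pos 12 .mm ⟨⟨0, 0, 0, 0,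 0, 3127031, 0, 0, 0, ⟨0, 0⟩, 0⟩, 0, 0⟩ 0 0) (.cut .d (-1048576) (.void 13 ⟨⟨0, 0, 0, 0, 0, 100000, 0, 0, 0, ⟨0, 0⟩, 0⟩, 0, 0⟩ 0 0) (.cut .d (-524288) (.void 13 ⟨⟨0, 0, 0, 0, 0, 100000, 0, 0, 0, ⟨0, 0⟩, 0⟩, 0, 0⟩ 0 0) (.cut .d (-262144) (.void 13 ⟨⟨0, 0, 0, 0, 0, 100000, 0, 0, 0, ⟨0, 0⟩, 0⟩, 0, 0⟩ 0 0) (.cut .s 3407872 (.pos 13 .mm ⟨⟨0, 0, 0, 0, 0, 595753, 0, 0, 0, ⟨0, 0⟩, 0⟩, 0, 0⟩ 0 0) (.cut .d (-131072) (.pos 13 .mm ⟨⟨0, 0, 0, 0, 0, 1316212, 0, 0, 0, ⟨0, 0⟩, 0⟩, 0, 0⟩ 0 0) (.cut .v 15728640 (.pos 20 .mm ⟨⟨0, 0, 0, 0, 0, 63171, 0, 0, 0, ⟨0, 0⟩, 0⟩, 0, 0⟩ 0 0) (.pos 21 .mm ⟨⟨0, 0, 0, 0, 0, 811206, 0, 0, 0, ⟨0, 0⟩, 0⟩, 0, 0⟩ 0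 0))))))))))))) (.cut .v 25165824 (.cut .d (-8388608) (.void 23 ⟨⟨0, 0, 0, 0, 0, 100000, 0, 0, 0, ⟨0, 0⟩, 0⟩, 0, 0⟩ 0 0) (.cut .d (-4194304) (.void 23 ⟨⟨0, 0, 0, 0, 0, 100000, 0, 0, 0, ⟨0, 0⟩, 0⟩, 0, 0⟩ 0 0) (.cut .d (-2097152) (.void 23 ⟨⟨0, 0, 0, 0, 0, 100000, 0, 0, 0, ⟨0, 0⟩, 0⟩, 0, 0⟩ 0 0) (.cut .v 20971520 (.cut .d (-1048576) (.void 25 ⟨⟨0, 0, 0, 0, 0, 100000, 0, 0, 0, ⟨0, 0⟩, 0⟩, 0, 0⟩ 0 0) (.cut .d (-524288) (.void 25 ⟨⟨0, 0, 0, 0, 0, 100000, 0, 0, 0, ⟨0, 0⟩, 0⟩, 0, 0⟩ 0 0) (.cut .v 18874368 (.cut .d (-262144) (.void 27 ⟨⟨0, 0, 0, 0, 0, 100000, 0, 0, 0, ⟨0, 0⟩, 0⟩, 0, 0⟩ 0 0) (.cut .s 3407872 (.pos 27 .mp ⟨⟨912514, 0, 0,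 0, 0, 163858, 0, 0, 0, ⟨0, 0⟩, 0⟩, 0, 0⟩ 0 0) (.cut .v 17825792 (.cut .d (-131072) (.pos 29 .mp ⟨⟨299247, 0, 0, 0, 0, 2036061, 0, 0, 0, ⟨0, 0⟩, 0⟩, 0, 0⟩ 0 0) (.pos 29 .mp ⟨⟨315912, 0, 0, 0, 0, 641840, 0, 0, 0, ⟨0, 0⟩, 0⟩, 0, 0⟩ 0 0)) (.void 30 ⟨⟨100000, 0, 0, 0, 0, 0, 0, 0, 0, ⟨0, 0⟩, 0⟩, 0, 0⟩ 0 0)))) (.void 28 ⟨⟨0, 0, 0, 0, 0, 0, 100000, 0, 0, ⟨0, 0⟩, 0⟩, 0, 0⟩ 0 0)))) (.void 26 ⟨⟨0, 0, 0, 0, 0, 0, 100000, 0, 0, ⟨0, 0⟩, 0⟩, 0, 0⟩ 0 0))))) (.void 24 ⟨⟨0, 0, 0, 0, 0, 0, 100000, 0, 0, ⟨0, 0⟩, 0⟩, 0, 0⟩ 0 0))) (.cut .v 16777216 (.cut .v 8388608 (.void 2 ⟨⟨0, 0, 0, 0, 100000, 0, 0, 0, 0, ⟨0, 0⟩, 0⟩, 0, 0⟩ 0 0) (.cut .v 12582912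 (.void 8 ⟨⟨0, 0, 0, 0, 0, 0, 0, 0, 100000, ⟨0, 0⟩, 13128881⟩, 0, 0⟩ 0 0) (.cut .d 1416156 (.cut .v 14680064 (.pos 12 .pm ⟨⟨0, 0, 0, 0, 0, 0, 0, 0, 0, ⟨0, 0⟩, 0⟩, 0, 1690725⟩ 0 0) (.cut .d 708078 (.cut .d 354039 (.cut .v 15728640 (.pos 20 .pm ⟨⟨0, 0, 0, 0, 0, 0, 0, 0, 0, ⟨0, 0⟩, 0⟩, 0, 468257⟩ 0 0) (.cut .d 177019 (.pos 21 .pm ⟨⟨0, 0, 0, 0, 0, 0, 0, 0, 0, ⟨0, 0⟩, 0⟩, 0, 200700⟩ 0 0) (.cut .v 16252928 (.pos 37 .pm ⟨⟨0, 0, 0, 0, 0, 0, 0, 0, 0, ⟨0, 0⟩, 0⟩, 0, 537748⟩ 0 0) (.pos 38 .pm ⟨⟨0, 0, 0, 0, 0, 0, 0, 0, 0, ⟨0, 0⟩, 0⟩, 0, 456238⟩ 0 0)))) (.void 13 ⟨⟨0, 0, 0, 0, 0, 0, 0, 0, 0, ⟨0, 0⟩, 0⟩, 0, 100000⟩ 0 0)) (.void 13 ⟨⟨0, 0, 0,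 0, 0, 0, 0, 0, 0, ⟨0, 0⟩, 0⟩, 0, 100000⟩ 0 0))) (.void 9 ⟨⟨0, 0, 0, 0, 0, 0, 0, 0, 0, ⟨0, 0⟩, 0⟩, 0, 100000⟩ 0 0)))) (.cut .v 25165824 (.cut .v 20971520 (.cut .d 1416156 (.cut .v 18874368 (.cut .d 708078 (.cut .d 354039 (.cut .v 17825792 (.cut .v 17301504 (.cut .d 177019 (.cut .d 88509 (.pos 31 .pp ⟨⟨279917, 0, 0, 0, 0, 0, 0, 0, 0, ⟨0, 0⟩, 0⟩, 0, 179950⟩ 0 0) (.pos 31 .pp ⟨⟨192054, 0, 0, 0, 0, 0, 0, 0, 0, ⟨0, 0⟩, 0⟩, 0, 245885⟩ 0 0)) (.pos 31 .pp ⟨⟨0, 0, 0, 0, 0, 0, 0, 0, 0, ⟨0, 0⟩, 0⟩, 0, 391665⟩ 0 0)) (.void 32 ⟨⟨81370, 0, 0, 0, 0, 0, 0, 0, 0, ⟨0, 0⟩, 0⟩, 0, 18630⟩ 0 0)) (.void 30 ⟨⟨0, 0, 0, 0, 0, 0, 0, 0, 0, ⟨0, 0⟩, 0⟩, 100000,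 0⟩ 0 0)) (.void 27 ⟨⟨0, 0, 0, 0, 0, 0, 2510, 0, 0, ⟨0, 0⟩, 0⟩, 0, 97490⟩ 0 0)) (.void 27 ⟨⟨0, 0, 0, 0, 0, 0, 1569, 0, 0, ⟨0, 0⟩, 0⟩, 0, 98431⟩ 0 0)) (.void 28 ⟨⟨0, 0, 0, 0, 0, 0, 0, 0, 0, ⟨0, 0⟩, 0⟩, 18659, 81341⟩ 0 0)) (.void 25 ⟨⟨0, 0, 0, 0, 0, 0, 0, 0, 0, ⟨0, 0⟩, 0⟩, 226, 99774⟩ 0 0)) (.void 26 ⟨⟨0, 0, 0, 0, 0, 0, 0, 0, 0, ⟨0, 0⟩, 0⟩, 18659, 81341⟩ 0 0)) (.void 24 ⟨⟨0, 0, 0, 0, 0, 0, 0, 0, 0, ⟨0, 0⟩, 0⟩, 100000, 0⟩ 0 0)))),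
    by decide +kernel⟩

def covers3 : cell.Covers Vale.Agent.P237.Petty.Cor.Grid.N18.table row3.1 :=
  ⟨(.cut .d 0 (.cut .v 16777216 (.cut .v 8388608 (.void 2 ⟨⟨0, 0, 0, 0, 50000, 50000, 0, 0, 0, ⟨0, 0⟩, 0⟩, 0, 0⟩ 0 0) (.cut .d (-8388608) (.void 3 ⟨⟨0, 0, 0, 0, 0, 100000, 0, 0, 0, ⟨0, 0⟩, 0⟩, 0, 0⟩ 0 0) (.cut .v 12582912 (.pos 8 .mm ⟨⟨0, 0, 0, 0, 0, 20061929, 0, 0, 0, ⟨0, 0⟩, 0⟩, 0, 0⟩ 0 0) (.cut .d (-4194304) (.void 9 ⟨⟨0, 0, 0, 0, 0, 100000, 0, 0, 0, ⟨0, 0⟩, 0⟩, 0, 0⟩ 0 0) (.cut .d (-2097152) (.void 9 ⟨⟨0, 0, 0, 0, 0, 100000, 0, 0, 0, ⟨0, 0⟩, 0⟩, 0, 0⟩ 0 0) (.cut .d (-1048576) (.void 9 ⟨⟨0, 0, 0, 0, 0, 100000, 0, 0, 0, ⟨0, 0⟩,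 0⟩, 0, 0⟩ 0 0) (.cut .v 14680064 (.pos 12 .mm ⟨⟨0, 0, 0, 0, 0, 3086998, 0, 0, 0, ⟨0, 0⟩, 0⟩, 0, 0⟩ 0 0) (.cut .d (-524288) (.void 13 ⟨⟨0, 0, 0, 0, 0, 100000, 0, 0, 0, ⟨0, 0⟩, 0⟩, 0, 0⟩ 0 0) (.cut .d (-262144) (.void 13 ⟨⟨0, 0, 0, 0, 0, 100000, 0, 0, 0, ⟨0, 0⟩, 0⟩, 0, 0⟩ 0 0) (.cut .d (-131072) (.pos 13 .mm ⟨⟨0, 0, 0, 0, 0, 2877493, 0, 0, 0, ⟨0, 0⟩, 0⟩, 0, 0⟩ 0 0) (.cut .v 15728640 (.pos 20 .mm ⟨⟨0, 0, 0, 0, 0, 922004, 0, 0, 0, ⟨0, 0⟩, 0⟩, 0, 0⟩ 0 0) (.cut .s 4161536 (.cut .v 16252928 (.pos 37 .mm ⟨⟨0, 0, 0, 0, 0, 888968, 0, 0, 0, ⟨0, 0⟩, 0⟩, 0, 0⟩ 0 0) (.cut .d (-65536) (.cut .s 3981312 (.pos 38 .mm ⟨⟨0, 0, 0, 0, 0, 1114755, 0,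 0, 0, ⟨0, 0⟩, 0⟩, 0, 0⟩ 0 0) (.pos 38 .mm ⟨⟨0, 0, 0, 0, 0, 1423437, 0, 0, 0, ⟨0, 0⟩, 0⟩, 0, 0⟩ 0 0)) (.cut .s 3981312 (.pos 38 .mm ⟨⟨0, 0, 0, 0, 0, 901215, 0, 0, 0, ⟨0, 0⟩, 0⟩, 0, 0⟩ 0 0) (.pos 38 .mm ⟨⟨0, 0, 0, 0, 0, 1193124, 0, 0, 0, ⟨0, 0⟩, 0⟩, 0, 0⟩ 0 0)))) (.cut .v 16252928 (.pos 37 .mm ⟨⟨0, 0, 0, 0, 0, 1503893, 0, 0, 0, ⟨0, 0⟩, 0⟩, 0, 0⟩ 0 0) (.cut .d (-65536) (.cut .s 4341760 (.pos 38 .mm ⟨⟨0, 0, 0, 0, 0, 1793228, 0, 0, 0, ⟨0, 0⟩, 0⟩, 0, 0⟩ 0 0) (.pos 38 .mm ⟨⟨0, 0, 0, 0, 0, 2224026, 0, 0, 0, ⟨0, 0⟩, 0⟩, 0, 0⟩ 0 0)) (.cut .s 4341760 (.pos 38 .mm ⟨⟨0, 0, 0, 0, 0, 1517722, 0, 0, 0, ⟨0, 0⟩, 0⟩, 0, 0⟩ 0 0) (.cut .s 4431872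 (.pos 38 .mm ⟨⟨0, 0, 0, 0, 0, 1819229, 0, 0, 0, ⟨0, 0⟩, 0⟩, 0, 0⟩ 0 0) (.pos 38 .mm ⟨⟨0, 0, 0, 0, 0, 2033487, 0, 0, 0, ⟨0, 0⟩, 0⟩, 0, 0⟩ 0 0))))))))))))))))) (.cut .v 25165824 (.cut .d (-8388608) (.void 23 ⟨⟨0, 0, 0, 0, 0, 100000, 0, 0, 0, ⟨0, 0⟩, 0⟩, 0, 0⟩ 0 0) (.cut .d (-4194304) (.void 23 ⟨⟨0, 0, 0, 0, 0, 100000, 0, 0, 0, ⟨0, 0⟩, 0⟩, 0, 0⟩ 0 0) (.cut .d (-2097152) (.void 23 ⟨⟨0, 0, 0, 0, 0, 100000, 0, 0, 0, ⟨0, 0⟩, 0⟩, 0, 0⟩ 0 0) (.cut .v 20971520 (.cut .d (-1048576) (.void 25 ⟨⟨0, 0, 0, 0, 0, 100000, 0, 0, 0, ⟨0, 0⟩, 0⟩, 0, 0⟩ 0 0) (.cut .d (-524288) (.void 25 ⟨⟨0, 0, 0, 0, 0, 100000, 0, 0, 0, ⟨0, 0⟩, 0⟩, 0, 0⟩ 0 0) (.cut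 .d (-262144) (.void 25 ⟨⟨0, 0, 0, 0, 0, 100000, 0, 0, 0, ⟨0, 0⟩, 0⟩, 0, 0⟩ 0 0) (.cut .v 18874368 (.cut .v 17825792 (.cut .v 17301504 (.cut .d (-131072) (.pos 31 .mp ⟨⟨229329, 0, 0, 0, 0, 3759400, 0, 0, 0, ⟨0, 0⟩, 0⟩, 0, 0⟩ 0 0) (.cut .v 17039360 (.cut .v 16908288 (.cut .s 4161536 (.cut .d (-65536) (.cut .s 3981312 (.pos 35 .mp ⟨⟨129807, 0, 0, 0, 0, 1066756, 0, 0, 0, ⟨0, 0⟩, 0⟩, 0, 0⟩ 0 0) (.pos 35 .mp ⟨⟨132462, 0, 0, 0, 0, 1387176, 0, 0, 0, ⟨0, 0⟩, 0⟩, 0, 0⟩ 0 0)) (.cut .s 3981312 (.pos 35 .mp ⟨⟨176868, 0, 0, 0, 0, 812320, 0, 0, 0, ⟨0, 0⟩, 0⟩, 0, 0⟩ 0 0) (.cut .s 4071424 (.pos 35 .mp ⟨⟨305736, 0, 0, 0, 0, 932769, 0, 0, 0, ⟨0,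 0⟩, 0⟩, 0, 0⟩ 0 0) (.pos 35 .mp ⟨⟨298273, 0, 0, 0, 0, 1084419, 0, 0, 0, ⟨0, 0⟩, 0⟩, 0, 0⟩ 0 0)))) (.cut .d (-65536) (.cut .s 4341760 (.pos 35 .mp ⟨⟨160642, 0, 0, 0, 0, 1751206, 0, 0, 0, ⟨0, 0⟩, 0⟩, 0, 0⟩ 0 0) (.pos 35 .mp ⟨⟨214797, 0, 0, 0, 0, 2157220, 0, 0, 0, ⟨0, 0⟩, 0⟩, 0, 0⟩ 0 0)) (.cut .v 16842752 (.cut .l 102527 (.cut .d (-32768) (.pos 41 .mp ⟨⟨109107, 0, 0, 0, 0, 1953311, 0, 0, 0, ⟨0, 0⟩, 0⟩, 0, 0⟩ 0 0) (.cut .s 4341760 (.pos 41 .mp ⟨⟨211668, 0, 0, 0, 0, 1333684, 0, 0, 0, ⟨0, 0⟩, 0⟩, 0, 0⟩ 0 0) (.pos 41 .mp ⟨⟨252091, 0, 0, 0, 0, 1680765, 0, 0, 0, ⟨0, 0⟩, 0⟩, 0, 0⟩ 0 0))) (.pos 41 .mp ⟨⟨310553, 0, 0, 0, 0, 1130275, 0, 0,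 0, ⟨0, 0⟩, 0⟩, 0, 0⟩ 0 0)) (.pos 42 .mp ⟨⟨2481580, 0, 0, 0, 0, 0, 0, 0, 0, ⟨0, 0⟩, 0⟩, 0, 0⟩ 0 0)))) (.pos 36 .mp ⟨⟨2694428, 0, 0, 0, 0, 0, 0, 0, 0, ⟨0, 0⟩, 0⟩, 0, 0⟩ 0 0)) (.void 34 ⟨⟨100000, 0, 0, 0, 0, 0, 0, 0, 0, ⟨0, 0⟩, 0⟩, 0, 0⟩ 0 0))) (.void 32 ⟨⟨100000, 0, 0, 0, 0, 0, 0, 0, 0, ⟨0, 0⟩, 0⟩, 0, 0⟩ 0 0)) (.void 30 ⟨⟨100000, 0, 0, 0, 0, 0, 0, 0, 0, ⟨0, 0⟩, 0⟩, 0, 0⟩ 0 0)) (.void 28 ⟨⟨100000, 0, 0, 0, 0, 0, 0, 0, 0, ⟨0, 0⟩, 0⟩, 0, 0⟩ 0 0))))) (.void 26 ⟨⟨0, 0, 0, 0, 0, 0, 100000, 0, 0, ⟨0, 0⟩, 0⟩, 0, 0⟩ 0 0))))) (.void 24 ⟨⟨0, 0, 0, 0, 0, 0, 100000, 0, 0, ⟨0, 0⟩, 0⟩, 0, 0⟩ 0 0))) (.cut .v 16777216 (.cut .v 8388608 (.void 2 ⟨⟨0,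 0, 0, 0, 100000, 0, 0, 0, 0, ⟨0, 0⟩, 0⟩, 0, 0⟩ 0 0) (.cut .v 12582912 (.void 8 ⟨⟨0, 0, 0, 0, 0, 0, 0, 0, 100000, ⟨0, 0⟩, 13128881⟩, 0, 0⟩ 0 0) (.cut .d 2022667 (.cut .d 1011333 (.cut .d 505666 (.cut .v 14680064 (.pos 12 .pm ⟨⟨0, 0, 0, 0, 0, 0, 0, 0, 0, ⟨0, 0⟩, 0⟩, 0, 931939⟩ 0 0) (.cut .v 15728640 (.cut .d 252833 (.pos 20 .pm ⟨⟨0, 0, 0, 0, 0, 0, 0, 0, 0, ⟨0, 0⟩, 0⟩, 0, 268246⟩ 0 0) (.pos 20 .pm ⟨⟨0, 0, 0, 0, 0, 0, 0, 0, 0, ⟨0, 0⟩, 0⟩, 0, 1027066⟩ 0 0)) (.cut .d 252833 (.cut .v 16252928 (.pos 37 .pm ⟨⟨0, 0, 0, 0, 0, 0, 0, 0, 0, ⟨0, 0⟩, 0⟩, 0, 202982⟩ 0 0) (.pos 38 .pm ⟨⟨0, 0, 0, 0, 0, 0, 0, 0, 0, ⟨0, 0⟩, 0⟩, 0, 141985⟩ 0 0)) (.cut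 .v 16252928 (.pos 37 .pm ⟨⟨0, 0, 0, 0, 0, 0, 0, 0, 0, ⟨0, 0⟩, 0⟩, 0, 947106⟩ 0 0) (.pos 38 .pm ⟨⟨0, 0, 0, 0, 0, 0, 0, 0, 0, ⟨0, 0⟩, 0⟩, 0, 764839⟩ 0 0))))) (.void 9 ⟨⟨0, 0, 0, 0, 0, 0, 0, 0, 0, ⟨0, 0⟩, 0⟩, 0, 100000⟩ 0 0)) (.void 9 ⟨⟨0, 0, 0, 0, 0, 0, 0, 0, 0, ⟨0, 0⟩, 0⟩, 0, 100000⟩ 0 0)) (.void 9 ⟨⟨0, 0, 0, 0, 0, 0, 0, 0, 0, ⟨0, 0⟩, 0⟩, 0, 100000⟩ 0 0)))) (.cut .v 25165824 (.cut .v 20971520 (.cut .d 2022667 (.cut .d 1011333 (.cut .v 18874368 (.cut .d 505666 (.cut .d 252833 (.cut .v 17825792 (.pos 29 .pp ⟨⟨388846, 0, 0, 0, 0, 0, 0, 0, 0, ⟨0, 0⟩, 0⟩, 0, 152722⟩ 0 0) (.void 30 ⟨⟨0, 0, 0, 0, 0, 0, 0, 0, 0, ⟨0, 0⟩, 0⟩, 100000, 0⟩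 0 0)) (.pos 27 .pp ⟨⟨234157, 0, 0, 0, 0, 0, 0, 0, 0, ⟨0, 0⟩, 0⟩, 0, 655756⟩ 0 0)) (.void 27 ⟨⟨0, 0, 0, 0, 0, 0, 3803, 0, 0, ⟨0, 0⟩, 0⟩, 0, 96197⟩ 0 0)) (.void 28 ⟨⟨0, 0, 0, 0, 0, 0, 0, 0, 0, ⟨0, 0⟩, 0⟩, 18465, 81535⟩ 0 0)) (.void 25 ⟨⟨0, 0, 0, 0, 0, 0, 0, 0, 0, ⟨0, 0⟩, 0⟩, 361, 99639⟩ 0 0)) (.void 25 ⟨⟨0, 0, 0, 0, 0, 0, 0, 0, 0, ⟨0, 0⟩, 0⟩, 0, 100000⟩ 0 0)) (.void 26 ⟨⟨0, 0, 0, 0, 0, 0, 0, 0, 0, ⟨0, 0⟩, 0⟩, 18465, 81535⟩ 0 0)) (.void 24 ⟨⟨0, 0, 0, 0, 0, 0, 0, 0, 0, ⟨0, 0⟩, 0⟩, 18465, 81535⟩ 0 0)))),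
    by decide +kernel⟩

def covers4 : cell.Covers Vale.Agent.P237.Petty.Cor.Grid.N18.table row4.1 :=
  ⟨(.cut .d 0 (.cut .v 16777216 (.cut .v 8388608 (.void 2 ⟨⟨0, 0, 0, 0, 50000, 50000, 0, 0, 0, ⟨0, 0⟩, 0⟩, 0, 0⟩ 0 0) (.cut .d (-8388608) (.void 3 ⟨⟨0, 0, 0, 0, 0, 100000, 0, 0, 0, ⟨0, 0⟩, 0⟩, 0, 0⟩ 0 0) (.cut .v 12582912 (.pos 8 .mm ⟨⟨0, 0, 0, 0, 0, 30360916, 0, 0, 0, ⟨0, 0⟩, 0⟩, 0, 0⟩ 0 0) (.cut .d (-4194304) (.void 9 ⟨⟨0, 0, 0, 0, 0, 100000, 0, 0, 0, ⟨0, 0⟩, 0⟩, 0, 0⟩ 0 0) (.cut .d (-2097152) (.void 9 ⟨⟨0, 0, 0, 0, 0, 100000, 0, 0, 0, ⟨0, 0⟩, 0⟩, 0, 0⟩ 0 0) (.cut .d (-1048576) (.void 9 ⟨⟨0, 0, 0, 0, 0, 100000, 0, 0, 0, ⟨0, 0⟩,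 0⟩, 0, 0⟩ 0 0) (.cut .v 14680064 (.pos 12 .mm ⟨⟨0, 0, 0, 0, 0, 6057983, 0, 0, 0, ⟨0, 0⟩, 0⟩, 0, 0⟩ 0 0) (.cut .d (-524288) (.void 13 ⟨⟨0, 0, 0, 0, 0, 100000, 0, 0, 0, ⟨0, 0⟩, 0⟩, 0, 0⟩ 0 0) (.cut .d (-262144) (.void 13 ⟨⟨0, 0, 0, 0, 0, 100000, 0, 0, 0, ⟨0, 0⟩, 0⟩, 0, 0⟩ 0 0) (.cut .d (-131072) (.void 13 ⟨⟨0, 0, 0, 0, 0, 100000, 0, 0, 0, ⟨0, 0⟩, 0⟩, 0, 0⟩ 0 0) (.cut .v 15728640 (.pos 20 .mm ⟨⟨0, 0, 0, 0, 0, 2141544, 0, 0, 0, ⟨0, 0⟩, 0⟩, 0, 0⟩ 0 0) (.cut .s 4882432 (.cut .v 16252928 (.pos 37 .mm ⟨⟨0, 0, 0, 0, 0, 2322534, 0, 0, 0, ⟨0, 0⟩, 0⟩, 0, 0⟩ 0 0) (.cut .d (-65536) (.cut .s 4702208 (.pos 38 .mm ⟨⟨0, 0, 0, 0, 0, 2733786, 0,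 0, 0, ⟨0, 0⟩, 0⟩, 0, 0⟩ 0 0) (.pos 38 .mm ⟨⟨0, 0, 0, 0, 0, 3297469, 0, 0, 0, ⟨0, 0⟩, 0⟩, 0, 0⟩ 0 0)) (.cut .v 16515072 (.pos 39 .mm ⟨⟨0, 0, 0, 0, 0, 2309324, 0, 0, 0, ⟨0, 0⟩, 0⟩, 0, 0⟩ 0 0) (.cut .l 102527 (.cut .d (-32768) (.pos 40 .mm ⟨⟨0, 0, 0, 0, 0, 3011670, 0, 0, 0, ⟨0, 0⟩, 0⟩, 0, 0⟩ 0 0) (.cut .s 4702208 (.pos 40 .mm ⟨⟨0, 0, 0, 0, 0, 2306060, 0, 0, 0, ⟨0, 0⟩, 0⟩, 0, 0⟩ 0 0) (.pos 40 .mm ⟨⟨0, 0, 0, 0, 0, 2792223, 0, 0, 0, ⟨0, 0⟩, 0⟩, 0, 0⟩ 0 0))) (.pos 40 .mm ⟨⟨0, 0, 0, 0, 0, 2250086, 0, 0, 0, ⟨0, 0⟩, 0⟩, 0, 0⟩ 0 0))))) (.cut .d (-65536) (.pos 21 .mm ⟨⟨0, 0, 0, 0, 0, 4585437, 0, 0, 0, ⟨0, 0⟩, 0⟩, 0, 0⟩ 0 0) (.cut .v 16252928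 (.pos 37 .mm ⟨⟨0, 0, 0, 0, 0, 2658310, 0, 0, 0, ⟨0, 0⟩, 0⟩, 0, 0⟩ 0 0) (.cut .v 16515072 (.pos 39 .mm ⟨⟨0, 0, 0, 0, 0, 3355207, 0, 0, 0, ⟨0, 0⟩, 0⟩, 0, 0⟩ 0 0) (.cut .v 16646144 (.pos 47 .mm ⟨⟨0, 0, 0, 0, 0, 3552607, 0, 0, 0, ⟨0, 0⟩, 0⟩, 0, 0⟩ 0 0) (.cut .s 5062656 (.cut .s 4972544 (.pos 48 .mm ⟨⟨0, 0, 0, 0, 0, 3304595, 0, 0, 0, ⟨0, 0⟩, 0⟩, 0, 0⟩ 0 0) (.pos 48 .mm ⟨⟨0, 0, 0, 0, 0, 3630142, 0, 0, 0, ⟨0, 0⟩, 0⟩, 0, 0⟩ 0 0)) (.cut .s 5152768 (.pos 48 .mm ⟨⟨0, 0, 0, 0, 0, 3981307, 0, 0, 0, ⟨0, 0⟩, 0⟩, 0, 0⟩ 0 0) (.pos 48 .mm ⟨⟨0, 0, 0, 0, 0, 4357968, 0, 0, 0, ⟨0, 0⟩, 0⟩, 0, 0⟩ 0 0))))))))))))))))))) (.cut .d (-8388608) (.void 22 ⟨⟨0,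 0, 0, 0, 0, 100000, 0, 0, 0, ⟨0, 0⟩, 0⟩, 0, 0⟩ 0 0) (.cut .v 25165824 (.cut .d (-4194304) (.void 23 ⟨⟨0, 0, 0, 0, 0, 100000, 0, 0, 0, ⟨0, 0⟩, 0⟩, 0, 0⟩ 0 0) (.cut .d (-2097152) (.void 23 ⟨⟨0, 0, 0, 0, 0, 100000, 0, 0, 0, ⟨0, 0⟩, 0⟩, 0, 0⟩ 0 0) (.cut .v 20971520 (.cut .d (-1048576) (.void 25 ⟨⟨0, 0, 0, 0, 0, 100000, 0, 0, 0, ⟨0, 0⟩, 0⟩, 0, 0⟩ 0 0) (.cut .d (-524288) (.void 25 ⟨⟨0, 0, 0, 0, 0, 100000, 0, 0, 0, ⟨0, 0⟩, 0⟩, 0, 0⟩ 0 0) (.cut .d (-262144) (.void 25 ⟨⟨0, 0, 0, 0, 0, 100000, 0, 0, 0, ⟨0, 0⟩, 0⟩, 0, 0⟩ 0 0) (.cut .v 18874368 (.cut .d (-131072) (.void 27 ⟨⟨0, 0, 0, 0, 0, 100000, 0, 0, 0, ⟨0, 0⟩, 0⟩, 0, 0⟩ 0 0) (.cut .v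 17825792 (.cut .v 17301504 (.cut .v 17039360 (.cut .v 16908288 (.cut .d (-65536) (.cut .d (-98304) (.pos 35 .mp ⟨⟨375458, 0, 0, 0, 0, 5128210, 0, 0, 0, ⟨0, 0⟩, 0⟩, 0, 0⟩ 0 0) (.cut .l 102527 (.void 35 ⟨⟨0, 0, 0, 0, 0, 100000, 0, 0, 0, ⟨0, 0⟩, 0⟩, 0, 0⟩ 0 0) (.cut .s 4882432 (.cut .s 4702208 (.pos 35 .mp ⟨⟨296073, 0, 0, 0, 0, 2517513, 0, 0, 0, ⟨0, 0⟩, 0⟩, 0, 0⟩ 0 0) (.pos 35 .mp ⟨⟨417290, 0, 0, 0, 0, 2998694, 0, 0, 0, ⟨0, 0⟩, 0⟩, 0, 0⟩ 0 0)) (.cut .s 5062656 (.pos 35 .mp ⟨⟨584532, 0, 0, 0, 0, 3540603, 0, 0, 0, ⟨0, 0⟩, 0⟩, 0, 0⟩ 0 0) (.pos 35 .mp ⟨⟨798249, 0, 0, 0, 0, 4140307, 0, 0, 0, ⟨0, 0⟩, 0⟩, 0, 0⟩ 0 0))))) (.cut .s 4882432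 (.cut .v 16842752 (.cut .s 4702208 (.cut .s 4612096 (.pos 41 .mp ⟨⟨513110, 0, 0, 0, 0, 1893340, 0, 0, 0, ⟨0, 0⟩, 0⟩, 0, 0⟩ 0 0) (.pos 41 .mp ⟨⟨481438, 0, 0, 0, 0, 2134561, 0, 0, 0, ⟨0, 0⟩, 0⟩, 0, 0⟩ 0 0)) (.cut .s 4792320 (.pos 41 .mp ⟨⟨533820, 0, 0, 0, 0, 2340744, 0, 0, 0, ⟨0, 0⟩, 0⟩, 0, 0⟩ 0 0) (.cut .s 4837376 (.pos 41 .mp ⟨⟨736360, 0, 0, 0, 0, 2401396, 0, 0, 0, ⟨0, 0⟩, 0⟩, 0, 0⟩ 0 0) (.pos 41 .mp ⟨⟨755893, 0, 0, 0, 0, 2528047, 0, 0, 0, ⟨0, 0⟩, 0⟩, 0, 0⟩ 0 0)))) (.pos 42 .mp ⟨⟨3676981, 0, 0, 0, 0, 0, 0, 0, 0, ⟨0, 0⟩, 0⟩, 0, 0⟩ 0 0)) (.cut .v 16842752 (.cut .s 5062656 (.cut .l 102527 (.cut .d (-32768) (.pos 41 .mp ⟨⟨509012,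 0, 0, 0, 0, 3490500, 0, 0, 0, ⟨0, 0⟩, 0⟩, 0, 0⟩ 0 0) (.cut .s 4972544 (.pos 41 .mp ⟨⟨711060, 0, 0, 0, 0, 2712154, 0, 0, 0, ⟨0, 0⟩, 0⟩, 0, 0⟩ 0 0) (.pos 41 .mp ⟨⟨791593, 0, 0, 0, 0, 2967791, 0, 0, 0, ⟨0, 0⟩, 0⟩, 0, 0⟩ 0 0))) (.pos 41 .mp ⟨⟨815239, 0, 0, 0, 0, 2644511, 0, 0, 0, ⟨0, 0⟩, 0⟩, 0, 0⟩ 0 0)) (.cut .s 5152768 (.cut .s 5107712 (.pos 41 .mp ⟨⟨961155, 0, 0, 0, 0, 3173891, 0, 0, 0, ⟨0, 0⟩, 0⟩, 0, 0⟩ 0 0) (.pos 41 .mp ⟨⟨1028029, 0, 0, 0, 0, 3301605, 0, 0, 0, ⟨0, 0⟩, 0⟩, 0, 0⟩ 0 0)) (.cut .s 5197824 (.pos 41 .mp ⟨⟨1104942, 0, 0, 0, 0, 3427459, 0, 0, 0, ⟨0, 0⟩, 0⟩, 0, 0⟩ 0 0) (.pos 41 .mp ⟨⟨1192506, 0, 0, 0, 0, 3550841, 0, 0,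 0, ⟨0, 0⟩, 0⟩, 0, 0⟩ 0 0)))) (.pos 42 .mp ⟨⟨5109879, 0, 0, 0, 0, 0, 0, 0, 0, ⟨0, 0⟩, 0⟩, 0, 0⟩ 0 0)))) (.pos 36 .mp ⟨⟨5800697, 0, 0, 0, 0, 0, 0, 0, 0, ⟨0, 0⟩, 0⟩, 0, 0⟩ 0 0)) (.void 34 ⟨⟨100000, 0, 0, 0, 0, 0, 0, 0, 0, ⟨0, 0⟩, 0⟩, 0, 0⟩ 0 0)) (.void 32 ⟨⟨100000, 0, 0, 0, 0, 0, 0, 0, 0, ⟨0, 0⟩, 0⟩, 0, 0⟩ 0 0)) (.void 30 ⟨⟨100000, 0, 0, 0, 0, 0, 0, 0, 0, ⟨0, 0⟩, 0⟩, 0, 0⟩ 0 0))) (.void 28 ⟨⟨100000, 0, 0, 0, 0, 0, 0, 0, 0, ⟨0, 0⟩, 0⟩, 0, 0⟩ 0 0))))) (.void 26 ⟨⟨100000, 0, 0, 0, 0, 0, 0, 0, 0, ⟨0, 0⟩, 0⟩, 0, 0⟩ 0 0)))) (.void 24 ⟨⟨0, 0, 0, 0, 0, 0, 100000, 0, 0, ⟨0, 0⟩, 0⟩, 0, 0⟩ 0 0)))) (.cut .v 16777216 (.cut .v 8388608 (.void 2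 ⟨⟨0, 0, 0, 0, 100000, 0, 0, 0, 0, ⟨0, 0⟩, 0⟩, 0, 0⟩ 0 0) (.cut .d 2685246 (.cut .v 12582912 (.pos 8 .pm ⟨⟨0, 0, 0, 0, 0, 0, 0, 0, 0, ⟨0, 0⟩, 0⟩, 0, 4356219⟩ 0 0) (.cut .d 1342623 (.cut .d 671311 (.cut .v 14680064 (.pos 12 .pm ⟨⟨0, 0, 0, 0, 0, 0, 0, 0, 0, ⟨0, 0⟩, 0⟩, 0, 990220⟩ 0 0) (.cut .d 335655 (.cut .v 15728640 (.pos 20 .pm ⟨⟨0, 0, 0, 0, 0, 0, 0, 0, 0, ⟨0, 0⟩, 0⟩, 0, 187001⟩ 0 0) (.pos 21 .pm ⟨⟨0, 0, 0, 0, 0, 0, 0, 0, 0, ⟨0, 0⟩, 0⟩, 0, 38489⟩ 0 0)) (.pos 13 .pm ⟨⟨0, 0, 0, 0, 0, 0, 0, 0, 0, ⟨0, 0⟩, 0⟩, 0, 9388290⟩ 0 0))) (.void 9 ⟨⟨0, 0, 0, 0, 0, 0, 0, 0, 0, ⟨0, 0⟩, 0⟩, 0, 100000⟩ 0 0)) (.void 9 ⟨⟨0, 0, 0, 0, 0, 0, 0, 0, 0,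 ⟨0, 0⟩, 0⟩, 0, 100000⟩ 0 0))) (.void 3 ⟨⟨0, 0, 0, 0, 0, 0, 0, 0, 0, ⟨0, 0⟩, 0⟩, 0, 100000⟩ 0 0))) (.cut .v 25165824 (.cut .d 2685246 (.cut .v 20971520 (.cut .d 1342623 (.cut .d 671311 (.cut .v 18874368 (.cut .d 335655 (.cut .v 17825792 (.pos 29 .pp ⟨⟨1381138, 0, 0, 0, 0, 0, 0, 0, 0, ⟨0, 0⟩, 0⟩, 0, 162883⟩ 0 0) (.void 30 ⟨⟨100000, 0, 0, 0, 0, 0, 0, 0, 0, ⟨0, 0⟩, 0⟩, 0, 0⟩ 0 0)) (.pos 27 .pp ⟨⟨241778, 0, 0, 0, 0, 0, 0, 0, 0, ⟨0, 0⟩, 0⟩, 0, 1141727⟩ 0 0)) (.void 28 ⟨⟨0, 0, 0, 0, 0, 0, 0, 0, 0, ⟨0, 0⟩, 0⟩, 17957, 82043⟩ 0 0)) (.void 25 ⟨⟨0, 0, 0, 0, 0, 0, 0, 0, 0, ⟨0, 0⟩, 0⟩, 713, 99287⟩ 0 0)) (.void 25 ⟨⟨0, 0, 0, 0, 0, 0, 0, 0, 0,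 ⟨0, 0⟩, 0⟩, 457, 99543⟩ 0 0)) (.void 26 ⟨⟨0, 0, 0, 0, 0, 0, 0, 0, 0, ⟨0, 0⟩, 0⟩, 17957, 82043⟩ 0 0)) (.void 23 ⟨⟨0, 0, 0, 0, 0, 0, 0, 0, 0, ⟨0, 0⟩, 0⟩, 394, 99606⟩ 0 0)) (.void 24 ⟨⟨0, 0, 0, 0, 0, 0, 0, 0, 0, ⟨0, 0⟩, 0⟩, 17957, 82043⟩ 0 0)))),
    by decide +kernel⟩

def covers5 : cell.Covers Vale.Agent.P237.Petty.Cor.Grid.N18.table row5.1 :=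
  ⟨(.cut .d 0 (.cut .v 16777216 (.cut .d (-8388608) (.void 1 ⟨⟨0, 0, 0, 0, 0, 100000, 0, 0, 0, ⟨0, 0⟩, 0⟩, 0, 0⟩ 0 0) (.cut .d (-4194304) (.void 1 ⟨⟨0, 0, 0, 0, 0, 100000, 0, 0, 0, ⟨0, 0⟩, 0⟩, 0, 0⟩ 0 0) (.cut .d (-2097152) (.void 1 ⟨⟨0, 0, 0, 0, 0, 100000, 0, 0, 0, ⟨0, 0⟩, 0⟩, 0, 0⟩ 0 0) (.cut .d (-1048576) (.void 1 ⟨⟨0, 0, 0, 0, 0, 100000, 0, 0, 0, ⟨0, 0⟩, 0⟩, 0, 0⟩ 0 0) (.cut .d (-524288) (.void 1 ⟨⟨0, 0, 0, 0, 0, 100000, 0, 0, 0, ⟨0, 0⟩, 0⟩, 0, 0⟩ 0 0) (.cut .d (-262144) (.void 1 ⟨⟨0, 0, 0, 0, 0, 100000, 0, 0, 0, ⟨0, 0⟩, 0⟩, 0, 0⟩ 0 0) (.cut .d (-131072) (.void 1 ⟨⟨0, 0, 0, 0, 0, 100000, 0, 0, 0, ⟨0, 0⟩, 0⟩, 0, 0⟩ 0 0) (.cut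 .v 8388608 (.cut .v 4194304 (.void 4 ⟨⟨0, 0, 55126, 0, 44874, 0, 0, 0, 0, ⟨0, 0⟩, 0⟩, 0, 0⟩ 0 0) (.void 5 ⟨⟨0, 0, 0, 0, 0, 0, 0, 0, 100000, ⟨0, 0⟩, 9975792⟩, 0, 0⟩ 0 0)) (.cut .v 12582912 (.pos 8 .mm ⟨⟨0, 0, 0, 0, 0, 1910604, 0, 0, 0, ⟨0, 0⟩, 0⟩, 0, 0⟩ 0 0) (.cut .v 14680064 (.pos 12 .mm ⟨⟨0, 0, 0, 0, 0, 2616347, 0, 0, 0, ⟨0, 0⟩, 0⟩, 0, 0⟩ 0 0) (.cut .v 15728640 (.pos 20 .mm ⟨⟨0, 0, 0, 0, 0, 4432478, 0, 0, 0, ⟨0, 0⟩, 0⟩, 0, 0⟩ 0 0) (.cut .v 16252928 (.pos 37 .mm ⟨⟨0, 0, 0, 0, 0, 5948678, 0, 0, 0, ⟨0, 0⟩, 0⟩, 0, 0⟩ 0 0) (.cut .d (-65536) (.cut .s 5636096 (.pos 38 .mm ⟨⟨0, 0, 0, 0, 0, 6681699, 0, 0, 0, ⟨0, 0⟩, 0⟩, 0, 0⟩ 0 0) (.pos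 38 .mm ⟨⟨0, 0, 0, 0, 0, 9425980, 0, 0, 0, ⟨0, 0⟩, 0⟩, 0, 0⟩ 0 0)) (.cut .v 16515072 (.pos 39 .mm ⟨⟨0, 0, 0, 0, 0, 5575035, 0, 0, 0, ⟨0, 0⟩, 0⟩, 0, 0⟩ 0 0) (.cut .s 5636096 (.cut .v 16646144 (.pos 47 .mm ⟨⟨0, 0, 0, 0, 0, 5189336, 0, 0, 0, ⟨0, 0⟩, 0⟩, 0, 0⟩ 0 0) (.cut .s 5439488 (.cut .s 5341184 (.pos 48 .mm ⟨⟨0, 0, 0, 0, 0, 4780779, 0, 0, 0, ⟨0, 0⟩, 0⟩, 0, 0⟩ 0 0) (.pos 48 .mm ⟨⟨0, 0, 0, 0, 0, 5215872, 0, 0, 0, ⟨0, 0⟩, 0⟩, 0, 0⟩ 0 0)) (.cut .s 5537792 (.pos 48 .mm ⟨⟨0, 0, 0, 0, 0, 5701780, 0, 0, 0, ⟨0, 0⟩, 0⟩, 0, 0⟩ 0 0) (.pos 48 .mm ⟨⟨0, 0, 0, 0, 0, 6238267, 0, 0, 0, ⟨0, 0⟩, 0⟩, 0, 0⟩ 0 0)))) (.cut .v 16646144 (.pos 47 .mm ⟨⟨0,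 0, 0, 0, 0, 7403295, 0, 0, 0, ⟨0, 0⟩, 0⟩, 0, 0⟩ 0 0) (.cut .s 5832704 (.cut .s 5734400 (.pos 48 .mm ⟨⟨0, 0, 0, 0, 0, 6825060, 0, 0, 0, ⟨0, 0⟩, 0⟩, 0, 0⟩ 0 0) (.pos 48 .mm ⟨⟨0, 0, 0, 0, 0, 7461853, 0, 0, 0, ⟨0, 0⟩, 0⟩, 0, 0⟩ 0 0)) (.cut .s 5931008 (.pos 48 .mm ⟨⟨0, 0, 0, 0, 0, 8148302, 0, 0, 0, ⟨0, 0⟩, 0⟩, 0, 0⟩ 0 0) (.pos 48 .mm ⟨⟨0, 0, 0, 0, 0, 8884028, 0, 0, 0, ⟨0, 0⟩, 0⟩, 0, 0⟩ 0 0))))))))))))))))))) (.cut .d (-8388608) (.void 22 ⟨⟨0, 0, 0, 0, 0, 100000, 0, 0, 0, ⟨0, 0⟩, 0⟩, 0, 0⟩ 0 0) (.cut .v 25165824 (.cut .d (-4194304) (.void 23 ⟨⟨0, 0, 0, 0, 0, 100000, 0, 0, 0, ⟨0, 0⟩, 0⟩, 0, 0⟩ 0 0) (.cut .d (-2097152) (.void 23 ⟨⟨0,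 0, 0, 0, 0, 100000, 0, 0, 0, ⟨0, 0⟩, 0⟩, 0, 0⟩ 0 0) (.cut .v 20971520 (.cut .d (-1048576) (.void 25 ⟨⟨0, 0, 0, 0, 0, 100000, 0, 0, 0, ⟨0, 0⟩, 0⟩, 0, 0⟩ 0 0) (.cut .d (-524288) (.void 25 ⟨⟨0, 0, 0, 0, 0, 100000, 0, 0, 0, ⟨0, 0⟩, 0⟩, 0, 0⟩ 0 0) (.cut .d (-262144) (.void 25 ⟨⟨0, 0, 0, 0, 0, 100000, 0, 0, 0, ⟨0, 0⟩, 0⟩, 0, 0⟩ 0 0) (.cut .d (-131072) (.void 25 ⟨⟨0, 0, 0, 0, 0, 100000, 0, 0, 0, ⟨0, 0⟩, 0⟩, 0, 0⟩ 0 0) (.cut .v 18874368 (.cut .v 17825792 (.cut .v 17301504 (.cut .v 17039360 (.cut .v 16908288 (.cut .d (-65536) (.cut .s 5636096 (.cut .s 5439488 (.pos 35 .mp ⟨⟨1084266, 0, 0, 0, 0, 5285067, 0, 0, 0, ⟨0, 0⟩, 0⟩, 0, 0⟩ 0 0)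 (.pos 35 .mp ⟨⟨1479848, 0, 0, 0, 0, 6090632, 0, 0, 0, ⟨0, 0⟩, 0⟩, 0, 0⟩ 0 0)) (.pos 35 .mp ⟨⟨1860567, 0, 0, 0, 0, 8657457, 0, 0, 0, ⟨0, 0⟩, 0⟩, 0, 0⟩ 0 0)) (.cut .s 5636096 (.cut .v 16842752 (.cut .s 5439488 (.cut .s 5341184 (.cut .s 5292032 (.pos 41 .mp ⟨⟨1231447, 0, 0, 0, 0, 3727420, 0, 0, 0, ⟨0, 0⟩, 0⟩, 0, 0⟩ 0 0) (.pos 41 .mp ⟨⟨1282001, 0, 0, 0, 0, 3887559, 0, 0, 0, ⟨0, 0⟩, 0⟩, 0, 0⟩ 0 0)) (.cut .d (-32768) (.pos 41 .mp ⟨⟨1101075, 0, 0, 0, 0, 4583026, 0, 0, 0, ⟨0, 0⟩, 0⟩, 0, 0⟩ 0 0) (.cut .s 5390336 (.pos 41 .mp ⟨⟨1531303, 0, 0, 0, 0, 3844283, 0, 0, 0, ⟨0, 0⟩, 0⟩, 0, 0⟩ 0 0) (.pos 41 .mp ⟨⟨1578262, 0, 0, 0, 0, 4026469, 0,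 0, 0, ⟨0, 0⟩, 0⟩, 0, 0⟩ 0 0)))) (.cut .s 5537792 (.cut .d (-32768) (.cut .s 5488640 (.pos 41 .mp ⟨⟨1283219, 0, 0, 0, 0, 4749714, 0, 0, 0, ⟨0, 0⟩, 0⟩, 0, 0⟩ 0 0) (.pos 41 .mp ⟨⟨1382600, 0, 0, 0, 0, 4924353, 0, 0, 0, ⟨0, 0⟩, 0⟩, 0, 0⟩ 0 0)) (.cut .s 5488640 (.pos 41 .mp ⟨⟨1634156, 0, 0, 0, 0, 4214041, 0, 0, 0, ⟨0, 0⟩, 0⟩, 0, 0⟩ 0 0) (.pos 41 .mp ⟨⟨1700093, 0, 0, 0, 0, 4406018, 0, 0, 0, ⟨0, 0⟩, 0⟩, 0, 0⟩ 0 0))) (.cut .d (-32768) (.cut .s 5586944 (.pos 41 .mp ⟨⟨1487575, 0, 0, 0, 0, 5106838, 0, 0, 0, ⟨0, 0⟩, 0⟩, 0, 0⟩ 0 0) (.pos 41 .mp ⟨⟨1598187, 0, 0, 0, 0, 5297121, 0, 0, 0, ⟨0, 0⟩, 0⟩, 0, 0⟩ 0 0)) (.cut .s 5586944 (.pos 41 .mp ⟨⟨1777186,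 0, 0, 0, 0, 4601394, 0, 0, 0, ⟨0, 0⟩, 0⟩, 0, 0⟩ 0 0) (.pos 41 .mp ⟨⟨1866552, 0, 0, 0, 0, 4799134, 0, 0, 0, ⟨0, 0⟩, 0⟩, 0, 0⟩ 0 0))))) (.pos 42 .mp ⟨⟨7172522, 0, 0, 0, 0, 0, 0, 0, 0, ⟨0, 0⟩, 0⟩, 0, 0⟩ 0 0)) (.cut .v 16842752 (.cut .s 5832704 (.cut .s 5734400 (.cut .d (-32768) (.cut .s 5685248 (.pos 41 .mp ⟨⟨1714479, 0, 0, 0, 0, 5495151, 0, 0, 0, ⟨0, 0⟩, 0⟩, 0, 0⟩ 0 0) (.pos 41 .mp ⟨⟨1836495, 0, 0, 0, 0, 5700872, 0, 0, 0, ⟨0, 0⟩, 0⟩, 0, 0⟩ 0 0)) (.cut .s 5685248 (.pos 41 .mp ⟨⟨1969318, 0, 0, 0, 0, 4998175, 0, 0, 0, ⟨0, 0⟩, 0⟩, 0, 0⟩ 0 0) (.pos 41 .mp ⟨⟨2086616, 0, 0, 0, 0, 5197423, 0, 0, 0, ⟨0, 0⟩, 0⟩, 0, 0⟩ 0 0))) (.cut .d (-32768)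 (.cut .s 5783552 (.pos 41 .mp ⟨⟨1964282, 0, 0, 0, 0, 5914225, 0, 0, 0, ⟨0, 0⟩, 0⟩, 0, 0⟩ 0 0) (.pos 41 .mp ⟨⟨2097886, 0, 0, 0, 0, 6135145, 0, 0, 0, ⟨0, 0⟩, 0⟩, 0, 0⟩ 0 0)) (.cut .s 5783552 (.pos 41 .mp ⟨⟨2219583, 0, 0, 0, 0, 5395757, 0, 0, 0, ⟨0, 0⟩, 0⟩, 0, 0⟩ 0 0) (.pos 41 .mp ⟨⟨2369367, 0, 0, 0, 0, 5592025, 0, 0, 0, ⟨0, 0⟩, 0⟩, 0, 0⟩ 0 0)))) (.cut .s 5931008 (.cut .d (-32768) (.cut .s 5881856 (.pos 41 .mp ⟨⟨2237354, 0, 0, 0, 0, 6363563, 0, 0, 0, ⟨0, 0⟩, 0⟩, 0, 0⟩ 0 0) (.pos 41 .mp ⟨⟨2382736, 0, 0, 0, 0, 6599404, 0, 0, 0, ⟨0, 0⟩, 0⟩, 0, 0⟩ 0 0)) (.cut .s 5881856 (.pos 41 .mp ⟨⟨2537121, 0, 0, 0, 0, 5785045, 0, 0, 0, ⟨0, 0⟩, 0⟩,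 0, 0⟩ 0 0) (.pos 41 .mp ⟨⟨2724007, 0, 0, 0, 0, 5973604, 0, 0, 0, ⟨0, 0⟩, 0⟩, 0, 0⟩ 0 0))) (.cut .d (-32768) (.pos 41 .mp ⟨⟨2534081, 0, 0, 0, 0, 7108165, 0, 0, 0, ⟨0, 0⟩, 0⟩, 0, 0⟩ 0 0) (.cut .s 5980160 (.pos 41 .mp ⟨⟨2931195, 0, 0, 0, 0, 6156457, 0, 0, 0, ⟨0, 0⟩, 0⟩, 0, 0⟩ 0 0) (.pos 41 .mp ⟨⟨3159865, 0, 0, 0, 0, 6332326, 0, 0, 0, ⟨0, 0⟩, 0⟩, 0, 0⟩ 0 0))))) (.pos 42 .mp ⟨⟨9742668, 0, 0, 0, 0, 0, 0, 0, 0, ⟨0, 0⟩, 0⟩, 0, 0⟩ 0 0)))) (.pos 36 .mp ⟨⟨10866294, 0, 0, 0, 0, 0, 0, 0, 0, ⟨0, 0⟩, 0⟩, 0, 0⟩ 0 0)) (.void 34 ⟨⟨100000, 0, 0, 0, 0, 0, 0, 0, 0, ⟨0, 0⟩, 0⟩, 0, 0⟩ 0 0)) (.void 32 ⟨⟨100000, 0, 0, 0, 0, 0, 0, 0, 0, ⟨0, 0⟩, 0⟩, 0,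 0⟩ 0 0)) (.void 30 ⟨⟨100000, 0, 0, 0, 0, 0, 0, 0, 0, ⟨0, 0⟩, 0⟩, 0, 0⟩ 0 0)) (.void 28 ⟨⟨100000, 0, 0, 0, 0, 0, 0, 0, 0, ⟨0, 0⟩, 0⟩, 0, 0⟩ 0 0)))))) (.void 26 ⟨⟨100000, 0, 0, 0, 0, 0, 0, 0, 0, ⟨0, 0⟩, 0⟩, 0, 0⟩ 0 0)))) (.void 24 ⟨⟨0, 0, 0, 0, 0, 0, 100000, 0, 0, ⟨0, 0⟩, 0⟩, 0, 0⟩ 0 0)))) (.cut .v 16777216 (.cut .d 3599000 (.cut .d 1799500 (.cut .d 899750 (.cut .v 8388608 (.cut .v 4194304 (.void 4 ⟨⟨0, 0, 50000, 0, 50000, 0, 0, 0, 0, ⟨0, 0⟩, 0⟩, 0, 0⟩ 0 0) (.void 5 ⟨⟨0, 0, 0, 0, 0, 0, 0, 0, 100000, ⟨0, 0⟩, 9975792⟩, 0, 0⟩ 0 0)) (.cut .v 12582912 (.pos 8 .pm ⟨⟨0, 0, 0, 0, 0, 0, 0, 0, 0, ⟨0, 0⟩, 0⟩, 0, 1211147⟩ 0 0) (.cut .v 14680064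 (.pos 12 .pm ⟨⟨0, 0, 0, 0, 0, 0, 0, 0, 0, ⟨0, 0⟩, 0⟩, 0, 888554⟩ 0 0) (.cut .d 449875 (.pos 13 .pm ⟨⟨0, 0, 0, 0, 0, 0, 0, 0, 0, ⟨0, 0⟩, 0⟩, 0, 0⟩ 0 0) (.pos 13 .pm ⟨⟨0, 0, 0, 0, 0, 0, 0, 0, 0, ⟨0, 0⟩, 0⟩, 0, 11883855⟩ 0 0))))) (.void 1 ⟨⟨0, 0, 0, 0, 0, 0, 0, 0, 0, ⟨0, 0⟩, 0⟩, 0, 100000⟩ 0 0)) (.void 1 ⟨⟨0, 0, 0, 0, 0, 0, 0, 0, 0, ⟨0, 0⟩, 0⟩, 0, 100000⟩ 0 0)) (.void 1 ⟨⟨0, 0, 0, 0, 0, 0, 0, 0, 0, ⟨0, 0⟩, 0⟩, 0, 100000⟩ 0 0)) (.cut .v 25165824 (.cut .d 3599000 (.cut .v 20971520 (.cut .d 1799500 (.cut .d 899750 (.cut .v 18874368 (.cut .d 449875 (.cut .s 5636096 (.cut .s 5439488 (.pos 27 .pp ⟨⟨2965096, 0, 0, 0, 0, 0, 0, 0, 0, ⟨0,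 0⟩, 0⟩, 0, 152047⟩ 0 0) (.pos 27 .pp ⟨⟨3664814, 0, 0, 0, 0, 0, 0, 0, 0, ⟨0, 0⟩, 0⟩, 0, 108011⟩ 0 0)) (.pos 27 .pp ⟨⟨5196395, 0, 0, 0, 0, 0, 0, 0, 0, ⟨0, 0⟩, 0⟩, 0, 149685⟩ 0 0)) (.pos 27 .pp ⟨⟨1301147, 0, 0, 0, 0, 0, 0, 0, 0, ⟨0, 0⟩, 0⟩, 0, 3609125⟩ 0 0)) (.void 28 ⟨⟨73045, 0, 0, 0, 0, 0, 0, 0, 0, ⟨0, 0⟩, 0⟩, 0, 26955⟩ 0 0)) (.void 25 ⟨⟨0, 0, 0, 0, 0, 0, 0, 0, 0, ⟨0, 0⟩, 0⟩, 965, 99035⟩ 0 0)) (.void 25 ⟨⟨0, 0, 0, 0, 0, 0, 0, 0, 0, ⟨0, 0⟩, 0⟩, 0, 100000⟩ 0 0)) (.void 26 ⟨⟨0, 0, 0, 0, 0, 0, 0, 0, 0, ⟨0, 0⟩, 0⟩, 17225, 82775⟩ 0 0)) (.void 23 ⟨⟨0, 0, 0, 0, 0, 0, 0, 0, 0, ⟨0, 0⟩, 0⟩, 0, 100000⟩ 0 0)) (.void 24 ⟨⟨0, 0, 0, 0, 0, 0, 0,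 0, 0, ⟨0, 0⟩, 0⟩, 17225, 82775⟩ 0 0)))),
    by decide +kernel⟩

def covers6 : cell.Covers Vale.Agent.P237.Petty.Cor.Grid.N18.table row6.1 :=
  ⟨(.cut .d 0 (.cut .v 16777216 (.cut .d (-8388608) (.void 1 ⟨⟨0, 0, 0, 0, 0, 100000, 0, 0, 0, ⟨0, 0⟩, 0⟩, 0, 0⟩ 0 0) (.cut .d (-4194304) (.void 1 ⟨⟨0, 0, 0, 0, 0, 100000, 0, 0, 0, ⟨0, 0⟩, 0⟩, 0, 0⟩ 0 0) (.cut .d (-2097152) (.void 1 ⟨⟨0, 0, 0, 0, 0, 100000, 0, 0, 0, ⟨0, 0⟩, 0⟩, 0, 0⟩ 0 0) (.cut .d (-1048576) (.void 1 ⟨⟨0, 0, 0, 0, 0, 100000, 0, 0, 0, ⟨0, 0⟩, 0⟩, 0, 0⟩ 0 0) (.cut .d (-524288) (.void 1 ⟨⟨0, 0, 0, 0, 0, 100000, 0, 0, 0, ⟨0, 0⟩, 0⟩, 0, 0⟩ 0 0) (.cut .d (-262144) (.void 1 ⟨⟨0,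 0, 0, 0, 0, 100000, 0, 0, 0, ⟨0, 0⟩, 0⟩, 0, 0⟩ 0 0) (.cut .d (-131072) (.void 1 ⟨⟨0, 0, 0, 0, 0, 100000, 0, 0, 0, ⟨0, 0⟩, 0⟩, 0, 0⟩ 0 0) (.cut .d (-65536) (.void 1 ⟨⟨0, 0, 0, 0, 0, 100000, 0, 0, 0, ⟨0, 0⟩, 0⟩, 0, 0⟩ 0 0) (.cut .v 8388608 (.cut .v 4194304 (.void 4 ⟨⟨0, 0, 100000, 0, 0, 0, 0, 0, 0, ⟨0, 0⟩, 0⟩, 0, 0⟩ 0 0) (.pos 5 .mm ⟨⟨0, 0, 0, 0, 0, 6079355, 0, 0, 136855, ⟨0, 0⟩, 9975792⟩, 0, 0⟩ 0 0)) (.cut .v 12582912 (.pos 8 .mm ⟨⟨0, 0, 0, 0, 0, 5049676, 0, 0, 0, ⟨0, 0⟩, 0⟩, 0, 0⟩ 0 0) (.cut .v 14680064 (.pos 12 .mm ⟨⟨0, 0, 0, 0, 0, 6622304, 0, 0, 0, ⟨0, 0⟩, 0⟩, 0, 0⟩ 0 0) (.cut .v 15728640 (.pos 20 .mm ⟨⟨0, 0, 0, 0, 0, 7618060,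 0, 0, 0, ⟨0, 0⟩, 0⟩, 0, 0⟩ 0 0) (.cut .v 16252928 (.pos 37 .mm ⟨⟨0, 0, 0, 0, 0, 9051666, 0, 0, 0, ⟨0, 0⟩, 0⟩, 0, 0⟩ 0 0) (.cut .v 16515072 (.pos 39 .mm ⟨⟨0, 0, 0, 0, 0, 11349141, 0, 0, 0, ⟨0, 0⟩, 0⟩, 0, 0⟩ 0 0) (.cut .s 6422528 (.cut .v 16646144 (.pos 47 .mm ⟨⟨0, 0, 0, 0, 0, 10530101, 0, 0, 0, ⟨0, 0⟩, 0⟩, 0, 0⟩ 0 0) (.cut .s 6225920 (.cut .s 6127616 (.pos 48 .mm ⟨⟨0, 0, 0, 0, 0, 9678959, 0, 0, 0, ⟨0, 0⟩, 0⟩, 0, 0⟩ 0 0) (.pos 48 .mm ⟨⟨0, 0, 0, 0, 0, 10440937, 0, 0, 0, ⟨0, 0⟩, 0⟩, 0, 0⟩ 0 0)) (.cut .s 6324224 (.pos 48 .mm ⟨⟨0, 0, 0, 0, 0, 11285474, 0, 0, 0, ⟨0, 0⟩, 0⟩, 0, 0⟩ 0 0) (.pos 48 .mm ⟨⟨0, 0, 0, 0, 0, 12211998, 0, 0, 0,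 ⟨0, 0⟩, 0⟩, 0, 0⟩ 0 0)))) (.cut .v 16646144 (.pos 47 .mm ⟨⟨0, 0, 0, 0, 0, 14414792, 0, 0, 0, ⟨0, 0⟩, 0⟩, 0, 0⟩ 0 0) (.cut .s 6619136 (.cut .s 6520832 (.pos 48 .mm ⟨⟨0, 0, 0, 0, 0, 13219893, 0, 0, 0, ⟨0, 0⟩, 0⟩, 0, 0⟩ 0 0) (.pos 48 .mm ⟨⟨0, 0, 0, 0, 0, 14308497, 0, 0, 0, ⟨0, 0⟩, 0⟩, 0, 0⟩ 0 0)) (.cut .s 6717440 (.pos 48 .mm ⟨⟨0, 0, 0, 0, 0, 15477107, 0, 0, 0, ⟨0, 0⟩, 0⟩, 0, 0⟩ 0 0) (.pos 48 .mm ⟨⟨0, 0, 0, 0, 0, 16724976, 0, 0, 0, ⟨0, 0⟩, 0⟩, 0, 0⟩ 0 0))))))))))))))))))) (.cut .d (-8388608) (.void 22 ⟨⟨0, 0, 0, 0, 0, 100000, 0, 0, 0, ⟨0, 0⟩, 0⟩, 0, 0⟩ 0 0) (.cut .v 25165824 (.cut .d (-4194304) (.void 23 ⟨⟨0, 0, 0, 0, 0, 100000,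 0, 0, 0, ⟨0, 0⟩, 0⟩, 0, 0⟩ 0 0) (.cut .d (-2097152) (.void 23 ⟨⟨0, 0, 0, 0, 0, 100000, 0, 0, 0, ⟨0, 0⟩, 0⟩, 0, 0⟩ 0 0) (.cut .v 20971520 (.cut .d (-1048576) (.void 25 ⟨⟨0, 0, 0, 0, 0, 100000, 0, 0, 0, ⟨0, 0⟩, 0⟩, 0, 0⟩ 0 0) (.cut .d (-524288) (.void 25 ⟨⟨0, 0, 0, 0, 0, 100000, 0, 0, 0, ⟨0, 0⟩, 0⟩, 0, 0⟩ 0 0) (.cut .d (-262144) (.void 25 ⟨⟨0, 0, 0, 0, 0, 100000, 0, 0, 0, ⟨0, 0⟩, 0⟩, 0, 0⟩ 0 0) (.cut .d (-131072) (.void 25 ⟨⟨0, 0, 0, 0, 0, 100000, 0, 0, 0, ⟨0, 0⟩, 0⟩, 0, 0⟩ 0 0) (.cut .v 18874368 (.cut .d (-65536) (.void 27 ⟨⟨0, 0, 0, 0, 0, 100000, 0, 0, 0, ⟨0, 0⟩, 0⟩, 0, 0⟩ 0 0) (.cut .v 17825792 (.cut .v 17301504 (.cut .v 17039360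 (.cut .v 16908288 (.cut .s 6422528 (.cut .v 16842752 (.cut .s 6225920 (.cut .s 6127616 (.cut .d (-32768) (.pos 41 .mp ⟨⟨2856587, 0, 0, 0, 0, 7641534, 0, 0, 0, ⟨0, 0⟩, 0⟩, 0, 0⟩ 0 0) (.cut .s 6078464 (.pos 41 .mp ⟨⟨3382666, 0, 0, 0, 0, 6527405, 0, 0, 0, ⟨0, 0⟩, 0⟩, 0, 0⟩ 0 0) (.pos 41 .mp ⟨⟨3441678, 0, 0, 0, 0, 6813003, 0, 0, 0, ⟨0, 0⟩, 0⟩, 0, 0⟩ 0 0))) (.cut .d (-32768) (.cut .s 6176768 (.pos 41 .mp ⟨⟨3208277, 0, 0, 0, 0, 7765706, 0, 0, 0, ⟨0, 0⟩, 0⟩, 0, 0⟩ 0 0) (.pos 41 .mp ⟨⟨3397327, 0, 0, 0, 0, 7991157, 0, 0, 0, ⟨0, 0⟩, 0⟩, 0, 0⟩ 0 0)) (.cut .s 6176768 (.pos 41 .mp ⟨⟨3537202, 0, 0, 0, 0, 7086776, 0, 0, 0, ⟨0, 0⟩, 0⟩, 0, 0⟩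 0 0) (.cut .s 6201344 (.pos 41 .mp ⟨⟨3902790, 0, 0, 0, 0, 7065294, 0, 0, 0, ⟨0, 0⟩, 0⟩, 0, 0⟩ 0 0) (.pos 41 .mp ⟨⟨3959415, 0, 0, 0, 0, 7209840, 0, 0, 0, ⟨0, 0⟩, 0⟩, 0, 0⟩ 0 0))))) (.cut .s 6324224 (.cut .d (-32768) (.cut .s 6275072 (.pos 41 .mp ⟨⟨3595283, 0, 0, 0, 0, 8228576, 0, 0, 0, ⟨0, 0⟩, 0⟩, 0, 0⟩ 0 0) (.pos 41 .mp ⟨⟨3802225, 0, 0, 0, 0, 8477850, 0, 0, 0, ⟨0, 0⟩, 0⟩, 0, 0⟩ 0 0)) (.cut .v 16809984 (.cut .l 102527 (.cut .d (-16384) (.pos 43 .mp ⟨⟨3573351, 0, 0, 0, 0, 8484441, 0, 0, 0, ⟨0, 0⟩, 0⟩, 0, 0⟩ 0 0) (.cut .s 6275072 (.pos 43 .mp ⟨⟨3900692, 0, 0, 0, 0, 7499550, 0, 0, 0, ⟨0, 0⟩, 0⟩, 0, 0⟩ 0 0) (.cut .s 6299648 (.pos 43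 .mp ⟨⟨4353534, 0, 0, 0, 0, 7428914, 0, 0, 0, ⟨0, 0⟩, 0⟩, 0, 0⟩ 0 0) (.pos 43 .mp ⟨⟨4429809, 0, 0, 0, 0, 7575435, 0, 0, 0, ⟨0, 0⟩, 0⟩, 0, 0⟩ 0 0)))) (.pos 43 .mp ⟨⟨4069328, 0, 0, 0, 0, 7159748, 0, 0, 0, ⟨0, 0⟩, 0⟩, 0, 0⟩ 0 0)) (.pos 44 .mp ⟨⟨11916442, 0, 0, 0, 0, 0, 0, 0, 0, ⟨0, 0⟩, 0⟩, 0, 0⟩ 0 0))) (.cut .d (-32768) (.cut .s 6373376 (.pos 41 .mp ⟨⟨4018232, 0, 0, 0, 0, 8738861, 0, 0, 0, ⟨0, 0⟩, 0⟩, 0, 0⟩ 0 0) (.pos 41 .mp ⟨⟨4243387, 0, 0, 0, 0, 9011483, 0, 0, 0, ⟨0, 0⟩, 0⟩, 0, 0⟩ 0 0)) (.cut .l 102527 (.cut .v 16809984 (.cut .d (-16384) (.pos 43 .mp ⟨⟨3996507, 0, 0, 0, 0, 9000706, 0, 0, 0, ⟨0, 0⟩, 0⟩, 0, 0⟩ 0 0) (.cut .v 16793600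 (.cut .l 51263 (.cut .d (-8192) (.pos 51 .mp ⟨⟨3986254, 0, 0, 0, 0, 8996979, 0, 0, 0, ⟨0, 0⟩, 0⟩, 0, 0⟩ 0 0) (.cut .s 6373376 (.pos 51 .mp ⟨⟨4270018, 0, 0, 0, 0, 8005643, 0, 0, 0, ⟨0, 0⟩, 0⟩, 0, 0⟩ 0 0) (.cut .s 6397952 (.pos 51 .mp ⟨⟨4754306, 0, 0, 0, 0, 7944210, 0, 0, 0, ⟨0, 0⟩, 0⟩, 0, 0⟩ 0 0) (.pos 51 .mp ⟨⟨4858874, 0, 0, 0, 0, 8083680, 0, 0, 0, ⟨0, 0⟩, 0⟩, 0, 0⟩ 0 0)))) (.pos 51 .mp ⟨⟨4483766, 0, 0, 0, 0, 7562775, 0, 0, 0, ⟨0, 0⟩, 0⟩, 0, 0⟩ 0 0)) (.pos 52 .mp ⟨⟨12735368, 0, 0, 0, 0, 0, 0, 0, 0, ⟨0, 0⟩, 0⟩, 0, 0⟩ 0 0))) (.pos 44 .mp ⟨⟨14811847, 0, 0, 0, 0, 0, 0, 0, 0, ⟨0, 0⟩, 0⟩, 0, 0⟩ 0 0)) (.pos 41 .mp ⟨⟨4560739, 0, 0, 0,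 0, 7614852, 0, 0, 0, ⟨0, 0⟩, 0⟩, 0, 0⟩ 0 0))))) (.pos 42 .mp ⟨⟨13300926, 0, 0, 0, 0, 0, 0, 0, 0, ⟨0, 0⟩, 0⟩, 0, 0⟩ 0 0)) (.cut .s 6619136 (.cut .v 16842752 (.cut .s 6520832 (.cut .d (-32768) (.cut .s 6471680 (.pos 41 .mp ⟨⟨4477777, 0, 0, 0, 0, 9295583, 0, 0, 0, ⟨0, 0⟩, 0⟩, 0, 0⟩ 0 0) (.pos 41 .mp ⟨⟨4721488, 0, 0, 0, 0, 9591021, 0, 0, 0, ⟨0, 0⟩, 0⟩, 0, 0⟩ 0 0)) (.cut .l 102527 (.cut .v 16809984 (.cut .d (-16384) (.cut .s 6471680 (.pos 43 .mp ⟨⟨4456383, 0, 0, 0, 0, 9191009, 0, 0, 0, ⟨0, 0⟩, 0⟩, 0, 0⟩ 0 0) (.pos 43 .mp ⟨⟨4700307, 0, 0, 0, 0, 9482773, 0, 0, 0, ⟨0, 0⟩, 0⟩, 0, 0⟩ 0 0)) (.cut .v 16793600 (.cut .l 51263 (.cut .d (-8192)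 (.pos 51 .mp ⟨⟨4446309, 0, 0, 0, 0, 9569170, 0, 0, 0, ⟨0, 0⟩, 0⟩, 0, 0⟩ 0 0) (.cut .v 16785408 (.cut .l 25631 (.cut .d (-4096) (.pos 53 .mp ⟨⟨4441429, 0, 0, 0, 0, 9566574, 0, 0, 0, ⟨0, 0⟩, 0⟩, 0, 0⟩ 0 0) (.cut .v 16781312 (.cut .l 12815 (.cut .d (-2048) (.pos 55 .mp ⟨⟨4439031, 0, 0, 0, 0, 9565255, 0, 0, 0, ⟨0, 0⟩, 0⟩, 0, 0⟩ 0 0) (.cut .s 6471680 (.pos 55 .mp ⟨⟨4706280, 0, 0, 0, 0, 8534885, 0, 0, 0, ⟨0, 0⟩, 0⟩, 0, 0⟩ 0 0) (.cut .s 6496256 (.pos 55 .mp ⟨⟨5202962, 0, 0, 0, 0, 8505434, 0, 0, 0, ⟨0, 0⟩, 0⟩, 0, 0⟩ 0 0) (.pos 55 .mp ⟨⟨5329252, 0, 0, 0, 0, 8645686, 0, 0, 0, ⟨0, 0⟩, 0⟩, 0, 0⟩ 0 0)))) (.pos 55 .mp ⟨⟨4429751, 0, 0, 0, 0,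 8538461, 0, 0, 0, ⟨0, 0⟩, 0⟩, 0, 0⟩ 0 0)) (.pos 56 .mp ⟨⟨8937436, 0, 0, 0, 0, 4847527, 0, 0, 0, ⟨0, 0⟩, 0⟩, 0, 0⟩ 0 0))) (.pos 53 .mp ⟨⟨4422850, 0, 0, 0, 0, 8576638, 0, 0, 0, ⟨0, 0⟩, 0⟩, 0, 0⟩ 0 0)) (.pos 54 .mp ⟨⟨13643819, 0, 0, 0, 0, 0, 0, 0, 0, ⟨0, 0⟩, 0⟩, 0, 0⟩ 0 0))) (.pos 51 .mp ⟨⟨4409077, 0, 0, 0, 0, 8653065, 0, 0, 0, ⟨0, 0⟩, 0⟩, 0, 0⟩ 0 0)) (.pos 52 .mp ⟨⟨13652252, 0, 0, 0, 0, 0, 0, 0, 0, ⟨0, 0⟩, 0⟩, 0, 0⟩ 0 0))) (.pos 44 .mp ⟨⟨15816583, 0, 0, 0, 0, 0, 0, 0, 0, ⟨0, 0⟩, 0⟩, 0, 0⟩ 0 0)) (.pos 41 .mp ⟨⟨5063751, 0, 0, 0, 0, 8114672, 0, 0, 0, ⟨0, 0⟩, 0⟩, 0, 0⟩ 0 0))) (.cut .d (-32768) (.cut .s 6569984 (.pos 41 .mp ⟨⟨4974608,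 0, 0, 0, 0, 9897648, 0, 0, 0, ⟨0, 0⟩, 0⟩, 0, 0⟩ 0 0) (.pos 41 .mp ⟨⟨5237228, 0, 0, 0, 0, 10215309, 0, 0, 0, ⟨0, 0⟩, 0⟩, 0, 0⟩ 0 0)) (.cut .l 102527 (.cut .v 16809984 (.cut .d (-16384) (.cut .s 6569984 (.pos 43 .mp ⟨⟨4953671, 0, 0, 0, 0, 9789592, 0, 0, 0, ⟨0, 0⟩, 0⟩, 0, 0⟩ 0 0) (.pos 43 .mp ⟨⟨5216569, 0, 0, 0, 0, 10111768, 0, 0, 0, ⟨0, 0⟩, 0⟩, 0, 0⟩ 0 0)) (.cut .l 51263 (.cut .v 16793600 (.cut .d (-8192) (.pos 51 .mp ⟨⟨4943838, 0, 0, 0, 0, 10200571, 0, 0, 0, ⟨0, 0⟩, 0⟩, 0, 0⟩ 0 0) (.cut .v 16785408 (.cut .l 25631 (.cut .d (-4096) (.pos 53 .mp ⟨⟨4939082, 0, 0, 0, 0, 10197297, 0, 0, 0, ⟨0, 0⟩, 0⟩, 0, 0⟩ 0 0) (.cut .v 16781312 (.cut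 .l 12815 (.cut .d (-2048) (.pos 55 .mp ⟨⟨4936747, 0, 0, 0, 0, 10195640, 0, 0, 0, ⟨0, 0⟩, 0⟩, 0, 0⟩ 0 0) (.cut .l 6407 (.cut .d (-1024) (.pos 55 .mp ⟨⟨5479629, 0, 0, 0, 0, 9450691, 0, 0, 0, ⟨0, 0⟩, 0⟩, 0, 0⟩ 0 0) (.cut .v 16779264 (.cut .l 3203 (.cut .d (-512) (.pos 57 .mp ⟨⟨5475048, 0, 0, 0, 0, 9455499, 0, 0, 0, ⟨0, 0⟩, 0⟩, 0, 0⟩ 0 0) (.cut .v 16778240 (.cut .l 1601 (.cut .s 6569984 (.cut .s 6545408 (.pos 59 .mp ⟨⟨5407700, 0, 0, 0, 0, 8809435, 0, 0, 0, ⟨0, 0⟩, 0⟩, 0, 0⟩ 0 0) (.pos 59 .mp ⟨⟨5545033, 0, 0, 0, 0, 8949564, 0, 0, 0, ⟨0, 0⟩, 0⟩, 0, 0⟩ 0 0)) (.cut .s 6594560 (.pos 59 .mp ⟨⟨5688138, 0, 0, 0, 0, 9089225, 0, 0, 0, ⟨0, 0⟩,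 0⟩, 0, 0⟩ 0 0) (.pos 59 .mp ⟨⟨5837179, 0, 0, 0, 0, 9228231, 0, 0, 0, ⟨0, 0⟩, 0⟩, 0, 0⟩ 0 0))) (.pos 59 .mp ⟨⟨5472524, 0, 0, 0, 0, 8514327, 0, 0, 0, ⟨0, 0⟩, 0⟩, 0, 0⟩ 0 0)) (.pos 60 .mp ⟨⟨14727550, 0, 0, 0, 0, 0, 0, 0, 0, ⟨0, 0⟩, 0⟩, 0, 0⟩ 0 0))) (.pos 57 .mp ⟨⟨5474578, 0, 0, 0, 0, 8516017, 0, 0, 0, ⟨0, 0⟩, 0⟩, 0, 0⟩ 0 0)) (.pos 58 .mp ⟨⟨14729371, 0, 0, 0, 0, 0, 0, 0, 0, ⟨0, 0⟩, 0⟩, 0, 0⟩ 0 0))) (.pos 55 .mp ⟨⟨5478690, 0, 0, 0, 0, 8519801, 0, 0, 0, ⟨0, 0⟩, 0⟩, 0, 0⟩ 0 0))) (.pos 55 .mp ⟨⟨4927083, 0, 0, 0, 0, 9104730, 0, 0, 0, ⟨0, 0⟩, 0⟩, 0, 0⟩ 0 0)) (.pos 56 .mp ⟨⟨9697297, 0, 0, 0, 0, 5149065, 0, 0, 0, ⟨0, 0⟩, 0⟩, 0, 0⟩ 0 0)))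 (.pos 53 .mp ⟨⟨4919735, 0, 0, 0, 0, 9143892, 0, 0, 0, ⟨0, 0⟩, 0⟩, 0, 0⟩ 0 0)) (.pos 54 .mp ⟨⟨9586221, 0, 0, 0, 0, 5269292, 0, 0, 0, ⟨0, 0⟩, 0⟩, 0, 0⟩ 0 0))) (.pos 52 .mp ⟨⟨16693399, 0, 0, 0, 0, 0, 0, 0, 0, ⟨0, 0⟩, 0⟩, 0, 0⟩ 0 0)) (.pos 43 .mp ⟨⟨5536994, 0, 0, 0, 0, 8574023, 0, 0, 0, ⟨0, 0⟩, 0⟩, 0, 0⟩ 0 0))) (.pos 44 .mp ⟨⟨16870656, 0, 0, 0, 0, 0, 0, 0, 0, ⟨0, 0⟩, 0⟩, 0, 0⟩ 0 0)) (.pos 41 .mp ⟨⟨5605327, 0, 0, 0, 0, 8634834, 0, 0, 0, ⟨0, 0⟩, 0⟩, 0, 0⟩ 0 0)))) (.pos 42 .mp ⟨⟨16432392, 0, 0, 0, 0, 0, 0, 0, 0, ⟨0, 0⟩, 0⟩, 0, 0⟩ 0 0)) (.cut .v 16842752 (.cut .s 6717440 (.cut .d (-32768) (.cut .s 6668288 (.pos 41 .mp ⟨⟨5509443, 0, 0,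 0, 0, 10543841, 0, 0, 0, ⟨0, 0⟩, 0⟩, 0, 0⟩ 0 0) (.pos 41 .mp ⟨⟨5791347, 0, 0, 0, 0, 10883072, 0, 0, 0, ⟨0, 0⟩, 0⟩, 0, 0⟩ 0 0)) (.cut .l 102527 (.cut .v 16809984 (.cut .d (-16384) (.pos 43 .mp ⟨⟨5489092, 0, 0, 0, 0, 10901303, 0, 0, 0, ⟨0, 0⟩, 0⟩, 0, 0⟩ 0 0) (.cut .v 16793600 (.cut .l 51263 (.cut .d (-8192) (.pos 51 .mp ⟨⟨5479563, 0, 0, 0, 0, 10893533, 0, 0, 0, ⟨0, 0⟩, 0⟩, 0, 0⟩ 0 0) (.cut .v 16785408 (.cut .l 25631 (.cut .d (-4096) (.pos 53 .mp ⟨⟨5474963, 0, 0, 0, 0, 10889490, 0, 0, 0, ⟨0, 0⟩, 0⟩, 0, 0⟩ 0 0) (.cut .s 6668288 (.cut .s 6643712 (.pos 53 .mp ⟨⟨6053869, 0, 0, 0, 0, 9337745, 0, 0, 0, ⟨0, 0⟩, 0⟩, 0, 0⟩ 0 0) (.pos 53 .mp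 ⟨⟨6218623, 0, 0, 0, 0, 9473024, 0, 0, 0, ⟨0, 0⟩, 0⟩, 0, 0⟩ 0 0)) (.pos 53 .mp ⟨⟨6075594, 0, 0, 0, 0, 9992754, 0, 0, 0, ⟨0, 0⟩, 0⟩, 0, 0⟩ 0 0))) (.pos 53 .mp ⟨⟨5454777, 0, 0, 0, 0, 9728887, 0, 0, 0, ⟨0, 0⟩, 0⟩, 0, 0⟩ 0 0)) (.pos 54 .mp ⟨⟨10542102, 0, 0, 0, 0, 5461704, 0, 0, 0, ⟨0, 0⟩, 0⟩, 0, 0⟩ 0 0))) (.pos 51 .mp ⟨⟨5439112, 0, 0, 0, 0, 9809326, 0, 0, 0, ⟨0, 0⟩, 0⟩, 0, 0⟩ 0 0)) (.pos 52 .mp ⟨⟨10316978, 0, 0, 0, 0, 5708315, 0, 0, 0, ⟨0, 0⟩, 0⟩, 0, 0⟩ 0 0))) (.pos 44 .mp ⟨⟨17968489, 0, 0, 0, 0, 0, 0, 0, 0, ⟨0, 0⟩, 0⟩, 0, 0⟩ 0 0)) (.pos 41 .mp ⟨⟨6186232, 0, 0, 0, 0, 9170681, 0, 0, 0, ⟨0, 0⟩, 0⟩, 0, 0⟩ 0 0))) (.cut .d (-32768) (.cut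 .s 6766592 (.pos 41 .mp ⟨⟨6083038, 0, 0, 0, 0, 11232823, 0, 0, 0, ⟨0, 0⟩, 0⟩, 0, 0⟩ 0 0) (.pos 41 .mp ⟨⟨6384615, 0, 0, 0, 0, 11592908, 0, 0, 0, ⟨0, 0⟩, 0⟩, 0, 0⟩ 0 0)) (.cut .l 102527 (.cut .d (-16384) (.pos 41 .mp ⟨⟨6510415, 0, 0, 0, 0, 11154315, 0, 0, 0, ⟨0, 0⟩, 0⟩, 0, 0⟩ 0 0) (.cut .v 16809984 (.cut .v 16793600 (.cut .l 51263 (.cut .d (-8192) (.pos 51 .mp ⟨⟨6054243, 0, 0, 0, 0, 11650475, 0, 0, 0, ⟨0, 0⟩, 0⟩, 0, 0⟩ 0 0) (.cut .s 6766592 (.pos 51 .mp ⟨⟨6409915, 0, 0, 0, 0, 10297211, 0, 0, 0, ⟨0, 0⟩, 0⟩, 0, 0⟩ 0 0) (.pos 51 .mp ⟨⟨6796453, 0, 0, 0, 0, 10559094, 0, 0, 0, ⟨0, 0⟩, 0⟩, 0, 0⟩ 0 0))) (.pos 51 .mp ⟨⟨6011968, 0, 0, 0,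 0, 10409684, 0, 0, 0, ⟨0, 0⟩, 0⟩, 0, 0⟩ 0 0)) (.pos 52 .mp ⟨⟨11497071, 0, 0, 0, 0, 5761395, 0, 0, 0, ⟨0, 0⟩, 0⟩, 0, 0⟩ 0 0)) (.pos 44 .mp ⟨⟨17039797, 0, 0, 0, 0, 0, 0, 0, 0, ⟨0, 0⟩, 0⟩, 0, 0⟩ 0 0))) (.pos 41 .mp ⟨⟨6807268, 0, 0, 0, 0, 9717641, 0, 0, 0, ⟨0, 0⟩, 0⟩, 0, 0⟩ 0 0)))) (.pos 42 .mp ⟨⟨18581190, 0, 0, 0, 0, 0, 0, 0, 0, ⟨0, 0⟩, 0⟩, 0, 0⟩ 0 0)))) (.pos 36 .mp ⟨⟨16764190, 0, 0, 0, 0, 0, 0, 0, 0, ⟨0, 0⟩, 0⟩, 0, 0⟩ 0 0)) (.void 34 ⟨⟨100000, 0, 0, 0, 0, 0, 0, 0, 0, ⟨0, 0⟩, 0⟩, 0, 0⟩ 0 0)) (.void 32 ⟨⟨100000, 0, 0, 0, 0, 0, 0, 0, 0, ⟨0, 0⟩, 0⟩, 0, 0⟩ 0 0)) (.void 30 ⟨⟨100000, 0, 0, 0, 0, 0, 0, 0, 0, ⟨0, 0⟩, 0⟩, 0, 0⟩ 0 0))) (.void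 28 ⟨⟨100000, 0, 0, 0, 0, 0, 0, 0, 0, ⟨0, 0⟩, 0⟩, 0, 0⟩ 0 0)))))) (.void 26 ⟨⟨100000, 0, 0, 0, 0, 0, 0, 0, 0, ⟨0, 0⟩, 0⟩, 0, 0⟩ 0 0)))) (.void 24 ⟨⟨100000, 0, 0, 0, 0, 0, 0, 0, 0, ⟨0, 0⟩, 0⟩, 0, 0⟩ 0 0)))) (.cut .v 16777216 (.cut .d 4734623 (.cut .d 2367311 (.cut .d 1183655 (.cut .v 8388608 (.cut .v 4194304 (.void 4 ⟨⟨0, 0, 92360, 0, 7640, 0, 0, 0, 0, ⟨0, 0⟩, 0⟩, 0, 0⟩ 0 0) (.pos 5 .pm ⟨⟨0, 0, 0, 0, 0, 0, 0, 0, 295824, ⟨0, 0⟩, 9975792⟩, 0, 0⟩ 0 0)) (.cut .v 12582912 (.pos 8 .pm ⟨⟨0, 0, 0, 0, 0, 0, 0, 0, 0, ⟨0, 0⟩, 0⟩, 0, 330368⟩ 0 0) (.pos 9 .pm ⟨⟨0, 0, 0, 0, 0, 0, 0, 0, 0, ⟨0, 0⟩, 0⟩, 0, 256913⟩ 0 0))) (.void 1 ⟨⟨0, 0, 0, 0, 0,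 0, 0, 0, 0, ⟨0, 0⟩, 0⟩, 0, 100000⟩ 0 0)) (.void 1 ⟨⟨0, 0, 0, 0, 0, 0, 0, 0, 0, ⟨0, 0⟩, 0⟩, 0, 100000⟩ 0 0)) (.void 1 ⟨⟨0, 0, 0, 0, 0, 0, 0, 0, 0, ⟨0, 0⟩, 0⟩, 0, 100000⟩ 0 0)) (.cut .d 4734623 (.cut .v 25165824 (.cut .d 2367311 (.cut .v 20971520 (.cut .d 1183655 (.cut .v 18874368 (.cut .d 591827 (.cut .v 17825792 (.cut .s 6422528 (.pos 29 .pp ⟨⟨6144804, 0, 0, 0, 0, 0, 0, 0, 0, ⟨0, 0⟩, 0⟩, 0, 83742⟩ 0 0) (.pos 29 .pp ⟨⟨9094315, 0, 0, 0, 0, 0, 0, 0, 0, ⟨0, 0⟩, 0⟩, 15488, 0⟩ 0 0)) (.pos 30 .pp ⟨⟨11038164, 0, 0, 0, 0, 0, 0, 0, 0, ⟨0, 0⟩, 0⟩, 0, 315204⟩ 0 0)) (.pos 27 .pp ⟨⟨0, 0, 0, 0, 0, 0, 0, 0, 0, ⟨0, 0⟩, 0⟩, 0, 9822745⟩ 0 0)) (.cut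 .d 591827 (.pos 28 .pp ⟨⟨23349028, 0, 0, 0, 0, 0, 0, 0, 0, ⟨0, 0⟩, 0⟩, 0, 2617848⟩ 0 0) (.pos 28 .pp ⟨⟨15280616, 0, 0, 0, 0, 0, 0, 0, 0, ⟨0, 0⟩, 0⟩, 0, 6053286⟩ 0 0))) (.void 25 ⟨⟨0, 0, 0, 0, 0, 0, 0, 0, 0, ⟨0, 0⟩, 0⟩, 0, 100000⟩ 0 0)) (.void 26 ⟨⟨0, 0, 0, 0, 0, 0, 0, 0, 0, ⟨0, 0⟩, 0⟩, 16420, 83580⟩ 0 0)) (.void 23 ⟨⟨0, 0, 0, 0, 0, 0, 0, 0, 0, ⟨0, 0⟩, 0⟩, 0, 100000⟩ 0 0)) (.void 24 ⟨⟨0, 0, 0, 0, 0, 0, 0, 0, 0, ⟨0, 0⟩, 0⟩, 16420, 83580⟩ 0 0)) (.void 22 ⟨⟨0, 0, 0, 0, 0, 0, 0, 0, 0, ⟨0, 0⟩, 0⟩, 679, 99321⟩ 0 0)))),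
    by decide +kernel⟩

def covers7 : cell.Covers Vale.Agent.P237.Petty.Cor.Grid.N18.table row7.1 :=
  ⟨(.cut .d 0 (.cut .v 16777216 (.cut .d (-8388608) (.void 1 ⟨⟨0, 0, 0, 0, 0, 100000, 0, 0, 0, ⟨0, 0⟩, 0⟩, 0, 0⟩ 0 0) (.cut .d (-4194304) (.void 1 ⟨⟨0, 0, 0, 0, 0, 100000, 0, 0, 0, ⟨0, 0⟩, 0⟩, 0, 0⟩ 0 0) (.cut .d (-2097152) (.void 1 ⟨⟨0, 0, 0, 0, 0, 100000, 0, 0, 0, ⟨0, 0⟩, 0⟩, 0, 0⟩ 0 0) (.cut .d (-1048576) (.void 1 ⟨⟨0, 0, 0, 0, 0, 100000, 0, 0, 0, ⟨0, 0⟩, 0⟩, 0, 0⟩ 0 0) (.cut .d (-524288) (.void 1 ⟨⟨0, 0, 0, 0, 0, 100000, 0, 0, 0, ⟨0, 0⟩, 0⟩, 0, 0⟩ 0 0) (.cut .d (-262144) (.void 1 ⟨⟨0, 0, 0, 0, 0, 100000, 0, 0, 0, ⟨0, 0⟩, 0⟩,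 0, 0⟩ 0 0) (.cut .d (-131072) (.void 1 ⟨⟨0, 0, 0, 0, 0, 100000, 0, 0, 0, ⟨0, 0⟩, 0⟩, 0, 0⟩ 0 0) (.cut .d (-65536) (.void 1 ⟨⟨0, 0, 0, 0, 0, 100000, 0, 0, 0, ⟨0, 0⟩, 0⟩, 0, 0⟩ 0 0) (.cut .v 8388608 (.cut .v 4194304 (.void 4 ⟨⟨0, 0, 100000, 0, 0, 0, 0, 0, 0, ⟨0, 0⟩, 0⟩, 0, 0⟩ 0 0) (.pos 5 .mm ⟨⟨0, 0, 0, 0, 0, 8852519, 0, 0, 0, ⟨0, 0⟩, 0⟩, 0, 0⟩ 0 0)) (.cut .v 12582912 (.pos 8 .mm ⟨⟨0, 0, 0, 0, 0, 11779490, 0, 0, 0, ⟨0, 0⟩, 0⟩, 0, 0⟩ 0 0) (.cut .v 14680064 (.pos 12 .mm ⟨⟨0, 0, 0, 0, 0, 13905703, 0, 0, 0, ⟨0, 0⟩, 0⟩, 0, 0⟩ 0 0) (.cut .v 15728640 (.pos 20 .mm ⟨⟨0, 0, 0, 0, 0, 15134492, 0, 0, 0, ⟨0, 0⟩, 0⟩, 0, 0⟩ 0 0) (.cut .v 16252928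 (.pos 37 .mm ⟨⟨0, 0, 0, 0, 0, 17940156, 0, 0, 0, ⟨0, 0⟩, 0⟩, 0, 0⟩ 0 0) (.cut .v 16515072 (.pos 39 .mm ⟨⟨0, 0, 0, 0, 0, 21092252, 0, 0, 0, ⟨0, 0⟩, 0⟩, 0, 0⟩ 0 0) (.cut .v 16646144 (.pos 47 .mm ⟨⟨0, 0, 0, 0, 0, 22724065, 0, 0, 0, ⟨0, 0⟩, 0⟩, 0, 0⟩ 0 0) (.cut .s 7176192 (.cut .d (-32768) (.pos 48 .mm ⟨⟨0, 0, 0, 0, 0, 22158933, 0, 0, 0, ⟨0, 0⟩, 0⟩, 0, 0⟩ 0 0) (.cut .l 102527 (.cut .d (-16384) (.pos 48 .mm ⟨⟨0, 0, 0, 0, 0, 22152583, 0, 0, 0, ⟨0, 0⟩, 0⟩, 0, 0⟩ 0 0) (.cut .s 6995968 (.pos 48 .mm ⟨⟨0, 0, 0, 0, 0, 18536735, 0, 0, 0, ⟨0, 0⟩, 0⟩, 0, 0⟩ 0 0) (.cut .s 7086080 (.pos 48 .mm ⟨⟨0, 0, 0, 0, 0, 20663580, 0, 0, 0, ⟨0, 0⟩, 0⟩, 0,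 0⟩ 0 0) (.pos 48 .mm ⟨⟨0, 0, 0, 0, 0, 22084867, 0, 0, 0, ⟨0, 0⟩, 0⟩, 0, 0⟩ 0 0)))) (.pos 48 .mm ⟨⟨0, 0, 0, 0, 0, 17935167, 0, 0, 0, ⟨0, 0⟩, 0⟩, 0, 0⟩ 0 0))) (.cut .d (-32768) (.pos 48 .mm ⟨⟨0, 0, 0, 0, 0, 29111589, 0, 0, 0, ⟨0, 0⟩, 0⟩, 0, 0⟩ 0 0) (.cut .v 16711680 (.pos 49 .mm ⟨⟨0, 0, 0, 0, 0, 25061162, 0, 0, 0, ⟨0, 0⟩, 0⟩, 0, 0⟩ 0 0) (.cut .v 16744448 (.pos 63 .mm ⟨⟨0, 0, 0, 0, 0, 25418227, 0, 0, 0, ⟨0, 0⟩, 0⟩, 0, 0⟩ 0 0) (.cut .l 102527 (.cut .d (-16384) (.pos 64 .mm ⟨⟨0, 0, 0, 0, 0, 29106741, 0, 0, 0, ⟨0, 0⟩, 0⟩, 0, 0⟩ 0 0) (.cut .v 16760832 (.pos 65 .mm ⟨⟨0, 0, 0, 0, 0, 25389533, 0, 0, 0, ⟨0, 0⟩, 0⟩, 0, 0⟩ 0 0) (.cut .l 51263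 (.cut .d (-8192) (.pos 66 .mm ⟨⟨0, 0, 0, 0, 0, 29104352, 0, 0, 0, ⟨0, 0⟩, 0⟩, 0, 0⟩ 0 0) (.cut .v 16769024 (.pos 67 .mm ⟨⟨0, 0, 0, 0, 0, 25375200, 0, 0, 0, ⟨0, 0⟩, 0⟩, 0, 0⟩ 0 0) (.cut .l 25631 (.cut .d (-4096) (.pos 68 .mm ⟨⟨0, 0, 0, 0, 0, 29103230, 0, 0, 0, ⟨0, 0⟩, 0⟩, 0, 0⟩ 0 0) (.cut .v 16773120 (.pos 69 .mm ⟨⟨0, 0, 0, 0, 0, 25368133, 0, 0, 0, ⟨0, 0⟩, 0⟩, 0, 0⟩ 0 0) (.cut .l 12815 (.cut .d (-2048) (.pos 70 .mm ⟨⟨0, 0, 0, 0, 0, 29102811, 0, 0, 0, ⟨0, 0⟩, 0⟩, 0, 0⟩ 0 0) (.cut .v 16775168 (.pos 71 .mm ⟨⟨0, 0, 0, 0, 0, 25364814, 0, 0, 0, ⟨0, 0⟩, 0⟩, 0, 0⟩ 0 0) (.cut .l 6407 (.cut .d (-1024) (.pos 72 .mm ⟨⟨0, 0, 0, 0, 0, 29102888,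 0, 0, 0, ⟨0, 0⟩, 0⟩, 0, 0⟩ 0 0) (.cut .v 16776192 (.pos 73 .mm ⟨⟨0, 0, 0, 0, 0, 25363590, 0, 0, 0, ⟨0, 0⟩, 0⟩, 0, 0⟩ 0 0) (.cut .l 3203 (.cut .d (-512) (.pos 74 .mm ⟨⟨0, 0, 0, 0, 0, 29103498, 0, 0, 0, ⟨0, 0⟩, 0⟩, 0, 0⟩ 0 0) (.cut .l 1601 (.cut .s 7356416 (.cut .s 7266304 (.pos 74 .mm ⟨⟨0, 0, 0, 0, 0, 23412657, 0, 0, 0, ⟨0, 0⟩, 0⟩, 0, 0⟩ 0 0) (.pos 74 .mm ⟨⟨0, 0, 0, 0, 0, 25064021, 0, 0, 0, ⟨0, 0⟩, 0⟩, 0, 0⟩ 0 0)) (.cut .s 7446528 (.pos 74 .mm ⟨⟨0, 0, 0, 0, 0, 26832676, 0, 0, 0, ⟨0, 0⟩, 0⟩, 0, 0⟩ 0 0) (.pos 74 .mm ⟨⟨0, 0, 0, 0, 0, 28718968, 0, 0, 0, ⟨0, 0⟩, 0⟩, 0, 0⟩ 0 0))) (.pos 74 .mm ⟨⟨0, 0, 0, 0, 0, 23242994, 0, 0, 0, ⟨0, 0⟩,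 0⟩, 0, 0⟩ 0 0))) (.pos 74 .mm ⟨⟨0, 0, 0, 0, 0, 23245278, 0, 0, 0, ⟨0, 0⟩, 0⟩, 0, 0⟩ 0 0)))) (.pos 72 .mm ⟨⟨0, 0, 0, 0, 0, 23251847, 0, 0, 0, ⟨0, 0⟩, 0⟩, 0, 0⟩ 0 0)))) (.pos 70 .mm ⟨⟨0, 0, 0, 0, 0, 23265985, 0, 0, 0, ⟨0, 0⟩, 0⟩, 0, 0⟩ 0 0)))) (.pos 68 .mm ⟨⟨0, 0, 0, 0, 0, 23294761, 0, 0, 0, ⟨0, 0⟩, 0⟩, 0, 0⟩ 0 0)))) (.pos 66 .mm ⟨⟨0, 0, 0, 0, 0, 23352564, 0, 0, 0, ⟨0, 0⟩, 0⟩, 0, 0⟩ 0 0)))) (.pos 64 .mm ⟨⟨0, 0, 0, 0, 0, 23468295, 0, 0, 0, ⟨0, 0⟩, 0⟩, 0, 0⟩ 0 0))))))))))))))))))))) (.cut .d (-8388608) (.void 22 ⟨⟨0, 0, 0, 0, 0, 100000, 0, 0, 0, ⟨0, 0⟩, 0⟩, 0, 0⟩ 0 0) (.cut .v 25165824 (.cut .d (-4194304) (.void 23 ⟨⟨0, 0, 0, 0, 0,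 100000, 0, 0, 0, ⟨0, 0⟩, 0⟩, 0, 0⟩ 0 0) (.cut .d (-2097152) (.void 23 ⟨⟨0, 0, 0, 0, 0, 100000, 0, 0, 0, ⟨0, 0⟩, 0⟩, 0, 0⟩ 0 0) (.cut .v 20971520 (.cut .d (-1048576) (.void 25 ⟨⟨0, 0, 0, 0, 0, 100000, 0, 0, 0, ⟨0, 0⟩, 0⟩, 0, 0⟩ 0 0) (.cut .d (-524288) (.void 25 ⟨⟨0, 0, 0, 0, 0, 100000, 0, 0, 0, ⟨0, 0⟩, 0⟩, 0, 0⟩ 0 0) (.cut .d (-262144) (.void 25 ⟨⟨0, 0, 0, 0, 0, 100000, 0, 0, 0, ⟨0, 0⟩, 0⟩, 0, 0⟩ 0 0) (.cut .d (-131072) (.void 25 ⟨⟨0, 0, 0, 0, 0, 100000, 0, 0, 0, ⟨0, 0⟩, 0⟩, 0, 0⟩ 0 0) (.cut .d (-65536) (.void 25 ⟨⟨0, 0, 0, 0, 0, 100000, 0, 0, 0, ⟨0, 0⟩, 0⟩, 0, 0⟩ 0 0) (.cut .v 18874368 (.cut .v 17825792 (.cut .v 17301504 (.cut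 .v 17039360 (.cut .v 16908288 (.cut .s 7176192 (.cut .s 6995968 (.cut .v 16842752 (.cut .d (-32768) (.cut .s 6905856 (.pos 41 .mp ⟨⟨6696267, 0, 0, 0, 0, 12439499, 0, 0, 0, ⟨0, 0⟩, 0⟩, 0, 0⟩ 0 0) (.pos 41 .mp ⟨⟨7302734, 0, 0, 0, 0, 13043433, 0, 0, 0, ⟨0, 0⟩, 0⟩, 0, 0⟩ 0 0)) (.cut .s 6905856 (.cut .v 16809984 (.cut .l 102527 (.cut .d (-16384) (.pos 43 .mp ⟨⟨6677412, 0, 0, 0, 0, 12412472, 0, 0, 0, ⟨0, 0⟩, 0⟩, 0, 0⟩ 0 0) (.cut .s 6860800 (.pos 43 .mp ⟨⟨7192103, 0, 0, 0, 0, 10840639, 0, 0, 0, ⟨0, 0⟩, 0⟩, 0, 0⟩ 0 0) (.cut .s 6883328 (.pos 43 .mp ⟨⟨7768555, 0, 0, 0, 0, 10704337, 0, 0, 0, ⟨0, 0⟩, 0⟩, 0, 0⟩ 0 0) (.pos 43 .mp ⟨⟨7854187,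 0, 0, 0, 0, 10896248, 0, 0, 0, ⟨0, 0⟩, 0⟩, 0, 0⟩ 0 0)))) (.pos 43 .mp ⟨⟨6588520, 0, 0, 0, 0, 11395794, 0, 0, 0, ⟨0, 0⟩, 0⟩, 0, 0⟩ 0 0)) (.pos 44 .mp ⟨⟨12204294, 0, 0, 0, 0, 6378067, 0, 0, 0, ⟨0, 0⟩, 0⟩, 0, 0⟩ 0 0)) (.cut .s 6950912 (.cut .s 6928384 (.pos 41 .mp ⟨⟨7719724, 0, 0, 0, 0, 11359865, 0, 0, 0, ⟨0, 0⟩, 0⟩, 0, 0⟩ 0 0) (.pos 41 .mp ⟨⟨7864305, 0, 0, 0, 0, 11508791, 0, 0, 0, ⟨0, 0⟩, 0⟩, 0, 0⟩ 0 0)) (.cut .s 6973440 (.pos 41 .mp ⟨⟨8032324, 0, 0, 0, 0, 11641427, 0, 0, 0, ⟨0, 0⟩, 0⟩, 0, 0⟩ 0 0) (.cut .s 6984704 (.pos 41 .mp ⟨⟨8265101, 0, 0, 0, 0, 11653681, 0, 0, 0, ⟨0, 0⟩, 0⟩, 0, 0⟩ 0 0) (.pos 41 .mp ⟨⟨8323715, 0, 0, 0, 0, 11749791,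 0, 0, 0, ⟨0, 0⟩, 0⟩, 0, 0⟩ 0 0)))))) (.pos 42 .mp ⟨⟨21417186, 0, 0, 0, 0, 0, 0, 0, 0, ⟨0, 0⟩, 0⟩, 0, 0⟩ 0 0)) (.cut .v 16842752 (.cut .d (-32768) (.cut .d (-49152) (.void 41 ⟨⟨0, 0, 0, 0, 0, 100000, 0, 0, 0, ⟨0, 0⟩, 0⟩, 0, 0⟩ 0 0) (.cut .d (-40960) (.pos 41 .mp ⟨⟨8141799, 0, 0, 0, 0, 15092409, 0, 0, 0, ⟨0, 0⟩, 0⟩, 0, 0⟩ 0 0) (.cut .l 102527 (.void 41 ⟨⟨0, 0, 0, 0, 0, 100000, 0, 0, 0, ⟨0, 0⟩, 0⟩, 0, 0⟩ 0 0) (.cut .v 16809984 (.pos 43 .mp ⟨⟨0, 0, 0, 0, 0, 22631689, 0, 0, 0, ⟨0, 0⟩, 0⟩, 0, 0⟩ 0 0) (.cut .s 7086080 (.pos 44 .mp ⟨⟨8887157, 0, 0, 0, 0, 12323650, 0, 0, 0, ⟨0, 0⟩, 0⟩, 0, 0⟩ 0 0) (.cut .s 7131136 (.pos 44 .mp ⟨⟨9262026,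 0, 0, 0, 0, 12841702, 0, 0, 0, ⟨0, 0⟩, 0⟩, 0, 0⟩ 0 0) (.pos 44 .mp ⟨⟨9649301, 0, 0, 0, 0, 13163686, 0, 0, 0, ⟨0, 0⟩, 0⟩, 0, 0⟩ 0 0))))))) (.cut .s 7086080 (.cut .s 7041024 (.cut .v 16809984 (.cut .l 102527 (.cut .d (-16384) (.pos 43 .mp ⟨⟨7934577, 0, 0, 0, 0, 12995426, 0, 0, 0, ⟨0, 0⟩, 0⟩, 0, 0⟩ 0 0) (.cut .s 7018496 (.pos 43 .mp ⟨⟨8366563, 0, 0, 0, 0, 11875856, 0, 0, 0, ⟨0, 0⟩, 0⟩, 0, 0⟩ 0 0) (.pos 43 .mp ⟨⟨8487874, 0, 0, 0, 0, 12073644, 0, 0, 0, ⟨0, 0⟩, 0⟩, 0, 0⟩ 0 0))) (.pos 43 .mp ⟨⟨7837091, 0, 0, 0, 0, 12396889, 0, 0, 0, ⟨0, 0⟩, 0⟩, 0, 0⟩ 0 0)) (.pos 44 .mp ⟨⟨11335697, 0, 0, 0, 0, 9225240, 0, 0, 0, ⟨0, 0⟩, 0⟩, 0, 0⟩ 0 0))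 (.cut .v 16809984 (.cut .l 102527 (.cut .d (-16384) (.pos 43 .mp ⟨⟨8277913, 0, 0, 0, 0, 13307473, 0, 0, 0, ⟨0, 0⟩, 0⟩, 0, 0⟩ 0 0) (.cut .s 7063552 (.pos 43 .mp ⟨⟨8616131, 0, 0, 0, 0, 12271323, 0, 0, 0, ⟨0, 0⟩, 0⟩, 0, 0⟩ 0 0) (.pos 43 .mp ⟨⟨8764364, 0, 0, 0, 0, 12455993, 0, 0, 0, ⟨0, 0⟩, 0⟩, 0, 0⟩ 0 0))) (.pos 43 .mp ⟨⟨8177897, 0, 0, 0, 0, 12732015, 0, 0, 0, ⟨0, 0⟩, 0⟩, 0, 0⟩ 0 0)) (.pos 44 .mp ⟨⟨11624088, 0, 0, 0, 0, 9578278, 0, 0, 0, ⟨0, 0⟩, 0⟩, 0, 0⟩ 0 0))) (.cut .s 7131136 (.cut .v 16809984 (.cut .s 7108608 (.cut .s 7097344 (.pos 43 .mp ⟨⟨8996663, 0, 0, 0, 0, 12546931, 0, 0, 0, ⟨0, 0⟩, 0⟩, 0, 0⟩ 0 0) (.pos 43 .mp ⟨⟨9067825,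 0, 0, 0, 0, 12647360, 0, 0, 0, ⟨0, 0⟩, 0⟩, 0, 0⟩ 0 0)) (.cut .s 7119872 (.pos 43 .mp ⟨⟨9132676, 0, 0, 0, 0, 12757187, 0, 0, 0, ⟨0, 0⟩, 0⟩, 0, 0⟩ 0 0) (.pos 43 .mp ⟨⟨9182538, 0, 0, 0, 0, 12886524, 0, 0, 0, ⟨0, 0⟩, 0⟩, 0, 0⟩ 0 0))) (.pos 44 .mp ⟨⟨11959352, 0, 0, 0, 0, 9911492, 0, 0, 0, ⟨0, 0⟩, 0⟩, 0, 0⟩ 0 0)) (.cut .s 7153664 (.cut .s 7142400 (.pos 41 .mp ⟨⟨9389394, 0, 0, 0, 0, 12851327, 0, 0, 0, ⟨0, 0⟩, 0⟩, 0, 0⟩ 0 0) (.cut .s 7148032 (.pos 41 .mp ⟨⟨9466831, 0, 0, 0, 0, 12915375, 0, 0, 0, ⟨0, 0⟩, 0⟩, 0, 0⟩ 0 0) (.pos 41 .mp ⟨⟨9510446, 0, 0, 0, 0, 12961333, 0, 0, 0, ⟨0, 0⟩, 0⟩, 0, 0⟩ 0 0))) (.cut .v 16809984 (.cut .s 7164928 (.pos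 43 .mp ⟨⟨9363247, 0, 0, 0, 0, 13251223, 0, 0, 0, ⟨0, 0⟩, 0⟩, 0, 0⟩ 0 0) (.pos 43 .mp ⟨⟨9434126, 0, 0, 0, 0, 13364675, 0, 0, 0, ⟨0, 0⟩, 0⟩, 0, 0⟩ 0 0)) (.pos 44 .mp ⟨⟨11387266, 0, 0, 0, 0, 11362258, 0, 0, 0, ⟨0, 0⟩, 0⟩, 0, 0⟩ 0 0)))))) (.pos 42 .mp ⟨⟨23866830, 0, 0, 0, 0, 0, 0, 0, 0, ⟨0, 0⟩, 0⟩, 0, 0⟩ 0 0))) (.cut .s 7356416 (.cut .v 16842752 (.cut .d (-32768) (.cut .d (-49152) (.void 41 ⟨⟨0, 0, 0, 0, 0, 100000, 0, 0, 0, ⟨0, 0⟩, 0⟩, 0, 0⟩ 0 0) (.cut .d (-40960) (.pos 41 .mp ⟨⟨9457950, 0, 0, 0, 0, 17187013, 0, 0, 0, ⟨0, 0⟩, 0⟩, 0, 0⟩ 0 0) (.cut .l 102527 (.void 41 ⟨⟨0, 0, 0, 0, 0, 100000, 0, 0, 0, ⟨0, 0⟩, 0⟩, 0, 0⟩ 0 0) (.cut .v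 16809984 (.pos 43 .mp ⟨⟨0, 0, 0, 0, 0, 25900811, 0, 0, 0, ⟨0, 0⟩, 0⟩, 0, 0⟩ 0 0) (.cut .v 16826368 (.cut .l 153791 (.void 75 ⟨⟨0, 0, 0, 0, 0, 100000, 0, 0, 0, ⟨0, 0⟩, 0⟩, 0, 0⟩ 0 0) (.cut .s 7266304 (.cut .s 7221248 (.pos 75 .mp ⟨⟨9427978, 0, 0, 0, 0, 14101405, 0, 0, 0, ⟨0, 0⟩, 0⟩, 0, 0⟩ 0 0) (.pos 75 .mp ⟨⟨9820969, 0, 0, 0, 0, 14469884, 0, 0, 0, ⟨0, 0⟩, 0⟩, 0, 0⟩ 0 0)) (.pos 75 .mp ⟨⟨10226339, 0, 0, 0, 0, 15309381, 0, 0, 0, ⟨0, 0⟩, 0⟩, 0, 0⟩ 0 0))) (.pos 76 .mp ⟨⟨24513160, 0, 0, 0, 0, 0, 0, 0, 0, ⟨0, 0⟩, 0⟩, 0, 0⟩ 0 0)))))) (.cut .s 7266304 (.cut .s 7221248 (.cut .s 7198720 (.cut .v 16809984 (.cut .s 7187456 (.pos 43 .mp ⟨⟨9521688,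 0, 0, 0, 0, 13461589, 0, 0, 0, ⟨0, 0⟩, 0⟩, 0, 0⟩ 0 0) (.pos 43 .mp ⟨⟨9613520, 0, 0, 0, 0, 13555534, 0, 0, 0, ⟨0, 0⟩, 0⟩, 0, 0⟩ 0 0)) (.pos 44 .mp ⟨⟨11590671, 0, 0, 0, 0, 11522033, 0, 0, 0, ⟨0, 0⟩, 0⟩, 0, 0⟩ 0 0)) (.cut .v 16809984 (.cut .s 7209984 (.pos 43 .mp ⟨⟨9707939, 0, 0, 0, 0, 13648347, 0, 0, 0, ⟨0, 0⟩, 0⟩, 0, 0⟩ 0 0) (.pos 43 .mp ⟨⟨9804985, 0, 0, 0, 0, 13739976, 0, 0, 0, ⟨0, 0⟩, 0⟩, 0, 0⟩ 0 0)) (.pos 44 .mp ⟨⟨11809143, 0, 0, 0, 0, 11673191, 0, 0, 0, ⟨0, 0⟩, 0⟩, 0, 0⟩ 0 0))) (.cut .s 7243776 (.cut .v 16809984 (.cut .s 7232512 (.pos 43 .mp ⟨⟨9904699, 0, 0, 0, 0, 13830369, 0, 0, 0, ⟨0, 0⟩, 0⟩, 0, 0⟩ 0 0) (.pos 43 .mp ⟨⟨10007119,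 0, 0, 0, 0, 13919476, 0, 0, 0, ⟨0, 0⟩, 0⟩, 0, 0⟩ 0 0)) (.pos 44 .mp ⟨⟨12043255, 0, 0, 0, 0, 11815065, 0, 0, 0, ⟨0, 0⟩, 0⟩, 0, 0⟩ 0 0)) (.cut .v 16809984 (.cut .s 7255040 (.pos 43 .mp ⟨⟨10112287, 0, 0, 0, 0, 14007244, 0, 0, 0, ⟨0, 0⟩, 0⟩, 0, 0⟩ 0 0) (.pos 43 .mp ⟨⟨10220242, 0, 0, 0, 0, 14093623, 0, 0, 0, ⟨0, 0⟩, 0⟩, 0, 0⟩ 0 0)) (.pos 44 .mp ⟨⟨12293581, 0, 0, 0, 0, 11946986, 0, 0, 0, ⟨0, 0⟩, 0⟩, 0, 0⟩ 0 0)))) (.cut .s 7311360 (.cut .s 7288832 (.cut .v 16809984 (.cut .s 7277568 (.pos 43 .mp ⟨⟨10331023, 0, 0, 0, 0, 14178561, 0, 0, 0, ⟨0, 0⟩, 0⟩, 0, 0⟩ 0 0) (.pos 43 .mp ⟨⟨10455797, 0, 0, 0, 0, 14249704, 0, 0, 0, ⟨0, 0⟩, 0⟩, 0, 0⟩ 0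 0)) (.pos 44 .mp ⟨⟨12560697, 0, 0, 0, 0, 12068275, 0, 0, 0, ⟨0, 0⟩, 0⟩, 0, 0⟩ 0 0)) (.cut .s 7300096 (.cut .s 7294464 (.pos 41 .mp ⟨⟨10786242, 0, 0, 0, 0, 14056813, 0, 0, 0, ⟨0, 0⟩, 0⟩, 0, 0⟩ 0 0) (.pos 41 .mp ⟨⟨10845236, 0, 0, 0, 0, 14097849, 0, 0, 0, ⟨0, 0⟩, 0⟩, 0, 0⟩ 0 0)) (.pos 41 .mp ⟨⟨10922103, 0, 0, 0, 0, 14162637, 0, 0, 0, ⟨0, 0⟩, 0⟩, 0, 0⟩ 0 0))) (.cut .v 16809984 (.cut .s 7333888 (.cut .s 7322624 (.pos 43 .mp ⟨⟨10880239, 0, 0, 0, 0, 14417461, 0, 0, 0, ⟨0, 0⟩, 0⟩, 0, 0⟩ 0 0) (.pos 43 .mp ⟨⟨11034523, 0, 0, 0, 0, 14462403, 0, 0, 0, ⟨0, 0⟩, 0⟩, 0, 0⟩ 0 0)) (.cut .s 7345152 (.pos 43 .mp ⟨⟨11192417, 0, 0, 0, 0, 14505145, 0,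 0, 0, ⟨0, 0⟩, 0⟩, 0, 0⟩ 0 0) (.pos 43 .mp ⟨⟨11327733, 0, 0, 0, 0, 14576781, 0, 0, 0, ⟨0, 0⟩, 0⟩, 0, 0⟩ 0 0))) (.pos 44 .mp ⟨⟨14496118, 0, 0, 0, 0, 11102023, 0, 0, 0, ⟨0, 0⟩, 0⟩, 0, 0⟩ 0 0))))) (.pos 42 .mp ⟨⟨26599739, 0, 0, 0, 0, 0, 0, 0, 0, ⟨0, 0⟩, 0⟩, 0, 0⟩ 0 0)) (.cut .v 16842752 (.cut .d (-32768) (.cut .s 7446528 (.cut .s 7401472 (.pos 41 .mp ⟨⟨11045628, 0, 0, 0, 0, 16109099, 0, 0, 0, ⟨0, 0⟩, 0⟩, 0, 0⟩ 0 0) (.pos 41 .mp ⟨⟨11487924, 0, 0, 0, 0, 16545819, 0, 0, 0, ⟨0, 0⟩, 0⟩, 0, 0⟩ 0 0)) (.pos 41 .mp ⟨⟨11943104, 0, 0, 0, 0, 17886035, 0, 0, 0, ⟨0, 0⟩, 0⟩, 0, 0⟩ 0 0)) (.cut .s 7446528 (.cut .s 7401472 (.cut .v 16809984 (.cut .l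 102527 (.cut .d (-16384) (.pos 43 .mp ⟨⟨11019598, 0, 0, 0, 0, 16023518, 0, 0, 0, ⟨0, 0⟩, 0⟩, 0, 0⟩ 0 0) (.cut .s 7378944 (.cut .s 7367680 (.pos 43 .mp ⟨⟨11619004, 0, 0, 0, 0, 14435006, 0, 0, 0, ⟨0, 0⟩, 0⟩, 0, 0⟩ 0 0) (.pos 43 .mp ⟨⟨11753329, 0, 0, 0, 0, 14510440, 0, 0, 0, ⟨0, 0⟩, 0⟩, 0, 0⟩ 0 0)) (.pos 43 .mp ⟨⟨11623803, 0, 0, 0, 0, 14943603, 0, 0, 0, ⟨0, 0⟩, 0⟩, 0, 0⟩ 0 0))) (.pos 43 .mp ⟨⟨10897432, 0, 0, 0, 0, 15288997, 0, 0, 0, ⟨0, 0⟩, 0⟩, 0, 0⟩ 0 0)) (.pos 44 .mp ⟨⟨15207376, 0, 0, 0, 0, 11207874, 0, 0, 0, ⟨0, 0⟩, 0⟩, 0, 0⟩ 0 0)) (.cut .v 16809984 (.cut .l 102527 (.cut .d (-16384) (.pos 43 .mp ⟨⟨11461097, 0, 0, 0, 0, 16491938,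 0, 0, 0, ⟨0, 0⟩, 0⟩, 0, 0⟩ 0 0) (.cut .s 7424000 (.pos 43 .mp ⟨⟨11852596, 0, 0, 0, 0, 15144711, 0, 0, 0, ⟨0, 0⟩, 0⟩, 0, 0⟩ 0 0) (.pos 43 .mp ⟨⟨12144177, 0, 0, 0, 0, 15288046, 0, 0, 0, ⟨0, 0⟩, 0⟩, 0, 0⟩ 0 0))) (.pos 43 .mp ⟨⟨11335115, 0, 0, 0, 0, 15676130, 0, 0, 0, ⟨0, 0⟩, 0⟩, 0, 0⟩ 0 0)) (.pos 44 .mp ⟨⟨15997343, 0, 0, 0, 0, 11256729, 0, 0, 0, ⟨0, 0⟩, 0⟩, 0, 0⟩ 0 0))) (.cut .s 7491584 (.cut .v 16809984 (.cut .s 7469056 (.cut .s 7457792 (.pos 43 .mp ⟨⟨12708458, 0, 0, 0, 0, 15124572, 0, 0, 0, ⟨0, 0⟩, 0⟩, 0, 0⟩ 0 0) (.pos 43 .mp ⟨⟨12880901, 0, 0, 0, 0, 15173508, 0, 0, 0, ⟨0, 0⟩, 0⟩, 0, 0⟩ 0 0)) (.pos 43 .mp ⟨⟨12437376, 0, 0, 0, 0,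 15973398, 0, 0, 0, ⟨0, 0⟩, 0⟩, 0, 0⟩ 0 0)) (.pos 44 .mp ⟨⟨16870693, 0, 0, 0, 0, 11242812, 0, 0, 0, ⟨0, 0⟩, 0⟩, 0, 0⟩ 0 0)) (.cut .s 7514112 (.pos 41 .mp ⟨⟨13002907, 0, 0, 0, 0, 15829539, 0, 0, 0, ⟨0, 0⟩, 0⟩, 0, 0⟩ 0 0) (.pos 41 .mp ⟨⟨13250885, 0, 0, 0, 0, 16042566, 0, 0, 0, ⟨0, 0⟩, 0⟩, 0, 0⟩ 0 0))))) (.pos 42 .mp ⟨⟨29567517, 0, 0, 0, 0, 0, 0, 0, 0, ⟨0, 0⟩, 0⟩, 0, 0⟩ 0 0)))) (.pos 36 .mp ⟨⟨27428563, 0, 0, 0, 0, 0, 0, 0, 0, ⟨0, 0⟩, 0⟩, 0, 0⟩ 0 0)) (.void 34 ⟨⟨100000, 0, 0, 0, 0, 0, 0, 0, 0, ⟨0, 0⟩, 0⟩, 0, 0⟩ 0 0)) (.void 32 ⟨⟨100000, 0, 0, 0, 0, 0, 0, 0, 0, ⟨0, 0⟩, 0⟩, 0, 0⟩ 0 0)) (.void 30 ⟨⟨100000, 0, 0, 0, 0, 0, 0, 0, 0, ⟨0,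 0⟩, 0⟩, 0, 0⟩ 0 0)) (.void 28 ⟨⟨100000, 0, 0, 0, 0, 0, 0, 0, 0, ⟨0, 0⟩, 0⟩, 0, 0⟩ 0 0))))))) (.void 26 ⟨⟨100000, 0, 0, 0, 0, 0, 0, 0, 0, ⟨0, 0⟩, 0⟩, 0, 0⟩ 0 0)))) (.void 24 ⟨⟨100000, 0, 0, 0, 0, 0, 0, 0, 0, ⟨0, 0⟩, 0⟩, 0, 0⟩ 0 0)))) (.cut .v 16777216 (.cut .d 5916378 (.cut .d 2958189 (.cut .d 1479094 (.cut .v 8388608 (.cut .v 4194304 (.void 4 ⟨⟨0, 0, 100000, 0, 0, 0, 0, 0, 0, ⟨0, 0⟩, 0⟩, 0, 0⟩ 0 0) (.pos 5 .pm ⟨⟨0, 0, 0, 0, 0, 0, 0, 0, 0, ⟨0, 0⟩, 0⟩, 0, 0⟩ 0 0)) (.cut .v 12582912 (.pos 8 .pm ⟨⟨0, 0, 0, 0, 0, 0, 0, 0, 0, ⟨0, 0⟩, 0⟩, 0, 0⟩ 0 0) (.pos 9 .pm ⟨⟨0, 0, 0, 0, 0, 0, 0, 0, 0, ⟨0, 0⟩, 0⟩, 0, 0⟩ 0 0))) (.void 1 ⟨⟨0, 0, 0,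 0, 0, 0, 0, 0, 0, ⟨0, 0⟩, 0⟩, 0, 100000⟩ 0 0)) (.void 1 ⟨⟨0, 0, 0, 0, 0, 0, 0, 0, 0, ⟨0, 0⟩, 0⟩, 0, 100000⟩ 0 0)) (.void 1 ⟨⟨0, 0, 0, 0, 0, 0, 0, 0, 0, ⟨0, 0⟩, 0⟩, 0, 100000⟩ 0 0)) (.cut .d 5916378 (.cut .v 25165824 (.cut .d 2958189 (.cut .d 1479094 (.cut .v 20971520 (.cut .d 739547 (.cut .v 18874368 (.cut .v 17825792 (.cut .s 7176192 (.pos 29 .pp ⟨⟨12489604, 0, 0, 0, 0, 0, 0, 0, 0, ⟨0, 0⟩, 0⟩, 0, 11760⟩ 0 0) (.pos 29 .pp ⟨⟨13717823, 0, 0, 0, 0, 0, 0, 0, 0, ⟨0, 0⟩, 0⟩, 318118, 0⟩ 0 0)) (.pos 30 .pp ⟨⟨18032927, 0, 0, 0, 0, 0, 0, 0, 0, ⟨0, 0⟩, 0⟩, 0, 309799⟩ 0 0)) (.pos 28 .pp ⟨⟨25372612, 0, 0, 0, 0, 0, 0, 0, 0, ⟨0, 0⟩, 0⟩, 0, 216824⟩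 0 0)) (.cut .v 18874368 (.pos 27 .pp ⟨⟨0, 0, 0, 0, 0, 0, 0, 0, 0, ⟨0, 0⟩, 0⟩, 0, 14168749⟩ 0 0) (.pos 28 .pp ⟨⟨15334499, 0, 0, 0, 0, 0, 0, 0, 0, ⟨0, 0⟩, 0⟩, 0, 5422075⟩ 0 0))) (.cut .d 739547 (.void 26 ⟨⟨100000, 0, 0, 0, 0, 0, 0, 0, 0, ⟨0, 0⟩, 0⟩, 0, 0⟩ 0 0) (.pos 26 .pp ⟨⟨14046005, 0, 0, 0, 0, 0, 29938165, 0, 0, ⟨0, 0⟩, 0⟩, 0, 0⟩ 0 0))) (.void 23 ⟨⟨0, 0, 0, 0, 0, 0, 0, 0, 0, ⟨0, 0⟩, 0⟩, 2024, 97976⟩ 0 0)) (.void 23 ⟨⟨0, 0, 0, 0, 0, 0, 0, 0, 0, ⟨0, 0⟩, 0⟩, 0, 100000⟩ 0 0)) (.void 24 ⟨⟨0, 0, 0, 0, 0, 0, 0, 0, 0, ⟨0, 0⟩, 0⟩, 15672, 84328⟩ 0 0)) (.void 22 ⟨⟨0, 0, 0, 0, 0, 0, 0, 0, 0, ⟨0, 0⟩, 0⟩, 0, 100000⟩ 0 0)))),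
    by decide +kernel⟩

def covers8 : cell.Covers Vale.Agent.P237.Petty.Cor.Grid.N18.table row8.1 :=
  ⟨(.cut .d 0 (.cut .v 16777216 (.cut .d (-8388608) (.void 1 ⟨⟨0, 0, 0, 0, 0, 100000, 0, 0, 0, ⟨0, 0⟩, 0⟩, 0, 0⟩ 0 0) (.cut .d (-4194304) (.void 1 ⟨⟨0, 0, 0, 0, 0, 100000, 0, 0, 0, ⟨0, 0⟩, 0⟩, 0, 0⟩ 0 0) (.cut .d (-2097152) (.void 1 ⟨⟨0, 0, 0, 0, 0, 100000, 0, 0, 0, ⟨0, 0⟩, 0⟩, 0, 0⟩ 0 0) (.cut .d (-1048576) (.void 1 ⟨⟨0, 0, 0, 0, 0, 100000, 0, 0, 0, ⟨0, 0⟩, 0⟩, 0, 0⟩ 0 0) (.cut .d (-524288) (.void 1 ⟨⟨0, 0, 0, 0, 0, 100000, 0, 0, 0, ⟨0, 0⟩, 0⟩, 0, 0⟩ 0 0) (.cut .d (-262144) (.void 1 ⟨⟨0, 0, 0, 0, 0, 100000, 0, 0, 0, ⟨0, 0⟩, 0⟩,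 0, 0⟩ 0 0) (.cut .d (-131072) (.void 1 ⟨⟨0, 0, 0, 0, 0, 100000, 0, 0, 0, ⟨0, 0⟩, 0⟩, 0, 0⟩ 0 0) (.cut .d (-65536) (.void 1 ⟨⟨0, 0, 0, 0, 0, 100000, 0, 0, 0, ⟨0, 0⟩, 0⟩, 0, 0⟩ 0 0) (.cut .v 8388608 (.cut .v 4194304 (.void 4 ⟨⟨0, 0, 100000, 0, 0, 0, 0, 0, 0, ⟨0, 0⟩, 0⟩, 0, 0⟩ 0 0) (.pos 5 .mm ⟨⟨0, 0, 0, 0, 0, 15897747, 0, 0, 0, ⟨0, 0⟩, 0⟩, 0, 0⟩ 0 0)) (.cut .v 12582912 (.pos 8 .mm ⟨⟨0, 0, 0, 0, 0, 21321728, 0, 0, 0, ⟨0, 0⟩, 0⟩, 0, 0⟩ 0 0) (.cut .d (-32768) (.pos 9 .mm ⟨⟨0, 0, 0, 0, 0, 42824815, 0, 0, 0, ⟨0, 0⟩, 0⟩, 0, 0⟩ 0 0) (.cut .v 14680064 (.pos 12 .mm ⟨⟨0, 0, 0, 0, 0, 24343341, 0, 0, 0, ⟨0, 0⟩, 0⟩, 0, 0⟩ 0 0) (.cut .v 15728640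 (.pos 20 .mm ⟨⟨0, 0, 0, 0, 0, 26069896, 0, 0, 0, ⟨0, 0⟩, 0⟩, 0, 0⟩ 0 0) (.cut .v 16252928 (.pos 37 .mm ⟨⟨0, 0, 0, 0, 0, 26965428, 0, 0, 0, ⟨0, 0⟩, 0⟩, 0, 0⟩ 0 0) (.cut .v 16515072 (.pos 39 .mm ⟨⟨0, 0, 0, 0, 0, 30616345, 0, 0, 0, ⟨0, 0⟩, 0⟩, 0, 0⟩ 0 0) (.cut .v 16646144 (.pos 47 .mm ⟨⟨0, 0, 0, 0, 0, 33496535, 0, 0, 0, ⟨0, 0⟩, 0⟩, 0, 0⟩ 0 0) (.cut .v 16711680 (.pos 49 .mm ⟨⟨0, 0, 0, 0, 0, 34771590, 0, 0, 0, ⟨0, 0⟩, 0⟩, 0, 0⟩ 0 0) (.cut .s 7798784 (.cut .s 7667712 (.pos 50 .mm ⟨⟨0, 0, 0, 0, 0, 31395945, 0, 0, 0, ⟨0, 0⟩, 0⟩, 0, 0⟩ 0 0) (.pos 50 .mm ⟨⟨0, 0, 0, 0, 0, 34294480, 0, 0, 0, ⟨0, 0⟩, 0⟩, 0, 0⟩ 0 0)) (.cut .s 7929856 (.pos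 50 .mm ⟨⟨0, 0, 0, 0, 0, 37572018, 0, 0, 0, ⟨0, 0⟩, 0⟩, 0, 0⟩ 0 0) (.pos 50 .mm ⟨⟨0, 0, 0, 0, 0, 41236907, 0, 0, 0, ⟨0, 0⟩, 0⟩, 0, 0⟩ 0 0)))))))))))))))))))) (.cut .v 25165824 (.cut .d (-8388608) (.void 23 ⟨⟨0, 0, 0, 0, 0, 100000, 0, 0, 0, ⟨0, 0⟩, 0⟩, 0, 0⟩ 0 0) (.cut .d (-4194304) (.void 23 ⟨⟨0, 0, 0, 0, 0, 100000, 0, 0, 0, ⟨0, 0⟩, 0⟩, 0, 0⟩ 0 0) (.cut .d (-2097152) (.void 23 ⟨⟨0, 0, 0, 0, 0, 100000, 0, 0, 0, ⟨0, 0⟩, 0⟩, 0, 0⟩ 0 0) (.cut .v 20971520 (.cut .d (-1048576) (.void 25 ⟨⟨0, 0, 0, 0, 0, 100000, 0, 0, 0, ⟨0, 0⟩, 0⟩, 0, 0⟩ 0 0) (.cut .d (-524288) (.void 25 ⟨⟨0, 0, 0, 0, 0, 100000, 0, 0, 0, ⟨0, 0⟩, 0⟩, 0, 0⟩ 0 0) (.cut .d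 (-262144) (.void 25 ⟨⟨0, 0, 0, 0, 0, 100000, 0, 0, 0, ⟨0, 0⟩, 0⟩, 0, 0⟩ 0 0) (.cut .d (-131072) (.void 25 ⟨⟨0, 0, 0, 0, 0, 100000, 0, 0, 0, ⟨0, 0⟩, 0⟩, 0, 0⟩ 0 0) (.cut .v 18874368 (.cut .d (-65536) (.void 27 ⟨⟨0, 0, 0, 0, 0, 100000, 0, 0, 0, ⟨0, 0⟩, 0⟩, 0, 0⟩ 0 0) (.cut .v 17825792 (.cut .v 17301504 (.cut .v 17039360 (.cut .v 16908288 (.cut .d (-32768) (.cut .v 16842752 (.cut .d (-49152) (.void 41 ⟨⟨0, 0, 0, 0, 0, 100000, 0, 0, 0, ⟨0, 0⟩, 0⟩, 0, 0⟩ 0 0) (.cut .d (-40960) (.void 41 ⟨⟨0, 0, 0, 0, 0, 100000, 0, 0, 0, ⟨0, 0⟩, 0⟩, 0, 0⟩ 0 0) (.cut .d (-36864) (.pos 41 .mp ⟨⟨12923875, 0, 0, 0, 0, 34948654, 0, 0, 0, ⟨0, 0⟩, 0⟩, 0, 0⟩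 0 0) (.cut .l 102527 (.void 41 ⟨⟨0, 0, 0, 0, 0, 100000, 0, 0, 0, ⟨0, 0⟩, 0⟩, 0, 0⟩ 0 0) (.cut .l 153791 (.void 41 ⟨⟨0, 0, 0, 0, 0, 100000, 0, 0, 0, ⟨0, 0⟩, 0⟩, 0, 0⟩ 0 0) (.cut .v 16809984 (.pos 43 .mp ⟨⟨0, 0, 0, 0, 0, 40394615, 0, 0, 0, ⟨0, 0⟩, 0⟩, 0, 0⟩ 0 0) (.cut .v 16826368 (.cut .l 179423 (.void 75 ⟨⟨0, 0, 0, 0, 0, 100000, 0, 0, 0, ⟨0, 0⟩, 0⟩, 0, 0⟩ 0 0) (.cut .s 7798784 (.pos 75 .mp ⟨⟨12921961, 0, 0, 0, 0, 21897656, 0, 0, 0, ⟨0, 0⟩, 0⟩, 0, 0⟩ 0 0) (.cut .s 7929856 (.pos 75 .mp ⟨⟨16076770, 0, 0, 0, 0, 22066297, 0, 0, 0, ⟨0, 0⟩, 0⟩, 0, 0⟩ 0 0) (.pos 75 .mp ⟨⟨17875079, 0, 0, 0, 0, 23543017, 0, 0, 0, ⟨0, 0⟩, 0⟩, 0, 0⟩ 0 0))))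 (.pos 76 .mp ⟨⟨38176030, 0, 0, 0, 0, 0, 0, 0, 0, ⟨0, 0⟩, 0⟩, 0, 0⟩ 0 0)))))))) (.void 42 ⟨⟨100000, 0, 0, 0, 0, 0, 0, 0, 0, ⟨0, 0⟩, 0⟩, 0, 0⟩ 0 0)) (.cut .s 7798784 (.cut .v 16842752 (.cut .s 7667712 (.cut .s 7602176 (.cut .v 16809984 (.cut .l 102527 (.cut .d (-16384) (.pos 43 .mp ⟨⟨13053720, 0, 0, 0, 0, 18190611, 0, 0, 0, ⟨0, 0⟩, 0⟩, 0, 0⟩ 0 0) (.cut .s 7569408 (.pos 43 .mp ⟨⟨13510030, 0, 0, 0, 0, 16283063, 0, 0, 0, ⟨0, 0⟩, 0⟩, 0, 0⟩ 0 0) (.pos 43 .mp ⟨⟨13775243, 0, 0, 0, 0, 16634430, 0, 0, 0, ⟨0, 0⟩, 0⟩, 0, 0⟩ 0 0))) (.pos 43 .mp ⟨⟨12721160, 0, 0, 0, 0, 17202902, 0, 0, 0, ⟨0, 0⟩, 0⟩, 0, 0⟩ 0 0)) (.pos 44 .mp ⟨⟨20527518, 0, 0,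 0, 0, 9515857, 0, 0, 0, ⟨0, 0⟩, 0⟩, 0, 0⟩ 0 0)) (.cut .v 16809984 (.cut .s 7634944 (.cut .s 7618560 (.pos 43 .mp ⟨⟨14333281, 0, 0, 0, 0, 16608079, 0, 0, 0, ⟨0, 0⟩, 0⟩, 0, 0⟩ 0 0) (.pos 43 .mp ⟨⟨14423261, 0, 0, 0, 0, 16843211, 0, 0, 0, ⟨0, 0⟩, 0⟩, 0, 0⟩ 0 0)) (.cut .s 7651328 (.pos 43 .mp ⟨⟨14519447, 0, 0, 0, 0, 17077120, 0, 0, 0, ⟨0, 0⟩, 0⟩, 0, 0⟩ 0 0) (.pos 43 .mp ⟨⟨14529197, 0, 0, 0, 0, 17423118, 0, 0, 0, ⟨0, 0⟩, 0⟩, 0, 0⟩ 0 0))) (.pos 44 .mp ⟨⟨21048157, 0, 0, 0, 0, 10230183, 0, 0, 0, ⟨0, 0⟩, 0⟩, 0, 0⟩ 0 0))) (.cut .s 7733248 (.cut .s 7700480 (.cut .v 16809984 (.cut .d (-16384) (.pos 43 .mp ⟨⟨14162105, 0, 0, 0, 0, 18669110,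 0, 0, 0, ⟨0, 0⟩, 0⟩, 0, 0⟩ 0 0) (.cut .s 7684096 (.pos 43 .mp ⟨⟨14983714, 0, 0, 0, 0, 17231072, 0, 0, 0, ⟨0, 0⟩, 0⟩, 0, 0⟩ 0 0) (.pos 43 .mp ⟨⟨15112600, 0, 0, 0, 0, 17443624, 0, 0, 0, ⟨0, 0⟩, 0⟩, 0, 0⟩ 0 0))) (.pos 44 .mp ⟨⟨18948248, 0, 0, 0, 0, 13401944, 0, 0, 0, ⟨0, 0⟩, 0⟩, 0, 0⟩ 0 0)) (.cut .v 16809984 (.cut .d (-16384) (.pos 43 .mp ⟨⟨14554239, 0, 0, 0, 0, 18952141, 0, 0, 0, ⟨0, 0⟩, 0⟩, 0, 0⟩ 0 0) (.cut .s 7716864 (.pos 43 .mp ⟨⟨15247764, 0, 0, 0, 0, 17654863, 0, 0, 0, ⟨0, 0⟩, 0⟩, 0, 0⟩ 0 0) (.pos 43 .mp ⟨⟨15389397, 0, 0, 0, 0, 17864565, 0, 0, 0, ⟨0, 0⟩, 0⟩, 0, 0⟩ 0 0))) (.pos 44 .mp ⟨⟨19235593, 0, 0, 0, 0, 13800347, 0, 0,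 0, ⟨0, 0⟩, 0⟩, 0, 0⟩ 0 0))) (.cut .s 7766016 (.cut .v 16809984 (.cut .s 7749632 (.cut .s 7741440 (.pos 43 .mp ⟨⟨15672552, 0, 0, 0, 0, 17899877, 0, 0, 0, ⟨0, 0⟩, 0⟩, 0, 0⟩ 0 0) (.pos 43 .mp ⟨⟨15747038, 0, 0, 0, 0, 18005686, 0, 0, 0, ⟨0, 0⟩, 0⟩, 0, 0⟩ 0 0)) (.cut .s 7757824 (.pos 43 .mp ⟨⟨15811485, 0, 0, 0, 0, 18125513, 0, 0, 0, ⟨0, 0⟩, 0⟩, 0, 0⟩ 0 0) (.pos 43 .mp ⟨⟨15858404, 0, 0, 0, 0, 18268645, 0, 0, 0, ⟨0, 0⟩, 0⟩, 0, 0⟩ 0 0))) (.pos 44 .mp ⟨⟨19562398, 0, 0, 0, 0, 14177618, 0, 0, 0, ⟨0, 0⟩, 0⟩, 0, 0⟩ 0 0)) (.cut .v 16809984 (.cut .s 7782400 (.cut .s 7774208 (.pos 43 .mp ⟨⟨15909075, 0, 0, 0, 0, 18408827, 0, 0, 0, ⟨0, 0⟩, 0⟩, 0,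 0⟩ 0 0) (.pos 43 .mp ⟨⟨15963542, 0, 0, 0, 0, 18546001, 0, 0, 0, ⟨0, 0⟩, 0⟩, 0, 0⟩ 0 0)) (.cut .s 7790592 (.pos 43 .mp ⟨⟨16021846, 0, 0, 0, 0, 18680111, 0, 0, 0, ⟨0, 0⟩, 0⟩, 0, 0⟩ 0 0) (.pos 43 .mp ⟨⟨16084031, 0, 0, 0, 0, 18811099, 0, 0, 0, ⟨0, 0⟩, 0⟩, 0, 0⟩ 0 0))) (.pos 44 .mp ⟨⟨19931212, 0, 0, 0, 0, 14530717, 0, 0, 0, ⟨0, 0⟩, 0⟩, 0, 0⟩ 0 0))))) (.pos 42 .mp ⟨⟨32100559, 0, 0, 0, 0, 0, 0, 0, 0, ⟨0, 0⟩, 0⟩, 0, 0⟩ 0 0)) (.cut .v 16842752 (.cut .s 7929856 (.cut .s 7864320 (.cut .s 7831552 (.cut .v 16809984 (.cut .s 7815168 (.cut .s 7806976 (.pos 43 .mp ⟨⟨16162922, 0, 0, 0, 0, 18924164, 0, 0, 0, ⟨0, 0⟩, 0⟩, 0, 0⟩ 0 0) (.pos 43 .mp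 ⟨⟨16255290, 0, 0, 0, 0, 19022996, 0, 0, 0, ⟨0, 0⟩, 0⟩, 0, 0⟩ 0 0)) (.cut .d (-16384) (.pos 43 .mp ⟨⟨15996997, 0, 0, 0, 0, 19833198, 0, 0, 0, ⟨0, 0⟩, 0⟩, 0, 0⟩ 0 0) (.cut .s 7823360 (.pos 43 .mp ⟨⟨16760312, 0, 0, 0, 0, 18605888, 0, 0, 0, ⟨0, 0⟩, 0⟩, 0, 0⟩ 0 0) (.pos 43 .mp ⟨⟨16857622, 0, 0, 0, 0, 18699524, 0, 0, 0, ⟨0, 0⟩, 0⟩, 0, 0⟩ 0 0)))) (.pos 44 .mp ⟨⟨20344594, 0, 0, 0, 0, 14856558, 0, 0, 0, ⟨0, 0⟩, 0⟩, 0, 0⟩ 0 0)) (.cut .v 16809984 (.cut .s 7847936 (.cut .d (-16384) (.pos 43 .mp ⟨⟨16212154, 0, 0, 0, 0, 20001929, 0, 0, 0, ⟨0, 0⟩, 0⟩, 0, 0⟩ 0 0) (.cut .s 7839744 (.pos 43 .mp ⟨⟨16956904, 0, 0, 0, 0, 18792352, 0, 0, 0, ⟨0, 0⟩,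 0⟩, 0, 0⟩ 0 0) (.pos 43 .mp ⟨⟨17058183, 0, 0, 0, 0, 18884341, 0, 0, 0, ⟨0, 0⟩, 0⟩, 0, 0⟩ 0 0))) (.cut .d (-16384) (.pos 43 .mp ⟨⟨16429602, 0, 0, 0, 0, 20174352, 0, 0, 0, ⟨0, 0⟩, 0⟩, 0, 0⟩ 0 0) (.cut .s 7856128 (.pos 43 .mp ⟨⟨17161484, 0, 0, 0, 0, 18975460, 0, 0, 0, ⟨0, 0⟩, 0⟩, 0, 0⟩ 0 0) (.pos 43 .mp ⟨⟨17266831, 0, 0, 0, 0, 19065681, 0, 0, 0, ⟨0, 0⟩, 0⟩, 0, 0⟩ 0 0)))) (.pos 44 .mp ⟨⟨20805119, 0, 0, 0, 0, 15152003, 0, 0, 0, ⟨0, 0⟩, 0⟩, 0, 0⟩ 0 0))) (.cut .s 7897088 (.cut .s 7880704 (.cut .v 16809984 (.cut .d (-16384) (.pos 43 .mp ⟨⟨16649350, 0, 0, 0, 0, 20350494, 0, 0, 0, ⟨0, 0⟩, 0⟩, 0, 0⟩ 0 0) (.cut .s 7872512 (.pos 43 .mp ⟨⟨17374250,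 0, 0, 0, 0, 19154971, 0, 0, 0, ⟨0, 0⟩, 0⟩, 0, 0⟩ 0 0) (.pos 43 .mp ⟨⟨17483766, 0, 0, 0, 0, 19243300, 0, 0, 0, ⟨0, 0⟩, 0⟩, 0, 0⟩ 0 0))) (.pos 44 .mp ⟨⟨19664816, 0, 0, 0, 0, 16959756, 0, 0, 0, ⟨0, 0⟩, 0⟩, 0, 0⟩ 0 0)) (.cut .v 16809984 (.cut .d (-16384) (.pos 43 .mp ⟨⟨16871408, 0, 0, 0, 0, 20530381, 0, 0, 0, ⟨0, 0⟩, 0⟩, 0, 0⟩ 0 0) (.cut .s 7888896 (.pos 43 .mp ⟨⟨17595403, 0, 0, 0, 0, 19330639, 0, 0, 0, ⟨0, 0⟩, 0⟩, 0, 0⟩ 0 0) (.pos 43 .mp ⟨⟨17709188, 0, 0, 0, 0, 19416955, 0, 0, 0, ⟨0, 0⟩, 0⟩, 0, 0⟩ 0 0))) (.pos 44 .mp ⟨⟨19915676, 0, 0, 0, 0, 17102578, 0, 0, 0, ⟨0, 0⟩, 0⟩, 0, 0⟩ 0 0))) (.cut .s 7913472 (.cut .v 16809984 (.cut .d (-16384)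 (.pos 43 .mp ⟨⟨17095786, 0, 0, 0, 0, 20714041, 0, 0, 0, ⟨0, 0⟩, 0⟩, 0, 0⟩ 0 0) (.cut .s 7905280 (.pos 43 .mp ⟨⟨17825144, 0, 0, 0, 0, 19502217, 0, 0, 0, ⟨0, 0⟩, 0⟩, 0, 0⟩ 0 0) (.pos 43 .mp ⟨⟨17943298, 0, 0, 0, 0, 19586395, 0, 0, 0, ⟨0, 0⟩, 0⟩, 0, 0⟩ 0 0))) (.pos 44 .mp ⟨⟨20179941, 0, 0, 0, 0, 17235884, 0, 0, 0, ⟨0, 0⟩, 0⟩, 0, 0⟩ 0 0)) (.cut .v 16809984 (.cut .d (-16384) (.pos 43 .mp ⟨⟨17322493, 0, 0, 0, 0, 20901503, 0, 0, 0, ⟨0, 0⟩, 0⟩, 0, 0⟩ 0 0) (.cut .s 7921664 (.pos 43 .mp ⟨⟨18063674, 0, 0, 0, 0, 19669457, 0, 0, 0, ⟨0, 0⟩, 0⟩, 0, 0⟩ 0 0) (.pos 43 .mp ⟨⟨18186299, 0, 0, 0, 0, 19751372, 0, 0, 0, ⟨0, 0⟩, 0⟩, 0, 0⟩ 0 0))) (.pos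 44 .mp ⟨⟨20457945, 0, 0, 0, 0, 17359257, 0, 0, 0, ⟨0, 0⟩, 0⟩, 0, 0⟩ 0 0))))) (.cut .s 7995392 (.cut .s 7962624 (.cut .v 16809984 (.cut .s 7946240 (.cut .d (-16384) (.pos 43 .mp ⟨⟨17551540, 0, 0, 0, 0, 21092793, 0, 0, 0, ⟨0, 0⟩, 0⟩, 0, 0⟩ 0 0) (.cut .s 7938048 (.pos 43 .mp ⟨⟨18311197, 0, 0, 0, 0, 19832107, 0, 0, 0, ⟨0, 0⟩, 0⟩, 0, 0⟩ 0 0) (.pos 43 .mp ⟨⟨18438395, 0, 0, 0, 0, 19911632, 0, 0, 0, ⟨0, 0⟩, 0⟩, 0, 0⟩ 0 0))) (.cut .d (-16384) (.pos 43 .mp ⟨⟨17782936, 0, 0, 0, 0, 21287940, 0, 0, 0, ⟨0, 0⟩, 0⟩, 0, 0⟩ 0 0) (.cut .s 7954432 (.pos 43 .mp ⟨⟨18567917, 0, 0, 0, 0, 19989913, 0, 0, 0, ⟨0, 0⟩, 0⟩, 0, 0⟩ 0 0) (.pos 43 .mp ⟨⟨18699790,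 0, 0, 0, 0, 20066919, 0, 0, 0, ⟨0, 0⟩, 0⟩, 0, 0⟩ 0 0)))) (.pos 44 .mp ⟨⟨22495517, 0, 0, 0, 0, 15823846, 0, 0, 0, ⟨0, 0⟩, 0⟩, 0, 0⟩ 0 0)) (.cut .v 16809984 (.cut .s 7979008 (.cut .s 7970816 (.pos 43 .mp ⟨⟨18407336, 0, 0, 0, 0, 20684238, 0, 0, 0, ⟨0, 0⟩, 0⟩, 0, 0⟩ 0 0) (.pos 43 .mp ⟨⟨18543044, 0, 0, 0, 0, 20758157, 0, 0, 0, ⟨0, 0⟩, 0⟩, 0, 0⟩ 0 0)) (.cut .s 7987200 (.pos 43 .mp ⟨⟨18681951, 0, 0, 0, 0, 20829574, 0, 0, 0, ⟨0, 0⟩, 0⟩, 0, 0⟩ 0 0) (.pos 43 .mp ⟨⟨18849807, 0, 0, 0, 0, 20868336, 0, 0, 0, ⟨0, 0⟩, 0⟩, 0, 0⟩ 0 0))) (.pos 44 .mp ⟨⟨23170660, 0, 0, 0, 0, 15965326, 0, 0, 0, ⟨0, 0⟩, 0⟩, 0, 0⟩ 0 0))) (.cut .s 8028160 (.cut .v 16809984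 (.cut .s 8011776 (.cut .s 8003584 (.pos 43 .mp ⟨⟨19022579, 0, 0, 0, 0, 20902532, 0, 0, 0, ⟨0, 0⟩, 0⟩, 0, 0⟩ 0 0) (.pos 43 .mp ⟨⟨19200307, 0, 0, 0, 0, 20932104, 0, 0, 0, ⟨0, 0⟩, 0⟩, 0, 0⟩ 0 0)) (.cut .s 8019968 (.pos 43 .mp ⟨⟨19383031, 0, 0, 0, 0, 20956995, 0, 0, 0, ⟨0, 0⟩, 0⟩, 0, 0⟩ 0 0) (.pos 43 .mp ⟨⟨19570790, 0, 0, 0, 0, 20977145, 0, 0, 0, ⟨0, 0⟩, 0⟩, 0, 0⟩ 0 0))) (.pos 44 .mp ⟨⟨23906053, 0, 0, 0, 0, 16059953, 0, 0, 0, ⟨0, 0⟩, 0⟩, 0, 0⟩ 0 0)) (.cut .v 16809984 (.cut .s 8044544 (.cut .s 8036352 (.pos 43 .mp ⟨⟨19763626, 0, 0, 0, 0, 20992497, 0, 0, 0, ⟨0, 0⟩, 0⟩, 0, 0⟩ 0 0) (.pos 43 .mp ⟨⟨19940175, 0, 0, 0, 0, 21030131, 0, 0,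 0, ⟨0, 0⟩, 0⟩, 0, 0⟩ 0 0)) (.cut .s 8052736 (.pos 43 .mp ⟨⟨20105270, 0, 0, 0, 0, 21083969, 0, 0, 0, ⟨0, 0⟩, 0⟩, 0, 0⟩ 0 0) (.pos 43 .mp ⟨⟨20273359, 0, 0, 0, 0, 21135704, 0, 0, 0, ⟨0, 0⟩, 0⟩, 0, 0⟩ 0 0))) (.pos 44 .mp ⟨⟨24704369, 0, 0, 0, 0, 16104270, 0, 0, 0, ⟨0, 0⟩, 0⟩, 0, 0⟩ 0 0))))) (.pos 42 .mp ⟨⟨37556941, 0, 0, 0, 0, 0, 0, 0, 0, ⟨0, 0⟩, 0⟩, 0, 0⟩ 0 0)))) (.pos 36 .mp ⟨⟨39313104, 0, 0, 0, 0, 0, 0, 0, 0, ⟨0, 0⟩, 0⟩, 0, 0⟩ 0 0)) (.void 34 ⟨⟨100000, 0, 0, 0, 0, 0, 0, 0, 0, ⟨0, 0⟩, 0⟩, 0, 0⟩ 0 0)) (.void 32 ⟨⟨100000, 0, 0, 0, 0, 0, 0, 0, 0, ⟨0, 0⟩, 0⟩, 0, 0⟩ 0 0)) (.void 30 ⟨⟨100000, 0, 0, 0, 0, 0, 0, 0, 0, ⟨0, 0⟩, 0⟩, 0, 0⟩ 0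 0))) (.void 28 ⟨⟨100000, 0, 0, 0, 0, 0, 0, 0, 0, ⟨0, 0⟩, 0⟩, 0, 0⟩ 0 0)))))) (.void 26 ⟨⟨100000, 0, 0, 0, 0, 0, 0, 0, 0, ⟨0, 0⟩, 0⟩, 0, 0⟩ 0 0))))) (.void 24 ⟨⟨100000, 0, 0, 0, 0, 0, 0, 0, 0, ⟨0, 0⟩, 0⟩, 0, 0⟩ 0 0))) (.cut .v 16777216 (.cut .d 7099104 (.cut .d 3549552 (.cut .d 1774776 (.cut .v 8388608 (.cut .v 4194304 (.void 4 ⟨⟨0, 0, 100000, 0, 0, 0, 0, 0, 0, ⟨0, 0⟩, 0⟩, 0, 0⟩ 0 0) (.pos 5 .pm ⟨⟨0, 0, 0, 0, 0, 0, 0, 0, 0, ⟨0, 0⟩, 0⟩, 0, 0⟩ 0 0)) (.cut .v 12582912 (.pos 8 .pm ⟨⟨0, 0, 0, 0, 0, 0, 0, 0, 0, ⟨0, 0⟩, 0⟩, 0, 0⟩ 0 0) (.pos 9 .pm ⟨⟨0, 0, 0, 0, 0, 0, 0, 0, 0, ⟨0, 0⟩, 0⟩, 0, 0⟩ 0 0))) (.void 1 ⟨⟨0, 0, 0, 0, 0, 0, 0, 0,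 0, ⟨0, 0⟩, 0⟩, 0, 100000⟩ 0 0)) (.void 1 ⟨⟨0, 0, 0, 0, 0, 0, 0, 0, 0, ⟨0, 0⟩, 0⟩, 0, 100000⟩ 0 0)) (.void 1 ⟨⟨0, 0, 0, 0, 0, 0, 0, 0, 0, ⟨0, 0⟩, 0⟩, 0, 100000⟩ 0 0)) (.cut .d 7099104 (.cut .v 25165824 (.cut .d 3549552 (.cut .d 1774776 (.cut .v 20971520 (.cut .d 887388 (.cut .d 443694 (.cut .v 18874368 (.cut .s 7798784 (.pos 27 .pp ⟨⟨11133152, 0, 0, 0, 0, 0, 0, 0, 0, ⟨0, 0⟩, 0⟩, 1266542, 0⟩ 0 0) (.pos 27 .pp ⟨⟨12441352, 0, 0, 0, 0, 0, 0, 0, 0, ⟨0, 0⟩, 0⟩, 1630118, 0⟩ 0 0)) (.pos 28 .pp ⟨⟨41566486, 0, 0, 0, 0, 0, 0, 0, 0, ⟨0, 0⟩, 0⟩, 0, 0⟩ 0 0)) (.pos 25 .pp ⟨⟨22973331, 0, 0, 0, 0, 0, 0, 0, 0, ⟨0, 0⟩, 0⟩, 0, 381448⟩ 0 0)) (.pos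 25 .pp ⟨⟨0, 0, 0, 0, 0, 0, 0, 0, 0, ⟨0, 0⟩, 0⟩, 0, 757390⟩ 0 0)) (.cut .d 887388 (.pos 26 .pp ⟨⟨33039836, 0, 0, 0, 0, 0, 69050, 0, 0, ⟨0, 0⟩, 0⟩, 1841991, 0⟩ 0 0) (.cut .d 1331082 (.cut .v 23068672 (.pos 79 .pp ⟨⟨0, 0, 0, 0, 0, 0, 7472990, 0, 0, ⟨0, 0⟩, 0⟩, 1881412, 0⟩ 0 0) (.cut .d 1109235 (.pos 80 .pp ⟨⟨0, 0, 0, 0, 0, 0, 14726368, 0, 0, ⟨0, 0⟩, 0⟩, 3527659, 0⟩ 0 0) (.pos 80 .pp ⟨⟨0, 0, 0, 0, 0, 0, 25347213, 0, 0, ⟨0, 0⟩, 0⟩, 2689071, 0⟩ 0 0))) (.pos 26 .pp ⟨⟨0, 0, 0, 0, 0, 0, 51345259, 0, 0, ⟨0, 0⟩, 0⟩, 0, 0⟩ 0 0)))) (.void 23 ⟨⟨0, 0, 0, 0, 0, 0, 0, 0, 0, ⟨0, 0⟩, 0⟩, 0, 100000⟩ 0 0)) (.void 23 ⟨⟨0, 0, 0, 0, 0, 0, 0, 0, 0, ⟨0,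 0⟩, 0⟩, 0, 100000⟩ 0 0)) (.void 24 ⟨⟨0, 0, 0, 0, 0, 0, 100000, 0, 0, ⟨0, 0⟩, 0⟩, 0, 0⟩ 0 0)) (.void 22 ⟨⟨0, 0, 0, 0, 0, 0, 0, 0, 0, ⟨0, 0⟩, 0⟩, 0, 100000⟩ 0 0)))),
    by decide +kernel⟩

def covers9 : cell.Covers Vale.Agent.P237.Petty.Cor.Grid.N18.table row9.1 :=
  ⟨(.cut .d 0 (.cut .v 16777216 (.cut .d (-8388608) (.void 1 ⟨⟨0, 0, 0, 0, 0, 100000, 0, 0, 0, ⟨0, 0⟩, 0⟩, 0, 0⟩ 0 0) (.cut .d (-4194304) (.void 1 ⟨⟨0, 0, 0, 0, 0, 100000, 0, 0, 0, ⟨0, 0⟩, 0⟩, 0, 0⟩ 0 0) (.cut .d (-2097152) (.void 1 ⟨⟨0, 0, 0, 0, 0, 100000, 0, 0, 0, ⟨0, 0⟩, 0⟩, 0, 0⟩ 0 0) (.cut .d (-1048576) (.void 1 ⟨⟨0, 0, 0, 0, 0, 100000, 0, 0, 0, ⟨0, 0⟩, 0⟩, 0, 0⟩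 0 0) (.cut .d (-524288) (.void 1 ⟨⟨0, 0, 0, 0, 0, 100000, 0, 0, 0, ⟨0, 0⟩, 0⟩, 0, 0⟩ 0 0) (.cut .d (-262144) (.void 1 ⟨⟨0, 0, 0, 0, 0, 100000, 0, 0, 0, ⟨0, 0⟩, 0⟩, 0, 0⟩ 0 0) (.cut .d (-131072) (.void 1 ⟨⟨0, 0, 0, 0, 0, 100000, 0, 0, 0, ⟨0, 0⟩, 0⟩, 0, 0⟩ 0 0) (.cut .d (-65536) (.void 1 ⟨⟨0, 0, 0, 0, 0, 100000, 0, 0, 0, ⟨0, 0⟩, 0⟩, 0, 0⟩ 0 0) (.cut .d (-32768) (.void 1 ⟨⟨0, 0, 0, 0, 0, 100000, 0, 0, 0, ⟨0, 0⟩, 0⟩, 0, 0⟩ 0 0) (.cut .v 8388608 (.cut .v 4194304 (.void 4 ⟨⟨0, 0, 100000, 0, 0, 0, 0, 0, 0, ⟨0, 0⟩, 0⟩, 0, 0⟩ 0 0) (.pos 5 .mm ⟨⟨0, 0, 0, 0, 0, 22692493, 0, 0, 0, ⟨0, 0⟩, 0⟩, 0, 0⟩ 0 0)) (.cut .v 12582912 (.pos 8 .mm ⟨⟨0,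 0, 0, 0, 0, 31002342, 0, 0, 0, ⟨0, 0⟩, 0⟩, 0, 0⟩ 0 0) (.cut .v 14680064 (.pos 12 .mm ⟨⟨0, 0, 0, 0, 0, 35628535, 0, 0, 0, ⟨0, 0⟩, 0⟩, 0, 0⟩ 0 0) (.cut .v 15728640 (.pos 20 .mm ⟨⟨0, 0, 0, 0, 0, 38059450, 0, 0, 0, ⟨0, 0⟩, 0⟩, 0, 0⟩ 0 0) (.cut .v 16252928 (.pos 37 .mm ⟨⟨0, 0, 0, 0, 0, 39304361, 0, 0, 0, ⟨0, 0⟩, 0⟩, 0, 0⟩ 0 0) (.cut .v 16515072 (.pos 39 .mm ⟨⟨0, 0, 0, 0, 0, 45527271, 0, 0, 0, ⟨0, 0⟩, 0⟩, 0, 0⟩ 0 0) (.cut .v 16646144 (.pos 47 .mm ⟨⟨0, 0, 0, 0, 0, 48919788, 0, 0, 0, ⟨0, 0⟩, 0⟩, 0, 0⟩ 0 0) (.cut .v 16711680 (.pos 49 .mm ⟨⟨0, 0, 0, 0, 0, 50643418, 0, 0, 0, ⟨0, 0⟩, 0⟩, 0, 0⟩ 0 0) (.cut .s 8323072 (.cut .s 8192000 (.pos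 50 .mm ⟨⟨0, 0, 0, 0, 0, 45321013, 0, 0, 0, ⟨0, 0⟩, 0⟩, 0, 0⟩ 0 0) (.pos 50 .mm ⟨⟨0, 0, 0, 0, 0, 49529387, 0, 0, 0, ⟨0, 0⟩, 0⟩, 0, 0⟩ 0 0)) (.cut .s 8454144 (.pos 50 .mm ⟨⟨0, 0, 0, 0, 0, 54258508, 0, 0, 0, ⟨0, 0⟩, 0⟩, 0, 0⟩ 0 0) (.pos 50 .mm ⟨⟨0, 0, 0, 0, 0, 59519004, 0, 0, 0, ⟨0, 0⟩, 0⟩, 0, 0⟩ 0 0)))))))))))))))))))) (.cut .v 25165824 (.cut .d (-8388608) (.void 23 ⟨⟨0, 0, 0, 0, 0, 100000, 0, 0, 0, ⟨0, 0⟩, 0⟩, 0, 0⟩ 0 0) (.cut .d (-4194304) (.void 23 ⟨⟨0, 0, 0, 0, 0, 100000, 0, 0, 0, ⟨0, 0⟩, 0⟩, 0, 0⟩ 0 0) (.cut .v 20971520 (.cut .d (-2097152) (.void 25 ⟨⟨0, 0, 0, 0, 0, 100000, 0, 0, 0, ⟨0, 0⟩, 0⟩, 0, 0⟩ 0 0) (.cut .d (-1048576)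 (.void 25 ⟨⟨0, 0, 0, 0, 0, 100000, 0, 0, 0, ⟨0, 0⟩, 0⟩, 0, 0⟩ 0 0) (.cut .d (-524288) (.void 25 ⟨⟨0, 0, 0, 0, 0, 100000, 0, 0, 0, ⟨0, 0⟩, 0⟩, 0, 0⟩ 0 0) (.cut .v 18874368 (.cut .d (-262144) (.void 27 ⟨⟨0, 0, 0, 0, 0, 100000, 0, 0, 0, ⟨0, 0⟩, 0⟩, 0, 0⟩ 0 0) (.cut .d (-131072) (.void 27 ⟨⟨0, 0, 0, 0, 0, 100000, 0, 0, 0, ⟨0, 0⟩, 0⟩, 0, 0⟩ 0 0) (.cut .d (-65536) (.void 27 ⟨⟨0, 0, 0, 0, 0, 100000, 0, 0, 0, ⟨0, 0⟩, 0⟩, 0, 0⟩ 0 0) (.cut .d (-32768) (.void 27 ⟨⟨0, 0, 0, 0, 0, 100000, 0, 0, 0, ⟨0, 0⟩, 0⟩, 0, 0⟩ 0 0) (.cut .v 17825792 (.cut .v 17301504 (.cut .v 17039360 (.cut .v 16908288 (.cut .s 8323072 (.cut .v 16842752 (.cut .s 8192000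 (.cut .s 8126464 (.cut .s 8093696 (.cut .v 16809984 (.cut .d (-16384) (.pos 43 .mp ⟨⟨19470093, 0, 0, 0, 0, 23030091, 0, 0, 0, ⟨0, 0⟩, 0⟩, 0, 0⟩ 0 0) (.cut .s 8077312 (.pos 43 .mp ⟨⟨20219752, 0, 0, 0, 0, 21481703, 0, 0, 0, ⟨0, 0⟩, 0⟩, 0, 0⟩ 0 0) (.pos 43 .mp ⟨⟨20478668, 0, 0, 0, 0, 21637289, 0, 0, 0, ⟨0, 0⟩, 0⟩, 0, 0⟩ 0 0))) (.pos 44 .mp ⟨⟨25114770, 0, 0, 0, 0, 16589648, 0, 0, 0, ⟨0, 0⟩, 0⟩, 0, 0⟩ 0 0)) (.cut .v 16809984 (.cut .s 8110080 (.cut .s 8101888 (.pos 43 .mp ⟨⟨20688173, 0, 0, 0, 0, 21824927, 0, 0, 0, ⟨0, 0⟩, 0⟩, 0, 0⟩ 0 0) (.pos 43 .mp ⟨⟨20736661, 0, 0, 0, 0, 22006835, 0, 0, 0, ⟨0, 0⟩, 0⟩, 0, 0⟩ 0 0)) (.cut .s 8118272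 (.pos 43 .mp ⟨⟨20788813, 0, 0, 0, 0, 22186287, 0, 0, 0, ⟨0, 0⟩, 0⟩, 0, 0⟩ 0 0) (.pos 43 .mp ⟨⟨20844690, 0, 0, 0, 0, 22363201, 0, 0, 0, ⟨0, 0⟩, 0⟩, 0, 0⟩ 0 0))) (.pos 44 .mp ⟨⟨25539561, 0, 0, 0, 0, 17015315, 0, 0, 0, ⟨0, 0⟩, 0⟩, 0, 0⟩ 0 0))) (.cut .s 8159232 (.cut .v 16809984 (.cut .s 8142848 (.cut .s 8134656 (.pos 43 .mp ⟨⟨20932924, 0, 0, 0, 0, 22503686, 0, 0, 0, ⟨0, 0⟩, 0⟩, 0, 0⟩ 0 0) (.cut .s 8138752 (.pos 43 .mp ⟨⟨21512517, 0, 0, 0, 0, 22007899, 0, 0, 0, ⟨0, 0⟩, 0⟩, 0, 0⟩ 0 0) (.pos 43 .mp ⟨⟨21563969, 0, 0, 0, 0, 22069046, 0, 0, 0, ⟨0, 0⟩, 0⟩, 0, 0⟩ 0 0))) (.cut .d (-16384) (.pos 43 .mp ⟨⟨20755466, 0, 0, 0, 0, 23603927, 0,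 0, 0, ⟨0, 0⟩, 0⟩, 0, 0⟩ 0 0) (.cut .s 8151040 (.pos 43 .mp ⟨⟨21589778, 0, 0, 0, 0, 22167880, 0, 0, 0, ⟨0, 0⟩, 0⟩, 0, 0⟩ 0 0) (.pos 43 .mp ⟨⟨21697915, 0, 0, 0, 0, 22286213, 0, 0, 0, ⟨0, 0⟩, 0⟩, 0, 0⟩ 0 0)))) (.pos 44 .mp ⟨⟨26010993, 0, 0, 0, 0, 17417624, 0, 0, 0, ⟨0, 0⟩, 0⟩, 0, 0⟩ 0 0)) (.cut .s 8175616 (.cut .d (-16384) (.pos 41 .mp ⟨⟨21360347, 0, 0, 0, 0, 23437174, 0, 0, 0, ⟨0, 0⟩, 0⟩, 0, 0⟩ 0 0) (.cut .s 8167424 (.pos 41 .mp ⟨⟨21785942, 0, 0, 0, 0, 22429184, 0, 0, 0, ⟨0, 0⟩, 0⟩, 0, 0⟩ 0 0) (.pos 41 .mp ⟨⟨21923814, 0, 0, 0, 0, 22517503, 0, 0, 0, ⟨0, 0⟩, 0⟩, 0, 0⟩ 0 0))) (.cut .v 16809984 (.cut .d (-16384) (.pos 43 .mp ⟨⟨21289959,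 0, 0, 0, 0, 23974018, 0, 0, 0, ⟨0, 0⟩, 0⟩, 0, 0⟩ 0 0) (.cut .s 8183808 (.pos 43 .mp ⟨⟨22035007, 0, 0, 0, 0, 22637904, 0, 0, 0, ⟨0, 0⟩, 0⟩, 0, 0⟩ 0 0) (.pos 43 .mp ⟨⟨22151710, 0, 0, 0, 0, 22753897, 0, 0, 0, ⟨0, 0⟩, 0⟩, 0, 0⟩ 0 0))) (.pos 44 .mp ⟨⟨24820337, 0, 0, 0, 0, 19883124, 0, 0, 0, ⟨0, 0⟩, 0⟩, 0, 0⟩ 0 0))))) (.cut .s 8257536 (.cut .s 8224768 (.cut .s 8208384 (.cut .v 16809984 (.cut .d (-16384) (.pos 43 .mp ⟨⟨21561617, 0, 0, 0, 0, 24166206, 0, 0, 0, ⟨0, 0⟩, 0⟩, 0, 0⟩ 0 0) (.cut .s 8200192 (.pos 43 .mp ⟨⟨22270637, 0, 0, 0, 0, 22869202, 0, 0, 0, ⟨0, 0⟩, 0⟩, 0, 0⟩ 0 0) (.pos 43 .mp ⟨⟨22391824, 0, 0, 0, 0, 22983780, 0, 0, 0, ⟨0,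 0⟩, 0⟩, 0, 0⟩ 0 0))) (.pos 44 .mp ⟨⟨25077102, 0, 0, 0, 0, 20091168, 0, 0, 0, ⟨0, 0⟩, 0⟩, 0, 0⟩ 0 0)) (.cut .v 16809984 (.cut .d (-16384) (.pos 43 .mp ⟨⟨21836233, 0, 0, 0, 0, 24363204, 0, 0, 0, ⟨0, 0⟩, 0⟩, 0, 0⟩ 0 0) (.cut .s 8216576 (.pos 43 .mp ⟨⟨22515873, 0, 0, 0, 0, 23096940, 0, 0, 0, ⟨0, 0⟩, 0⟩, 0, 0⟩ 0 0) (.pos 43 .mp ⟨⟨22657748, 0, 0, 0, 0, 23191637, 0, 0, 0, ⟨0, 0⟩, 0⟩, 0, 0⟩ 0 0))) (.pos 44 .mp ⟨⟨25347844, 0, 0, 0, 0, 20290631, 0, 0, 0, ⟨0, 0⟩, 0⟩, 0, 0⟩ 0 0))) (.cut .s 8241152 (.cut .v 16809984 (.cut .d (-16384) (.pos 43 .mp ⟨⟨22113820, 0, 0, 0, 0, 24565049, 0, 0, 0, ⟨0, 0⟩, 0⟩, 0, 0⟩ 0 0) (.cut .s 8232960 (.pos 43 .mp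 ⟨⟨22800391, 0, 0, 0, 0, 23287271, 0, 0, 0, ⟨0, 0⟩, 0⟩, 0, 0⟩ 0 0) (.pos 43 .mp ⟨⟨22943802, 0, 0, 0, 0, 23383842, 0, 0, 0, ⟨0, 0⟩, 0⟩, 0, 0⟩ 0 0))) (.pos 44 .mp ⟨⟨25633014, 0, 0, 0, 0, 20480953, 0, 0, 0, ⟨0, 0⟩, 0⟩, 0, 0⟩ 0 0)) (.cut .v 16809984 (.cut .d (-16384) (.pos 43 .mp ⟨⟨22394392, 0, 0, 0, 0, 24771778, 0, 0, 0, ⟨0, 0⟩, 0⟩, 0, 0⟩ 0 0) (.cut .s 8249344 (.pos 43 .mp ⟨⟨23087984, 0, 0, 0, 0, 23481348, 0, 0, 0, ⟨0, 0⟩, 0⟩, 0, 0⟩ 0 0) (.pos 43 .mp ⟨⟨23232938, 0, 0, 0, 0, 23579789, 0, 0, 0, ⟨0, 0⟩, 0⟩, 0, 0⟩ 0 0))) (.pos 44 .mp ⟨⟨25933065, 0, 0, 0, 0, 20661568, 0, 0, 0, ⟨0, 0⟩, 0⟩, 0, 0⟩ 0 0)))) (.cut .s 8290304 (.cut .s 8273920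 (.cut .v 16809984 (.cut .d (-16384) (.pos 43 .mp ⟨⟨22677961, 0, 0, 0, 0, 24983428, 0, 0, 0, ⟨0, 0⟩, 0⟩, 0, 0⟩ 0 0) (.cut .s 8265728 (.pos 43 .mp ⟨⟨23378667, 0, 0, 0, 0, 23679164, 0, 0, 0, ⟨0, 0⟩, 0⟩, 0, 0⟩ 0 0) (.pos 43 .mp ⟨⟨23525171, 0, 0, 0, 0, 23779470, 0, 0, 0, ⟨0, 0⟩, 0⟩, 0, 0⟩ 0 0))) (.pos 44 .mp ⟨⟨26248451, 0, 0, 0, 0, 20831906, 0, 0, 0, ⟨0, 0⟩, 0⟩, 0, 0⟩ 0 0)) (.cut .v 16809984 (.cut .d (-16384) (.pos 43 .mp ⟨⟨22964542, 0, 0, 0, 0, 25200036, 0, 0, 0, ⟨0, 0⟩, 0⟩, 0, 0⟩ 0 0) (.cut .s 8282112 (.pos 43 .mp ⟨⟨23672453, 0, 0, 0, 0, 23880707, 0, 0, 0, ⟨0, 0⟩, 0⟩, 0, 0⟩ 0 0) (.pos 43 .mp ⟨⟨23820515, 0, 0, 0, 0, 23982874, 0, 0,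 0, ⟨0, 0⟩, 0⟩, 0, 0⟩ 0 0))) (.pos 44 .mp ⟨⟨26579630, 0, 0, 0, 0, 20991391, 0, 0, 0, ⟨0, 0⟩, 0⟩, 0, 0⟩ 0 0))) (.cut .s 8306688 (.cut .v 16809984 (.cut .d (-16384) (.pos 43 .mp ⟨⟨23254149, 0, 0, 0, 0, 25421641, 0, 0, 0, ⟨0, 0⟩, 0⟩, 0, 0⟩ 0 0) (.cut .s 8298496 (.pos 43 .mp ⟨⟨23969358, 0, 0, 0, 0, 24085969, 0, 0, 0, ⟨0, 0⟩, 0⟩, 0, 0⟩ 0 0) (.pos 43 .mp ⟨⟨24118983, 0, 0, 0, 0, 24189992, 0, 0, 0, ⟨0, 0⟩, 0⟩, 0, 0⟩ 0 0))) (.pos 44 .mp ⟨⟨26927059, 0, 0, 0, 0, 21139442, 0, 0, 0, ⟨0, 0⟩, 0⟩, 0, 0⟩ 0 0)) (.cut .v 16809984 (.cut .d (-16384) (.pos 43 .mp ⟨⟨23546795, 0, 0, 0, 0, 25648279, 0, 0, 0, ⟨0, 0⟩, 0⟩, 0, 0⟩ 0 0) (.cut .s 8314880 (.pos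 43 .mp ⟨⟨24269394, 0, 0, 0, 0, 24294939, 0, 0, 0, ⟨0, 0⟩, 0⟩, 0, 0⟩ 0 0) (.pos 43 .mp ⟨⟨24420591, 0, 0, 0, 0, 24400811, 0, 0, 0, ⟨0, 0⟩, 0⟩, 0, 0⟩ 0 0))) (.pos 44 .mp ⟨⟨27291198, 0, 0, 0, 0, 21275476, 0, 0, 0, ⟨0, 0⟩, 0⟩, 0, 0⟩ 0 0)))))) (.pos 42 .mp ⟨⟨44194259, 0, 0, 0, 0, 0, 0, 0, 0, ⟨0, 0⟩, 0⟩, 0, 0⟩ 0 0)) (.cut .v 16842752 (.cut .s 8454144 (.cut .s 8388608 (.cut .s 8355840 (.cut .s 8339456 (.cut .v 16809984 (.cut .d (-16384) (.pos 43 .mp ⟨⟨23842493, 0, 0, 0, 0, 25879990, 0, 0, 0, ⟨0, 0⟩, 0⟩, 0, 0⟩ 0 0) (.cut .s 8331264 (.pos 43 .mp ⟨⟨24572577, 0, 0, 0, 0, 24507606, 0, 0, 0, ⟨0, 0⟩, 0⟩, 0, 0⟩ 0 0) (.pos 43 .mp ⟨⟨24725352, 0,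 0, 0, 0, 24615323, 0, 0, 0, ⟨0, 0⟩, 0⟩, 0, 0⟩ 0 0))) (.pos 44 .mp ⟨⟨27672509, 0, 0, 0, 0, 21398900, 0, 0, 0, ⟨0, 0⟩, 0⟩, 0, 0⟩ 0 0)) (.cut .v 16809984 (.cut .d (-16384) (.pos 43 .mp ⟨⟨24141259, 0, 0, 0, 0, 26116812, 0, 0, 0, ⟨0, 0⟩, 0⟩, 0, 0⟩ 0 0) (.cut .s 8347648 (.pos 43 .mp ⟨⟨24878920, 0, 0, 0, 0, 24723960, 0, 0, 0, ⟨0, 0⟩, 0⟩, 0, 0⟩ 0 0) (.pos 43 .mp ⟨⟨25033282, 0, 0, 0, 0, 24833516, 0, 0, 0, ⟨0, 0⟩, 0⟩, 0, 0⟩ 0 0))) (.pos 44 .mp ⟨⟨28071455, 0, 0, 0, 0, 21509120, 0, 0, 0, ⟨0, 0⟩, 0⟩, 0, 0⟩ 0 0))) (.cut .s 8372224 (.cut .v 16809984 (.cut .d (-16384) (.pos 43 .mp ⟨⟨24443105, 0, 0, 0, 0, 26358783, 0, 0, 0, ⟨0, 0⟩, 0⟩, 0, 0⟩ 0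 0) (.cut .s 8364032 (.pos 43 .mp ⟨⟨25188439, 0, 0, 0, 0, 24943989, 0, 0, 0, ⟨0, 0⟩, 0⟩, 0, 0⟩ 0 0) (.pos 43 .mp ⟨⟨25344394, 0, 0, 0, 0, 25055378, 0, 0, 0, ⟨0, 0⟩, 0⟩, 0, 0⟩ 0 0))) (.pos 44 .mp ⟨⟨28488502, 0, 0, 0, 0, 21605534, 0, 0, 0, ⟨0, 0⟩, 0⟩, 0, 0⟩ 0 0)) (.cut .v 16809984 (.cut .d (-16384) (.pos 43 .mp ⟨⟨24748047, 0, 0, 0, 0, 26605942, 0, 0, 0, ⟨0, 0⟩, 0⟩, 0, 0⟩ 0 0) (.cut .s 8380416 (.pos 43 .mp ⟨⟨25519411, 0, 0, 0, 0, 25146601, 0, 0, 0, ⟨0, 0⟩, 0⟩, 0, 0⟩ 0 0) (.pos 43 .mp ⟨⟨25699029, 0, 0, 0, 0, 25234320, 0, 0, 0, ⟨0, 0⟩, 0⟩, 0, 0⟩ 0 0))) (.pos 44 .mp ⟨⟨28924117, 0, 0, 0, 0, 21687537, 0, 0, 0, ⟨0, 0⟩, 0⟩, 0, 0⟩ 0 0))))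 (.cut .s 8421376 (.cut .v 16809984 (.cut .s 8404992 (.cut .d (-16384) (.pos 43 .mp ⟨⟨25056099, 0, 0, 0, 0, 26858329, 0, 0, 0, ⟨0, 0⟩, 0⟩, 0, 0⟩ 0 0) (.cut .s 8396800 (.pos 43 .mp ⟨⟨25881707, 0, 0, 0, 0, 25320304, 0, 0, 0, ⟨0, 0⟩, 0⟩, 0, 0⟩ 0 0) (.pos 43 .mp ⟨⟨26067483, 0, 0, 0, 0, 25404509, 0, 0, 0, ⟨0, 0⟩, 0⟩, 0, 0⟩ 0 0))) (.cut .d (-16384) (.pos 43 .mp ⟨⟨25367275, 0, 0, 0, 0, 27115984, 0, 0, 0, ⟨0, 0⟩, 0⟩, 0, 0⟩ 0 0) (.cut .s 8413184 (.pos 43 .mp ⟨⟨26256392, 0, 0, 0, 0, 25486886, 0, 0, 0, ⟨0, 0⟩, 0⟩, 0, 0⟩ 0 0) (.pos 43 .mp ⟨⟨26448470, 0, 0, 0, 0, 25567389, 0, 0, 0, ⟨0, 0⟩, 0⟩, 0, 0⟩ 0 0)))) (.pos 44 .mp ⟨⟨31891495, 0, 0, 0,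 0, 19264323, 0, 0, 0, ⟨0, 0⟩, 0⟩, 0, 0⟩ 0 0)) (.cut .v 16809984 (.cut .s 8437760 (.cut .s 8429568 (.cut .s 8425472 (.pos 43 .mp ⟨⟨26740256, 0, 0, 0, 0, 25513950, 0, 0, 0, ⟨0, 0⟩, 0⟩, 0, 0⟩ 0 0) (.pos 43 .mp ⟨⟨26842864, 0, 0, 0, 0, 25547515, 0, 0, 0, ⟨0, 0⟩, 0⟩, 0, 0⟩ 0 0)) (.pos 43 .mp ⟨⟨26349167, 0, 0, 0, 0, 26373770, 0, 0, 0, ⟨0, 0⟩, 0⟩, 0, 0⟩ 0 0)) (.cut .s 8445952 (.pos 43 .mp ⟨⟨26566274, 0, 0, 0, 0, 26425602, 0, 0, 0, ⟨0, 0⟩, 0⟩, 0, 0⟩ 0 0) (.pos 43 .mp ⟨⟨26819760, 0, 0, 0, 0, 26434937, 0, 0, 0, ⟨0, 0⟩, 0⟩, 0, 0⟩ 0 0))) (.pos 44 .mp ⟨⟨32945069, 0, 0, 0, 0, 19254052, 0, 0, 0, ⟨0, 0⟩, 0⟩, 0, 0⟩ 0 0)))) (.cut .s 8519680 (.cut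 .s 8486912 (.cut .v 16809984 (.cut .d (-16384) (.pos 43 .mp ⟨⟨26319696, 0, 0, 0, 0, 28307523, 0, 0, 0, ⟨0, 0⟩, 0⟩, 0, 0⟩ 0 0) (.cut .l 102527 (.cut .v 16793600 (.cut .d (-8192) (.pos 51 .mp ⟨⟨26420227, 0, 0, 0, 0, 28118138, 0, 0, 0, ⟨0, 0⟩, 0⟩, 0, 0⟩ 0 0) (.cut .s 8470528 (.pos 51 .mp ⟨⟨27061943, 0, 0, 0, 0, 26478647, 0, 0, 0, ⟨0, 0⟩, 0⟩, 0, 0⟩ 0 0) (.pos 51 .mp ⟨⟨27435886, 0, 0, 0, 0, 26676635, 0, 0, 0, ⟨0, 0⟩, 0⟩, 0, 0⟩ 0 0))) (.pos 52 .mp ⟨⟨34543543, 0, 0, 0, 0, 18529709, 0, 0, 0, ⟨0, 0⟩, 0⟩, 0, 0⟩ 0 0)) (.pos 43 .mp ⟨⟨27101217, 0, 0, 0, 0, 25937538, 0, 0, 0, ⟨0, 0⟩, 0⟩, 0, 0⟩ 0 0))) (.pos 44 .mp ⟨⟨34081897, 0, 0, 0, 0, 19173959,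 0, 0, 0, ⟨0, 0⟩, 0⟩, 0, 0⟩ 0 0)) (.cut .v 16809984 (.cut .d (-16384) (.pos 43 .mp ⟨⟨26970536, 0, 0, 0, 0, 28881279, 0, 0, 0, ⟨0, 0⟩, 0⟩, 0, 0⟩ 0 0) (.cut .s 8503296 (.cut .s 8495104 (.pos 43 .mp ⟨⟨28325805, 0, 0, 0, 0, 26199739, 0, 0, 0, ⟨0, 0⟩, 0⟩, 0, 0⟩ 0 0) (.pos 43 .mp ⟨⟨28551586, 0, 0, 0, 0, 26258872, 0, 0, 0, ⟨0, 0⟩, 0⟩, 0, 0⟩ 0 0)) (.pos 43 .mp ⟨⟨28290106, 0, 0, 0, 0, 26992939, 0, 0, 0, ⟨0, 0⟩, 0⟩, 0, 0⟩ 0 0))) (.pos 44 .mp ⟨⟨35305811, 0, 0, 0, 0, 19018928, 0, 0, 0, ⟨0, 0⟩, 0⟩, 0, 0⟩ 0 0))) (.cut .v 16809984 (.cut .s 8552448 (.cut .d (-16384) (.pos 43 .mp ⟨⟨27634231, 0, 0, 0, 0, 29477118, 0, 0, 0, ⟨0, 0⟩, 0⟩, 0, 0⟩ 0 0)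 (.cut .s 8536064 (.pos 43 .mp ⟨⟨28646490, 0, 0, 0, 0, 27233241, 0, 0, 0, ⟨0, 0⟩, 0⟩, 0, 0⟩ 0 0) (.pos 43 .mp ⟨⟨29125656, 0, 0, 0, 0, 27337203, 0, 0, 0, ⟨0, 0⟩, 0⟩, 0, 0⟩ 0 0))) (.cut .s 8568832 (.pos 43 .mp ⟨⟨29159870, 0, 0, 0, 0, 28041755, 0, 0, 0, ⟨0, 0⟩, 0⟩, 0, 0⟩ 0 0) (.pos 43 .mp ⟨⟨29847676, 0, 0, 0, 0, 27887810, 0, 0, 0, ⟨0, 0⟩, 0⟩, 0, 0⟩ 0 0))) (.pos 44 .mp ⟨⟨42382447, 0, 0, 0, 0, 12957491, 0, 0, 0, ⟨0, 0⟩, 0⟩, 0, 0⟩ 0 0)))) (.pos 42 .mp ⟨⟨51689208, 0, 0, 0, 0, 0, 0, 0, 0, ⟨0, 0⟩, 0⟩, 0, 0⟩ 0 0))) (.pos 36 .mp ⟨⟨51057059, 0, 0, 0, 0, 0, 0, 0, 0, ⟨0, 0⟩, 0⟩, 0, 0⟩ 0 0)) (.void 34 ⟨⟨100000, 0, 0, 0, 0, 0, 0, 0, 0, ⟨0, 0⟩,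 0⟩, 0, 0⟩ 0 0)) (.void 32 ⟨⟨100000, 0, 0, 0, 0, 0, 0, 0, 0, ⟨0, 0⟩, 0⟩, 0, 0⟩ 0 0)) (.void 30 ⟨⟨100000, 0, 0, 0, 0, 0, 0, 0, 0, ⟨0, 0⟩, 0⟩, 0, 0⟩ 0 0)))))) (.void 28 ⟨⟨100000, 0, 0, 0, 0, 0, 0, 0, 0, ⟨0, 0⟩, 0⟩, 0, 0⟩ 0 0))))) (.void 26 ⟨⟨100000, 0, 0, 0, 0, 0, 0, 0, 0, ⟨0, 0⟩, 0⟩, 0, 0⟩ 0 0)))) (.void 24 ⟨⟨100000, 0, 0, 0, 0, 0, 0, 0, 0, ⟨0, 0⟩, 0⟩, 0, 0⟩ 0 0))) (.cut .v 16777216 (.cut .d 8780500 (.cut .d 4390250 (.cut .d 2195125 (.cut .v 8388608 (.cut .v 4194304 (.void 4 ⟨⟨0, 0, 100000, 0, 0, 0, 0, 0, 0, ⟨0, 0⟩, 0⟩, 0, 0⟩ 0 0) (.pos 5 .pm ⟨⟨0, 0, 0, 0, 0, 0, 0, 0, 0, ⟨0, 0⟩, 0⟩, 0, 0⟩ 0 0)) (.cut .v 12582912 (.pos 8 .pm ⟨⟨0,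 0, 0, 0, 0, 0, 0, 0, 0, ⟨0, 0⟩, 0⟩, 0, 0⟩ 0 0) (.pos 9 .pm ⟨⟨0, 0, 0, 0, 0, 0, 0, 0, 0, ⟨0, 0⟩, 0⟩, 0, 0⟩ 0 0))) (.void 1 ⟨⟨0, 0, 0, 0, 0, 0, 0, 0, 0, ⟨0, 0⟩, 0⟩, 0, 100000⟩ 0 0)) (.void 1 ⟨⟨0, 0, 0, 0, 0, 0, 0, 0, 0, ⟨0, 0⟩, 0⟩, 0, 100000⟩ 0 0)) (.void 1 ⟨⟨0, 0, 0, 0, 0, 0, 0, 0, 0, ⟨0, 0⟩, 0⟩, 0, 100000⟩ 0 0)) (.cut .d 8780500 (.cut .d 4390250 (.cut .d 2195125 (.cut .v 25165824 (.cut .v 20971520 (.cut .d 1097562 (.cut .d 548781 (.cut .v 18874368 (.cut .s 8323072 (.pos 27 .pp ⟨⟨18136339, 0, 0, 0, 0, 0, 0, 0, 0, ⟨0, 0⟩, 0⟩, 1626105, 0⟩ 0 0) (.pos 27 .pp ⟨⟨21226496, 0, 0, 0, 0, 0, 0, 0, 0, ⟨0, 0⟩, 0⟩, 1994461, 0⟩ 0 0)) (.pos 28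 .pp ⟨⟨54869904, 0, 0, 0, 0, 0, 0, 0, 0, ⟨0, 0⟩, 0⟩, 0, 0⟩ 0 0)) (.pos 25 .pp ⟨⟨29407276, 0, 0, 0, 0, 0, 626473, 0, 0, ⟨0, 0⟩, 0⟩, 0, 0⟩ 0 0)) (.pos 25 .pp ⟨⟨0, 0, 0, 0, 0, 0, 0, 0, 0, ⟨0, 0⟩, 0⟩, 0, 720335⟩ 0 0)) (.cut .d 1097562 (.cut .d 548781 (.void 26 ⟨⟨100000, 0, 0, 0, 0, 0, 0, 0, 0, ⟨0, 0⟩, 0⟩, 0, 0⟩ 0 0) (.cut .v 23068672 (.pos 79 .pp ⟨⟨0, 0, 0, 0, 0, 0, 619501, 0, 0, ⟨0, 0⟩, 0⟩, 3817756, 0⟩ 0 0) (.pos 80 .pp ⟨⟨0, 0, 0, 0, 0, 0, 0, 0, 0, ⟨0, 0⟩, 0⟩, 5328845, 0⟩ 0 0))) (.cut .d 1646343 (.cut .d 1371952 (.cut .v 23068672 (.pos 79 .pp ⟨⟨0, 0, 0, 0, 0, 0, 1733885, 0, 0, ⟨0, 0⟩, 0⟩, 0, 0⟩ 0 0) (.cut .v 24117248 (.pos 81 .pp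 ⟨⟨0, 0, 0, 0, 0, 0, 587672, 0, 0, ⟨0, 0⟩, 0⟩, 3025934, 0⟩ 0 0) (.pos 82 .pp ⟨⟨0, 0, 0, 0, 0, 0, 9781099, 0, 0, ⟨0, 0⟩, 0⟩, 3865738, 0⟩ 0 0))) (.pos 26 .pp ⟨⟨0, 0, 0, 0, 0, 0, 30693463, 0, 0, ⟨0, 0⟩, 0⟩, 0, 0⟩ 0 0)) (.pos 26 .pp ⟨⟨0, 0, 0, 0, 0, 0, 0, 0, 0, ⟨0, 0⟩, 0⟩, 0, 32804679⟩ 0 0)))) (.cut .d 1097562 (.void 24 ⟨⟨0, 0, 0, 0, 0, 0, 0, 0, 0, ⟨0, 0⟩, 0⟩, 100000, 0⟩ 0 0) (.cut .v 29360128 (.cut .l 102527 (.void 83 ⟨⟨0, 0, 0, 0, 0, 0, 0, 0, 0, ⟨0, 0⟩, 0⟩, 14623, 85377⟩ 0 0) (.cut .l 153791 (.pos 83 .pp ⟨⟨0, 0, 0, 0, 0, 0, 56922879, 0, 0, ⟨0, 0⟩, 0⟩, 4138524, 0⟩ 0 0) (.cut .d 1646343 (.cut .v 27262976 (.cut .d 1371952 (.pos 85 .pp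 ⟨⟨0, 0, 0, 0, 0, 0, 4604304, 0, 0, ⟨0, 0⟩, 0⟩, 5705579, 0⟩ 0 0) (.cut .l 179423 (.pos 85 .pp ⟨⟨0, 0, 0, 0, 0, 0, 38645521, 0, 0, ⟨0, 0⟩, 0⟩, 4129930, 0⟩ 0 0) (.cut .s 8323072 (.cut .v 26214400 (.cut .d 1509147 (.pos 87 .pp ⟨⟨0, 0, 0, 0, 0, 0, 28944223, 0, 0, ⟨0, 0⟩, 0⟩, 3748832, 0⟩ 0 0) (.pos 87 .pp ⟨⟨0, 0, 0, 0, 0, 0, 82510358, 0, 0, ⟨0, 0⟩, 0⟩, 0, 0⟩ 0 0)) (.void 88 ⟨⟨0, 0, 0, 0, 0, 0, 100000, 0, 0, ⟨0, 0⟩, 0⟩, 0, 0⟩ 0 0)) (.cut .v 26214400 (.pos 87 .pp ⟨⟨0, 0, 0, 0, 0, 0, 18253733, 0, 0, ⟨0, 0⟩, 0⟩, 3961446, 0⟩ 0 0) (.cut .d 1509147 (.pos 88 .pp ⟨⟨0, 0, 0, 0, 0, 0, 19832854, 0, 0, ⟨0, 0⟩, 0⟩, 5179351, 0⟩ 0 0) (.cut .s 8454144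 (.cut .v 26738688 (.pos 91 .pp ⟨⟨0, 0, 0, 0, 0, 0, 26765743, 0, 0, ⟨0, 0⟩, 0⟩, 4134732, 0⟩ 0 0) (.pos 92 .pp ⟨⟨0, 0, 0, 0, 0, 0, 31517088, 0, 0, ⟨0, 0⟩, 0⟩, 4582692, 0⟩ 0 0)) (.pos 88 .pp ⟨⟨0, 0, 0, 0, 0, 0, 23202464, 0, 0, ⟨0, 0⟩, 0⟩, 4790533, 0⟩ 0 0))))))) (.cut .v 28311552 (.cut .s 8323072 (.void 93 ⟨⟨0, 0, 0, 0, 0, 0, 0, 0, 0, ⟨0, 0⟩, 0⟩, 100000, 0⟩ 0 0) (.cut .s 8454144 (.void 93 ⟨⟨0, 0, 0, 0, 0, 0, 100000, 0, 0, ⟨0, 0⟩, 0⟩, 0, 0⟩ 0 0) (.pos 93 .pp ⟨⟨0, 0, 0, 0, 0, 0, 23777747, 0, 0, ⟨0, 0⟩, 0⟩, 5993382, 0⟩ 0 0))) (.void 94 ⟨⟨0, 0, 0, 0, 0, 0, 0, 0, 0, ⟨0, 0⟩, 0⟩, 100000, 0⟩ 0 0))) (.cut .v 27262976 (.pos 85 .pp ⟨⟨0, 0, 0,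 0, 0, 0, 53034021, 0, 0, ⟨0, 0⟩, 0⟩, 0, 0⟩ 0 0) (.cut .d 1920734 (.cut .s 8323072 (.void 86 ⟨⟨0, 0, 0, 0, 0, 0, 100000, 0, 0, ⟨0, 0⟩, 0⟩, 0, 0⟩ 0 0) (.cut .s 8454144 (.void 86 ⟨⟨0, 0, 0, 0, 0, 0, 100000, 0, 0, ⟨0, 0⟩, 0⟩, 0, 0⟩ 0 0) (.cut .l 179423 (.void 86 ⟨⟨0, 0, 0, 0, 0, 0, 100000, 0, 0, ⟨0, 0⟩, 0⟩, 0, 0⟩ 0 0) (.cut .l 192239 (.pos 86 .pp ⟨⟨0, 0, 0, 0, 0, 0, 43661827, 0, 0, ⟨0, 0⟩, 0⟩, 4866354, 0⟩ 0 0) (.cut .l 198647 (.pos 86 .pp ⟨⟨0, 0, 0, 0, 0, 0, 43097525, 0, 0, ⟨0, 0⟩, 0⟩, 4900885, 0⟩ 0 0) (.cut .v 28311552 (.cut .d 1783538 (.cut .l 201851 (.pos 93 .pp ⟨⟨0, 0, 0, 0, 0, 0, 35571144, 0, 0, ⟨0, 0⟩, 0⟩, 4972390, 0⟩ 0 0) (.cut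 .v 27787264 (.cut .d 1714940 (.pos 95 .pp ⟨⟨0, 0, 0, 0, 0, 0, 31356775, 0, 0, ⟨0, 0⟩, 0⟩, 4881386, 0⟩ 0 0) (.pos 95 .pp ⟨⟨0, 0, 0, 0, 0, 0, 55440377, 0, 0, ⟨0, 0⟩, 0⟩, 0, 0⟩ 0 0)) (.cut .d 1714940 (.pos 96 .pp ⟨⟨0, 0, 0, 0, 0, 0, 32931249, 0, 0, ⟨0, 0⟩, 0⟩, 5401059, 0⟩ 0 0) (.cut .v 28049408 (.pos 99 .pp ⟨⟨0, 0, 0, 0, 0, 0, 34013943, 0, 0, ⟨0, 0⟩, 0⟩, 4893655, 0⟩ 0 0) (.pos 100 .pp ⟨⟨0, 0, 0, 0, 0, 0, 35257618, 0, 0, ⟨0, 0⟩, 0⟩, 5198384, 0⟩ 0 0))))) (.pos 93 .pp ⟨⟨0, 0, 0, 0, 0, 0, 39051082, 0, 0, ⟨0, 0⟩, 0⟩, 4364923, 0⟩ 0 0)) (.cut .d 1783538 (.pos 94 .pp ⟨⟨0, 0, 0, 0, 0, 0, 0, 0, 0, ⟨0, 0⟩, 0⟩, 13412903, 0⟩ 0 0) (.pos 94 .pp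 ⟨⟨0, 0, 0, 0, 0, 0, 42170988, 0, 0, ⟨0, 0⟩, 0⟩, 5126699, 0⟩ 0 0)))))))) (.pos 86 .pp ⟨⟨0, 0, 0, 0, 0, 0, 116506710, 0, 0, ⟨0, 0⟩, 0⟩, 0, 0⟩ 0 0)))))) (.void 84 ⟨⟨0, 0, 0, 0, 0, 0, 100000, 0, 0, ⟨0, 0⟩, 0⟩, 0, 0⟩ 0 0)))) (.void 22 ⟨⟨0, 0, 0, 0, 0, 0, 40548, 0, 0, ⟨0, 0⟩, 0⟩, 0, 59452⟩ 0 0)) (.void 22 ⟨⟨0, 0, 0, 0, 0, 0, 0, 0, 0, ⟨0, 0⟩, 0⟩, 0, 100000⟩ 0 0)) (.void 22 ⟨⟨0, 0, 0, 0, 0, 0, 0, 0, 0, ⟨0, 0⟩, 0⟩, 0, 100000⟩ 0 0)))),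
    by decide +kernel⟩

def covers10 : cell.Covers Vale.Agent.P237.Petty.Cor.Grid.N18.table row10.1 :=
  ⟨(.cut .d 0 (.cut .v 16777216 (.cut .d (-8388608) (.void 1 ⟨⟨0, 0, 0, 0, 0, 100000, 0, 0, 0, ⟨0, 0⟩, 0⟩, 0, 0⟩ 0 0) (.cut .d (-4194304) (.void 1 ⟨⟨0, 0, 0, 0, 0, 100000, 0, 0, 0, ⟨0, 0⟩, 0⟩, 0, 0⟩ 0 0) (.cut .d (-2097152) (.void 1 ⟨⟨0, 0, 0, 0, 0, 100000, 0, 0, 0, ⟨0, 0⟩, 0⟩, 0, 0⟩ 0 0) (.cut .d (-1048576) (.void 1 ⟨⟨0, 0, 0, 0, 0, 100000, 0, 0, 0, ⟨0, 0⟩, 0⟩, 0, 0⟩ 0 0) (.cut .d (-524288) (.void 1 ⟨⟨0, 0, 0, 0, 0, 100000, 0, 0, 0, ⟨0, 0⟩, 0⟩, 0, 0⟩ 0 0) (.cut .d (-262144) (.void 1 ⟨⟨0, 0, 0, 0, 0, 100000, 0, 0, 0, ⟨0, 0⟩,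 0⟩, 0, 0⟩ 0 0) (.cut .d (-131072) (.void 1 ⟨⟨0, 0, 0, 0, 0, 100000, 0, 0, 0, ⟨0, 0⟩, 0⟩, 0, 0⟩ 0 0) (.cut .d (-65536) (.void 1 ⟨⟨0, 0, 0, 0, 0, 100000, 0, 0, 0, ⟨0, 0⟩, 0⟩, 0, 0⟩ 0 0) (.cut .d (-32768) (.void 1 ⟨⟨0, 0, 0, 0, 0, 100000, 0, 0, 0, ⟨0, 0⟩, 0⟩, 0, 0⟩ 0 0) (.cut .v 8388608 (.cut .v 4194304 (.void 4 ⟨⟨0, 0, 100000, 0, 0, 0, 0, 0, 0, ⟨0, 0⟩, 0⟩, 0, 0⟩ 0 0) (.pos 5 .mm ⟨⟨0, 0, 0, 0, 0, 31580438, 0, 0, 0, ⟨0, 0⟩, 0⟩, 0, 0⟩ 0 0)) (.cut .v 12582912 (.pos 8 .mm ⟨⟨0, 0, 0, 0, 0, 44252038, 0, 0, 0, ⟨0, 0⟩, 0⟩, 0, 0⟩ 0 0) (.cut .v 14680064 (.pos 12 .mm ⟨⟨0, 0, 0, 0, 0, 51118576, 0, 0, 0, ⟨0, 0⟩, 0⟩, 0, 0⟩ 0 0) (.cut .v 15728640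 (.pos 20 .mm ⟨⟨0, 0, 0, 0, 0, 54684530, 0, 0, 0, ⟨0, 0⟩, 0⟩, 0, 0⟩ 0 0) (.cut .v 16252928 (.pos 37 .mm ⟨⟨0, 0, 0, 0, 0, 56500678, 0, 0, 0, ⟨0, 0⟩, 0⟩, 0, 0⟩ 0 0) (.cut .v 16515072 (.pos 39 .mm ⟨⟨0, 0, 0, 0, 0, 65748134, 0, 0, 0, ⟨0, 0⟩, 0⟩, 0, 0⟩ 0 0) (.cut .v 16646144 (.pos 47 .mm ⟨⟨0, 0, 0, 0, 0, 69721749, 0, 0, 0, ⟨0, 0⟩, 0⟩, 0, 0⟩ 0 0) (.cut .v 16711680 (.pos 49 .mm ⟨⟨0, 0, 0, 0, 0, 71738094, 0, 0, 0, ⟨0, 0⟩, 0⟩, 0, 0⟩ 0 0) (.cut .s 8814592 (.cut .s 8699904 (.pos 50 .mm ⟨⟨0, 0, 0, 0, 0, 65095639, 0, 0, 0, ⟨0, 0⟩, 0⟩, 0, 0⟩ 0 0) (.pos 50 .mm ⟨⟨0, 0, 0, 0, 0, 70086772, 0, 0, 0, ⟨0, 0⟩, 0⟩, 0, 0⟩ 0 0)) (.cut .s 8929280 (.pos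 50 .mm ⟨⟨0, 0, 0, 0, 0, 75612637, 0, 0, 0, ⟨0, 0⟩, 0⟩, 0, 0⟩ 0 0) (.pos 50 .mm ⟨⟨0, 0, 0, 0, 0, 81682232, 0, 0, 0, ⟨0, 0⟩, 0⟩, 0, 0⟩ 0 0)))))))))))))))))))) (.cut .v 33554432 (.cut .v 25165824 (.cut .d (-8388608) (.void 23 ⟨⟨0, 0, 0, 0, 0, 100000, 0, 0, 0, ⟨0, 0⟩, 0⟩, 0, 0⟩ 0 0) (.cut .v 20971520 (.cut .d (-4194304) (.void 25 ⟨⟨0, 0, 0, 0, 0, 100000, 0, 0, 0, ⟨0, 0⟩, 0⟩, 0, 0⟩ 0 0) (.cut .d (-2097152) (.void 25 ⟨⟨0, 0, 0, 0, 0, 100000, 0, 0, 0, ⟨0, 0⟩, 0⟩, 0, 0⟩ 0 0) (.cut .d (-1048576) (.void 25 ⟨⟨0, 0, 0, 0, 0, 100000, 0, 0, 0, ⟨0, 0⟩, 0⟩, 0, 0⟩ 0 0) (.cut .v 18874368 (.cut .d (-524288) (.void 27 ⟨⟨0, 0, 0, 0, 0, 100000, 0,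 0, 0, ⟨0, 0⟩, 0⟩, 0, 0⟩ 0 0) (.cut .d (-262144) (.void 27 ⟨⟨0, 0, 0, 0, 0, 100000, 0, 0, 0, ⟨0, 0⟩, 0⟩, 0, 0⟩ 0 0) (.cut .d (-131072) (.void 27 ⟨⟨0, 0, 0, 0, 0, 100000, 0, 0, 0, ⟨0, 0⟩, 0⟩, 0, 0⟩ 0 0) (.cut .d (-65536) (.void 27 ⟨⟨0, 0, 0, 0, 0, 100000, 0, 0, 0, ⟨0, 0⟩, 0⟩, 0, 0⟩ 0 0) (.cut .d (-32768) (.void 27 ⟨⟨0, 0, 0, 0, 0, 100000, 0, 0, 0, ⟨0, 0⟩, 0⟩, 0, 0⟩ 0 0) (.cut .v 17825792 (.cut .v 17301504 (.cut .v 17039360 (.cut .v 16908288 (.cut .s 8814592 (.cut .v 16842752 (.cut .s 8699904 (.cut .s 8642560 (.cut .v 16809984 (.cut .d (-16384) (.pos 43 .mp ⟨⟨28999742, 0, 0, 0, 0, 31400834, 0, 0, 0, ⟨0, 0⟩, 0⟩, 0, 0⟩ 0 0) (.cut .l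 102527 (.cut .v 16793600 (.cut .d (-8192) (.pos 51 .mp ⟨⟨29103374, 0, 0, 0, 0, 31198690, 0, 0, 0, ⟨0, 0⟩, 0⟩, 0, 0⟩ 0 0) (.cut .l 51263 (.cut .d (-4096) (.pos 51 .mp ⟨⟨30478173, 0, 0, 0, 0, 29188650, 0, 0, 0, ⟨0, 0⟩, 0⟩, 0, 0⟩ 0 0) (.cut .v 16785408 (.cut .s 8613888 (.pos 53 .mp ⟨⟨29946300, 0, 0, 0, 0, 28551800, 0, 0, 0, ⟨0, 0⟩, 0⟩, 0, 0⟩ 0 0) (.cut .s 8628224 (.pos 53 .mp ⟨⟨31164789, 0, 0, 0, 0, 28023221, 0, 0, 0, ⟨0, 0⟩, 0⟩, 0, 0⟩ 0 0) (.pos 53 .mp ⟨⟨31374263, 0, 0, 0, 0, 28318023, 0, 0, 0, ⟨0, 0⟩, 0⟩, 0, 0⟩ 0 0))) (.pos 54 .mp ⟨⟨53690188, 0, 0, 0, 0, 0, 0, 0, 0, ⟨0, 0⟩, 0⟩, 0, 0⟩ 0 0))) (.pos 51 .mp ⟨⟨30526329, 0, 0, 0, 0,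 27235173, 0, 0, 0, ⟨0, 0⟩, 0⟩, 0, 0⟩ 0 0))) (.pos 52 .mp ⟨⟨40810119, 0, 0, 0, 0, 17015202, 0, 0, 0, ⟨0, 0⟩, 0⟩, 0, 0⟩ 0 0)) (.pos 43 .mp ⟨⟨30600242, 0, 0, 0, 0, 27219810, 0, 0, 0, ⟨0, 0⟩, 0⟩, 0, 0⟩ 0 0))) (.pos 44 .mp ⟨⟨40355921, 0, 0, 0, 0, 17665902, 0, 0, 0, ⟨0, 0⟩, 0⟩, 0, 0⟩ 0 0)) (.cut .s 8671232 (.cut .d (-16384) (.pos 41 .mp ⟨⟨31277133, 0, 0, 0, 0, 29915829, 0, 0, 0, ⟨0, 0⟩, 0⟩, 0, 0⟩ 0 0) (.cut .s 8656896 (.pos 41 .mp ⟨⟨31422518, 0, 0, 0, 0, 28823117, 0, 0, 0, ⟨0, 0⟩, 0⟩, 0, 0⟩ 0 0) (.pos 41 .mp ⟨⟨31751749, 0, 0, 0, 0, 28996445, 0, 0, 0, ⟨0, 0⟩, 0⟩, 0, 0⟩ 0 0))) (.cut .d (-16384) (.pos 41 .mp ⟨⟨31784351, 0, 0, 0, 0, 30509149,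 0, 0, 0, ⟨0, 0⟩, 0⟩, 0, 0⟩ 0 0) (.cut .s 8685568 (.pos 41 .mp ⟨⟨32084061, 0, 0, 0, 0, 29173490, 0, 0, 0, ⟨0, 0⟩, 0⟩, 0, 0⟩ 0 0) (.cut .s 8692736 (.pos 41 .mp ⟨⟨32364439, 0, 0, 0, 0, 29326893, 0, 0, 0, ⟨0, 0⟩, 0⟩, 0, 0⟩ 0 0) (.pos 41 .mp ⟨⟨32503687, 0, 0, 0, 0, 29450951, 0, 0, 0, ⟨0, 0⟩, 0⟩, 0, 0⟩ 0 0)))))) (.cut .s 8757248 (.cut .s 8728576 (.cut .v 16809984 (.cut .d (-16384) (.pos 43 .mp ⟨⟨31542288, 0, 0, 0, 0, 32059934, 0, 0, 0, ⟨0, 0⟩, 0⟩, 0, 0⟩ 0 0) (.cut .l 102527 (.cut .d (-8192) (.pos 43 .mp ⟨⟨32586369, 0, 0, 0, 0, 30506132, 0, 0, 0, ⟨0, 0⟩, 0⟩, 0, 0⟩ 0 0) (.cut .s 8714240 (.pos 43 .mp ⟨⟨32416248, 0, 0, 0, 0, 29921001, 0,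 0, 0, ⟨0, 0⟩, 0⟩, 0, 0⟩ 0 0) (.pos 43 .mp ⟨⟨32753881, 0, 0, 0, 0, 30114318, 0, 0, 0, ⟨0, 0⟩, 0⟩, 0, 0⟩ 0 0))) (.pos 43 .mp ⟨⟨32578146, 0, 0, 0, 0, 29337387, 0, 0, 0, ⟨0, 0⟩, 0⟩, 0, 0⟩ 0 0))) (.pos 44 .mp ⟨⟨38466270, 0, 0, 0, 0, 23586214, 0, 0, 0, ⟨0, 0⟩, 0⟩, 0, 0⟩ 0 0)) (.cut .v 16809984 (.cut .d (-16384) (.pos 43 .mp ⟨⟨32207788, 0, 0, 0, 0, 32463923, 0, 0, 0, ⟨0, 0⟩, 0⟩, 0, 0⟩ 0 0) (.cut .l 102527 (.cut .d (-8192) (.pos 43 .mp ⟨⟨33150631, 0, 0, 0, 0, 31080058, 0, 0, 0, ⟨0, 0⟩, 0⟩, 0, 0⟩ 0 0) (.cut .s 8742912 (.pos 43 .mp ⟨⟨33094595, 0, 0, 0, 0, 30311382, 0, 0, 0, ⟨0, 0⟩, 0⟩, 0, 0⟩ 0 0) (.cut .s 8750080 (.pos 43 .mp ⟨⟨33498458,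 0, 0, 0, 0, 30351316, 0, 0, 0, ⟨0, 0⟩, 0⟩, 0, 0⟩ 0 0) (.pos 43 .mp ⟨⟨33650501, 0, 0, 0, 0, 30475865, 0, 0, 0, ⟨0, 0⟩, 0⟩, 0, 0⟩ 0 0)))) (.pos 43 .mp ⟨⟨33261948, 0, 0, 0, 0, 29761875, 0, 0, 0, ⟨0, 0⟩, 0⟩, 0, 0⟩ 0 0))) (.pos 44 .mp ⟨⟨39003273, 0, 0, 0, 0, 24147407, 0, 0, 0, ⟨0, 0⟩, 0⟩, 0, 0⟩ 0 0))) (.cut .s 8785920 (.cut .d (-16384) (.cut .s 8771584 (.pos 41 .mp ⟨⟨33608607, 0, 0, 0, 0, 31507302, 0, 0, 0, ⟨0, 0⟩, 0⟩, 0, 0⟩ 0 0) (.pos 41 .mp ⟨⟨33917978, 0, 0, 0, 0, 31779960, 0, 0, 0, ⟨0, 0⟩, 0⟩, 0, 0⟩ 0 0)) (.cut .v 16809984 (.cut .l 102527 (.cut .d (-8192) (.pos 43 .mp ⟨⟨33746147, 0, 0, 0, 0, 31642280, 0, 0, 0, ⟨0, 0⟩, 0⟩, 0, 0⟩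 0 0) (.cut .v 16793600 (.cut .l 51263 (.cut .d (-4096) (.pos 51 .mp ⟨⟨33877136, 0, 0, 0, 0, 31346740, 0, 0, 0, ⟨0, 0⟩, 0⟩, 0, 0⟩ 0 0) (.cut .s 8771584 (.pos 51 .mp ⟨⟨33606962, 0, 0, 0, 0, 30917686, 0, 0, 0, ⟨0, 0⟩, 0⟩, 0, 0⟩ 0 0) (.cut .s 8778752 (.pos 51 .mp ⟨⟨34104429, 0, 0, 0, 0, 30864388, 0, 0, 0, ⟨0, 0⟩, 0⟩, 0, 0⟩ 0 0) (.pos 51 .mp ⟨⟨34263298, 0, 0, 0, 0, 30988675, 0, 0, 0, ⟨0, 0⟩, 0⟩, 0, 0⟩ 0 0)))) (.pos 51 .mp ⟨⟨33866234, 0, 0, 0, 0, 30229113, 0, 0, 0, ⟨0, 0⟩, 0⟩, 0, 0⟩ 0 0)) (.pos 52 .mp ⟨⟨58404356, 0, 0, 0, 0, 0, 0, 0, 0, ⟨0, 0⟩, 0⟩, 0, 0⟩ 0 0))) (.pos 43 .mp ⟨⟨33958178, 0, 0, 0, 0, 30193546, 0, 0, 0, ⟨0, 0⟩, 0⟩, 0, 0⟩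 0 0)) (.pos 44 .mp ⟨⟨58468222, 0, 0, 0, 0, 0, 0, 0, 0, ⟨0, 0⟩, 0⟩, 0, 0⟩ 0 0))) (.cut .d (-16384) (.cut .s 8800256 (.pos 41 .mp ⟨⟨33730386, 0, 0, 0, 0, 32907010, 0, 0, 0, ⟨0, 0⟩, 0⟩, 0, 0⟩ 0 0) (.pos 41 .mp ⟨⟨34081357, 0, 0, 0, 0, 33130931, 0, 0, 0, ⟨0, 0⟩, 0⟩, 0, 0⟩ 0 0)) (.cut .v 16809984 (.cut .l 102527 (.cut .v 16793600 (.cut .d (-8192) (.pos 51 .mp ⟨⟨33674813, 0, 0, 0, 0, 33123490, 0, 0, 0, ⟨0, 0⟩, 0⟩, 0, 0⟩ 0 0) (.cut .l 51263 (.cut .d (-4096) (.pos 51 .mp ⟨⟨33763379, 0, 0, 0, 0, 33153012, 0, 0, 0, ⟨0, 0⟩, 0⟩, 0, 0⟩ 0 0) (.cut .v 16785408 (.cut .l 25631 (.cut .d (-2048) (.pos 53 .mp ⟨⟨34567925, 0, 0, 0, 0, 31748525, 0, 0,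 0, ⟨0, 0⟩, 0⟩, 0, 0⟩ 0 0) (.cut .v 16781312 (.cut .s 8800256 (.pos 55 .mp ⟨⟨34195386, 0, 0, 0, 0, 31469647, 0, 0, 0, ⟨0, 0⟩, 0⟩, 0, 0⟩ 0 0) (.cut .s 8807424 (.pos 55 .mp ⟨⟨34978615, 0, 0, 0, 0, 31079696, 0, 0, 0, ⟨0, 0⟩, 0⟩, 0, 0⟩ 0 0) (.pos 55 .mp ⟨⟨35138876, 0, 0, 0, 0, 31210254, 0, 0, 0, ⟨0, 0⟩, 0⟩, 0, 0⟩ 0 0))) (.pos 56 .mp ⟨⟨59324374, 0, 0, 0, 0, 0, 0, 0, 0, ⟨0, 0⟩, 0⟩, 0, 0⟩ 0 0))) (.pos 53 .mp ⟨⟨34523395, 0, 0, 0, 0, 30691713, 0, 0, 0, ⟨0, 0⟩, 0⟩, 0, 0⟩ 0 0)) (.pos 54 .mp ⟨⟨59340784, 0, 0, 0, 0, 0, 0, 0, 0, ⟨0, 0⟩, 0⟩, 0, 0⟩ 0 0))) (.pos 51 .mp ⟨⟨34571083, 0, 0, 0, 0, 30671929, 0, 0, 0, ⟨0, 0⟩, 0⟩, 0, 0⟩ 0 0))) (.pos 52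 .mp ⟨⟨40726317, 0, 0, 0, 0, 24461155, 0, 0, 0, ⟨0, 0⟩, 0⟩, 0, 0⟩ 0 0)) (.pos 43 .mp ⟨⟨34666944, 0, 0, 0, 0, 30631919, 0, 0, 0, ⟨0, 0⟩, 0⟩, 0, 0⟩ 0 0)) (.pos 44 .mp ⟨⟨59438232, 0, 0, 0, 0, 0, 0, 0, 0, ⟨0, 0⟩, 0⟩, 0, 0⟩ 0 0)))))) (.pos 42 .mp ⟨⟨60021106, 0, 0, 0, 0, 0, 0, 0, 0, ⟨0, 0⟩, 0⟩, 0, 0⟩ 0 0)) (.cut .v 16842752 (.cut .s 8929280 (.cut .s 8871936 (.cut .s 8843264 (.cut .d (-16384) (.cut .s 8828928 (.pos 41 .mp ⟨⟨34435443, 0, 0, 0, 0, 33359961, 0, 0, 0, ⟨0, 0⟩, 0⟩, 0, 0⟩ 0 0) (.pos 41 .mp ⟨⟨34792659, 0, 0, 0, 0, 33594133, 0, 0, 0, ⟨0, 0⟩, 0⟩, 0, 0⟩ 0 0)) (.cut .v 16809984 (.cut .l 102527 (.cut .s 8828928 (.cut .s 8821760 (.pos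 43 .mp ⟨⟨35237638, 0, 0, 0, 0, 31423649, 0, 0, 0, ⟨0, 0⟩, 0⟩, 0, 0⟩ 0 0) (.pos 43 .mp ⟨⟨35419257, 0, 0, 0, 0, 31534509, 0, 0, 0, ⟨0, 0⟩, 0⟩, 0, 0⟩ 0 0)) (.cut .s 8836096 (.pos 43 .mp ⟨⟨35601680, 0, 0, 0, 0, 31646121, 0, 0, 0, ⟨0, 0⟩, 0⟩, 0, 0⟩ 0 0) (.pos 43 .mp ⟨⟨35784910, 0, 0, 0, 0, 31758481, 0, 0, 0, ⟨0, 0⟩, 0⟩, 0, 0⟩ 0 0))) (.pos 43 .mp ⟨⟨35388357, 0, 0, 0, 0, 31076510, 0, 0, 0, ⟨0, 0⟩, 0⟩, 0, 0⟩ 0 0)) (.pos 44 .mp ⟨⟨60434898, 0, 0, 0, 0, 0, 0, 0, 0, ⟨0, 0⟩, 0⟩, 0, 0⟩ 0 0))) (.cut .d (-16384) (.cut .s 8857600 (.pos 41 .mp ⟨⟨35153019, 0, 0, 0, 0, 33833484, 0, 0, 0, ⟨0, 0⟩, 0⟩, 0, 0⟩ 0 0) (.pos 41 .mp ⟨⟨35516535, 0, 0, 0, 0,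 34078050, 0, 0, 0, ⟨0, 0⟩, 0⟩, 0, 0⟩ 0 0)) (.cut .v 16809984 (.cut .l 102527 (.cut .s 8857600 (.cut .s 8850432 (.pos 43 .mp ⟨⟨35968949, 0, 0, 0, 0, 31871585, 0, 0, 0, ⟨0, 0⟩, 0⟩, 0, 0⟩ 0 0) (.pos 43 .mp ⟨⟨36153798, 0, 0, 0, 0, 31985430, 0, 0, 0, ⟨0, 0⟩, 0⟩, 0, 0⟩ 0 0)) (.cut .s 8864768 (.pos 43 .mp ⟨⟨36339458, 0, 0, 0, 0, 32100012, 0, 0, 0, ⟨0, 0⟩, 0⟩, 0, 0⟩ 0 0) (.pos 43 .mp ⟨⟨36525933, 0, 0, 0, 0, 32215327, 0, 0, 0, ⟨0, 0⟩, 0⟩, 0, 0⟩ 0 0))) (.pos 43 .mp ⟨⟨36122529, 0, 0, 0, 0, 31526835, 0, 0, 0, ⟨0, 0⟩, 0⟩, 0, 0⟩ 0 0)) (.pos 44 .mp ⟨⟨61458442, 0, 0, 0, 0, 0, 0, 0, 0, ⟨0, 0⟩, 0⟩, 0, 0⟩ 0 0)))) (.cut .s 8900608 (.cut .d (-16384)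 (.cut .s 8886272 (.pos 41 .mp ⟨⟨35883223, 0, 0, 0, 0, 34327866, 0, 0, 0, ⟨0, 0⟩, 0⟩, 0, 0⟩ 0 0) (.pos 41 .mp ⟨⟨36253097, 0, 0, 0, 0, 34582969, 0, 0, 0, ⟨0, 0⟩, 0⟩, 0, 0⟩ 0 0)) (.cut .v 16809984 (.cut .l 102527 (.cut .s 8886272 (.cut .s 8879104 (.pos 43 .mp ⟨⟨36713223, 0, 0, 0, 0, 32331372, 0, 0, 0, ⟨0, 0⟩, 0⟩, 0, 0⟩ 0 0) (.pos 43 .mp ⟨⟨36901330, 0, 0, 0, 0, 32448142, 0, 0, 0, ⟨0, 0⟩, 0⟩, 0, 0⟩ 0 0)) (.cut .s 8893440 (.pos 43 .mp ⟨⟨37090257, 0, 0, 0, 0, 32565633, 0, 0, 0, ⟨0, 0⟩, 0⟩, 0, 0⟩ 0 0) (.pos 43 .mp ⟨⟨37280004, 0, 0, 0, 0, 32683842, 0, 0, 0, ⟨0, 0⟩, 0⟩, 0, 0⟩ 0 0))) (.pos 43 .mp ⟨⟨36869574, 0, 0, 0, 0, 31982412, 0, 0, 0,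 ⟨0, 0⟩, 0⟩, 0, 0⟩ 0 0)) (.pos 44 .mp ⟨⟨62509087, 0, 0, 0, 0, 0, 0, 0, 0, ⟨0, 0⟩, 0⟩, 0, 0⟩ 0 0))) (.cut .d (-16384) (.cut .s 8914944 (.pos 41 .mp ⟨⟨36626170, 0, 0, 0, 0, 34843397, 0, 0, 0, ⟨0, 0⟩, 0⟩, 0, 0⟩ 0 0) (.pos 41 .mp ⟨⟨37002458, 0, 0, 0, 0, 35109185, 0, 0, 0, ⟨0, 0⟩, 0⟩, 0, 0⟩ 0 0)) (.cut .v 16809984 (.cut .l 102527 (.cut .s 8914944 (.cut .s 8907776 (.pos 43 .mp ⟨⟨37470575, 0, 0, 0, 0, 32802765, 0, 0, 0, ⟨0, 0⟩, 0⟩, 0, 0⟩ 0 0) (.pos 43 .mp ⟨⟨37661971, 0, 0, 0, 0, 32922397, 0, 0, 0, ⟨0, 0⟩, 0⟩, 0, 0⟩ 0 0)) (.cut .s 8922112 (.pos 43 .mp ⟨⟨37854193, 0, 0, 0, 0, 33042736, 0, 0, 0, ⟨0, 0⟩, 0⟩, 0, 0⟩ 0 0) (.pos 43 .mp ⟨⟨38047243,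 0, 0, 0, 0, 33163777, 0, 0, 0, ⟨0, 0⟩, 0⟩, 0, 0⟩ 0 0))) (.pos 43 .mp ⟨⟨37629609, 0, 0, 0, 0, 32442756, 0, 0, 0, ⟨0, 0⟩, 0⟩, 0, 0⟩ 0 0)) (.pos 44 .mp ⟨⟨63587062, 0, 0, 0, 0, 0, 0, 0, 0, ⟨0, 0⟩, 0⟩, 0, 0⟩ 0 0))))) (.cut .s 8986624 (.cut .s 8957952 (.cut .d (-16384) (.cut .s 8943616 (.pos 41 .mp ⟨⟨37381974, 0, 0, 0, 0, 35380370, 0, 0, 0, ⟨0, 0⟩, 0⟩, 0, 0⟩ 0 0) (.pos 41 .mp ⟨⟨37764734, 0, 0, 0, 0, 35656991, 0, 0, 0, ⟨0, 0⟩, 0⟩, 0, 0⟩ 0 0)) (.cut .v 16809984 (.cut .l 102527 (.cut .v 16793600 (.cut .d (-8192) (.pos 51 .mp ⟨⟨37308487, 0, 0, 0, 0, 35647632, 0, 0, 0, ⟨0, 0⟩, 0⟩, 0, 0⟩ 0 0) (.cut .l 51263 (.cut .d (-4096) (.pos 51 .mp ⟨⟨37398869,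 0, 0, 0, 0, 35688260, 0, 0, 0, ⟨0, 0⟩, 0⟩, 0, 0⟩ 0 0) (.cut .v 16785408 (.cut .l 25631 (.cut .d (-2048) (.pos 53 .mp ⟨⟨37401934, 0, 0, 0, 0, 35640148, 0, 0, 0, ⟨0, 0⟩, 0⟩, 0, 0⟩ 0 0) (.cut .v 16781312 (.cut .l 12815 (.cut .d (-1024) (.pos 55 .mp ⟨⟨37403515, 0, 0, 0, 0, 35616062, 0, 0, 0, ⟨0, 0⟩, 0⟩, 0, 0⟩ 0 0) (.cut .v 16779264 (.cut .l 6407 (.cut .d (-512) (.pos 57 .mp ⟨⟨37404294, 0, 0, 0, 0, 35604103, 0, 0, 0, ⟨0, 0⟩, 0⟩, 0, 0⟩ 0 0) (.cut .l 3203 (.cut .v 16778240 (.cut .s 8943616 (.cut .s 8936448 (.pos 59 .mp ⟨⟨38176673, 0, 0, 0, 0, 33326388, 0, 0, 0, ⟨0, 0⟩, 0⟩, 0, 0⟩ 0 0) (.pos 59 .mp ⟨⟨38382626, 0, 0, 0, 0, 33436555, 0,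 0, 0, ⟨0, 0⟩, 0⟩, 0, 0⟩ 0 0)) (.cut .s 8950784 (.pos 59 .mp ⟨⟨38591252, 0, 0, 0, 0, 33545354, 0, 0, 0, ⟨0, 0⟩, 0⟩, 0, 0⟩ 0 0) (.pos 59 .mp ⟨⟨38802577, 0, 0, 0, 0, 33652750, 0, 0, 0, ⟨0, 0⟩, 0⟩, 0, 0⟩ 0 0))) (.pos 60 .mp ⟨⟨69402316, 0, 0, 0, 0, 0, 0, 0, 0, ⟨0, 0⟩, 0⟩, 0, 0⟩ 0 0)) (.pos 57 .mp ⟨⟨38181934, 0, 0, 0, 0, 33025806, 0, 0, 0, ⟨0, 0⟩, 0⟩, 0, 0⟩ 0 0))) (.pos 57 .mp ⟨⟨38183833, 0, 0, 0, 0, 33027384, 0, 0, 0, ⟨0, 0⟩, 0⟩, 0, 0⟩ 0 0)) (.pos 58 .mp ⟨⟨64559101, 0, 0, 0, 0, 0, 0, 0, 0, ⟨0, 0⟩, 0⟩, 0, 0⟩ 0 0))) (.pos 55 .mp ⟨⟨38198364, 0, 0, 0, 0, 33019366, 0, 0, 0, ⟨0, 0⟩, 0⟩, 0, 0⟩ 0 0)) (.pos 56 .mp ⟨⟨64568606, 0, 0, 0, 0, 0,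 0, 0, 0, ⟨0, 0⟩, 0⟩, 0, 0⟩ 0 0))) (.pos 53 .mp ⟨⟨38227419, 0, 0, 0, 0, 33003476, 0, 0, 0, ⟨0, 0⟩, 0⟩, 0, 0⟩ 0 0)) (.pos 54 .mp ⟨⟨64586483, 0, 0, 0, 0, 0, 0, 0, 0, ⟨0, 0⟩, 0⟩, 0, 0⟩ 0 0))) (.pos 51 .mp ⟨⟨38285694, 0, 0, 0, 0, 32971598, 0, 0, 0, ⟨0, 0⟩, 0⟩, 0, 0⟩ 0 0))) (.pos 52 .mp ⟨⟨45177221, 0, 0, 0, 0, 25885473, 0, 0, 0, ⟨0, 0⟩, 0⟩, 0, 0⟩ 0 0)) (.pos 43 .mp ⟨⟨38402750, 0, 0, 0, 0, 32907382, 0, 0, 0, ⟨0, 0⟩, 0⟩, 0, 0⟩ 0 0)) (.pos 44 .mp ⟨⟨64692599, 0, 0, 0, 0, 0, 0, 0, 0, ⟨0, 0⟩, 0⟩, 0, 0⟩ 0 0))) (.cut .d (-16384) (.cut .s 8972288 (.pos 41 .mp ⟨⟨38150752, 0, 0, 0, 0, 35939085, 0, 0, 0, ⟨0, 0⟩, 0⟩, 0, 0⟩ 0 0) (.pos 41 .mp ⟨⟨38540042,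 0, 0, 0, 0, 36226689, 0, 0, 0, ⟨0, 0⟩, 0⟩, 0, 0⟩ 0 0)) (.cut .v 16809984 (.cut .l 102527 (.cut .v 16793600 (.cut .d (-8192) (.pos 51 .mp ⟨⟨38073486, 0, 0, 0, 0, 36216533, 0, 0, 0, ⟨0, 0⟩, 0⟩, 0, 0⟩ 0 0) (.cut .l 51263 (.cut .d (-4096) (.pos 51 .mp ⟨⟨38164236, 0, 0, 0, 0, 36259481, 0, 0, 0, ⟨0, 0⟩, 0⟩, 0, 0⟩ 0 0) (.cut .v 16785408 (.cut .l 25631 (.cut .d (-2048) (.pos 53 .mp ⟨⟨38166734, 0, 0, 0, 0, 36211204, 0, 0, 0, ⟨0, 0⟩, 0⟩, 0, 0⟩ 0 0) (.cut .v 16781312 (.cut .l 12815 (.cut .d (-1024) (.pos 55 .mp ⟨⟨38168033, 0, 0, 0, 0, 36187036, 0, 0, 0, ⟨0, 0⟩, 0⟩, 0, 0⟩ 0 0) (.cut .s 8972288 (.cut .s 8965120 (.pos 55 .mp ⟨⟨38847495, 0,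 0, 0, 0, 34003885, 0, 0, 0, ⟨0, 0⟩, 0⟩, 0, 0⟩ 0 0) (.pos 55 .mp ⟨⟨39058415, 0, 0, 0, 0, 34117037, 0, 0, 0, ⟨0, 0⟩, 0⟩, 0, 0⟩ 0 0)) (.pos 55 .mp ⟨⟨38999560, 0, 0, 0, 0, 34653296, 0, 0, 0, ⟨0, 0⟩, 0⟩, 0, 0⟩ 0 0))) (.pos 55 .mp ⟨⟨38976743, 0, 0, 0, 0, 33496979, 0, 0, 0, ⟨0, 0⟩, 0⟩, 0, 0⟩ 0 0)) (.pos 56 .mp ⟨⟨65699756, 0, 0, 0, 0, 0, 0, 0, 0, ⟨0, 0⟩, 0⟩, 0, 0⟩ 0 0))) (.pos 53 .mp ⟨⟨39006938, 0, 0, 0, 0, 33479777, 0, 0, 0, ⟨0, 0⟩, 0⟩, 0, 0⟩ 0 0)) (.pos 54 .mp ⟨⟨65717949, 0, 0, 0, 0, 0, 0, 0, 0, ⟨0, 0⟩, 0⟩, 0, 0⟩ 0 0))) (.pos 51 .mp ⟨⟨39067495, 0, 0, 0, 0, 33445275, 0, 0, 0, ⟨0, 0⟩, 0⟩, 0, 0⟩ 0 0))) (.pos 52 .mp ⟨⟨46315441, 0, 0, 0,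 0, 25957612, 0, 0, 0, ⟨0, 0⟩, 0⟩, 0, 0⟩ 0 0)) (.pos 43 .mp ⟨⟨39189118, 0, 0, 0, 0, 33375805, 0, 0, 0, ⟨0, 0⟩, 0⟩, 0, 0⟩ 0 0)) (.pos 44 .mp ⟨⟨65825934, 0, 0, 0, 0, 0, 0, 0, 0, ⟨0, 0⟩, 0⟩, 0, 0⟩ 0 0)))) (.cut .s 9015296 (.cut .v 16809984 (.cut .d (-16384) (.pos 43 .mp ⟨⟨38757153, 0, 0, 0, 0, 37022932, 0, 0, 0, ⟨0, 0⟩, 0⟩, 0, 0⟩ 0 0) (.cut .l 102527 (.cut .d (-8192) (.pos 43 .mp ⟨⟨38939027, 0, 0, 0, 0, 36949394, 0, 0, 0, ⟨0, 0⟩, 0⟩, 0, 0⟩ 0 0) (.cut .v 16793600 (.cut .l 51263 (.cut .d (-4096) (.pos 51 .mp ⟨⟨38942630, 0, 0, 0, 0, 36852785, 0, 0, 0, ⟨0, 0⟩, 0⟩, 0, 0⟩ 0 0) (.cut .s 9000960 (.cut .s 8993792 (.pos 51 .mp ⟨⟨39715643, 0,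 0, 0, 0, 34438348, 0, 0, 0, ⟨0, 0⟩, 0⟩, 0, 0⟩ 0 0) (.pos 51 .mp ⟨⟨39935821, 0, 0, 0, 0, 34548214, 0, 0, 0, ⟨0, 0⟩, 0⟩, 0, 0⟩ 0 0)) (.pos 51 .mp ⟨⟨39954129, 0, 0, 0, 0, 35004184, 0, 0, 0, ⟨0, 0⟩, 0⟩, 0, 0⟩ 0 0))) (.pos 51 .mp ⟨⟨39862531, 0, 0, 0, 0, 33922404, 0, 0, 0, ⟨0, 0⟩, 0⟩, 0, 0⟩ 0 0)) (.pos 52 .mp ⟨⟨66914079, 0, 0, 0, 0, 0, 0, 0, 0, ⟨0, 0⟩, 0⟩, 0, 0⟩ 0 0))) (.pos 43 .mp ⟨⟨39988833, 0, 0, 0, 0, 33847539, 0, 0, 0, ⟨0, 0⟩, 0⟩, 0, 0⟩ 0 0))) (.pos 44 .mp ⟨⟨47085253, 0, 0, 0, 0, 26644225, 0, 0, 0, ⟨0, 0⟩, 0⟩, 0, 0⟩ 0 0)) (.cut .v 16809984 (.cut .d (-16384) (.pos 43 .mp ⟨⟨39549132, 0, 0, 0, 0, 37637362, 0, 0, 0, ⟨0, 0⟩, 0⟩, 0,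 0⟩ 0 0) (.cut .l 102527 (.cut .d (-8192) (.pos 43 .mp ⟨⟨39731746, 0, 0, 0, 0, 37565433, 0, 0, 0, ⟨0, 0⟩, 0⟩, 0, 0⟩ 0 0) (.cut .s 9029632 (.cut .s 9022464 (.pos 43 .mp ⟨⟨40625238, 0, 0, 0, 0, 34854080, 0, 0, 0, ⟨0, 0⟩, 0⟩, 0, 0⟩ 0 0) (.pos 43 .mp ⟨⟨40855027, 0, 0, 0, 0, 34960203, 0, 0, 0, ⟨0, 0⟩, 0⟩, 0, 0⟩ 0 0)) (.pos 43 .mp ⟨⟨40985825, 0, 0, 0, 0, 35293680, 0, 0, 0, ⟨0, 0⟩, 0⟩, 0, 0⟩ 0 0))) (.pos 43 .mp ⟨⟨40802019, 0, 0, 0, 0, 34322096, 0, 0, 0, ⟨0, 0⟩, 0⟩, 0, 0⟩ 0 0))) (.pos 44 .mp ⟨⟨48407968, 0, 0, 0, 0, 26551551, 0, 0, 0, ⟨0, 0⟩, 0⟩, 0, 0⟩ 0 0))))) (.pos 42 .mp ⟨⟨68368602, 0, 0, 0, 0, 0, 0, 0, 0, ⟨0, 0⟩, 0⟩, 0, 0⟩ 0 0))) (.pos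 36 .mp ⟨⟨67968538, 0, 0, 0, 0, 0, 0, 0, 0, ⟨0, 0⟩, 0⟩, 0, 0⟩ 0 0)) (.void 34 ⟨⟨100000, 0, 0, 0, 0, 0, 0, 0, 0, ⟨0, 0⟩, 0⟩, 0, 0⟩ 0 0)) (.void 32 ⟨⟨100000, 0, 0, 0, 0, 0, 0, 0, 0, ⟨0, 0⟩, 0⟩, 0, 0⟩ 0 0)) (.void 30 ⟨⟨100000, 0, 0, 0, 0, 0, 0, 0, 0, ⟨0, 0⟩, 0⟩, 0, 0⟩ 0 0))))))) (.void 28 ⟨⟨100000, 0, 0, 0, 0, 0, 0, 0, 0, ⟨0, 0⟩, 0⟩, 0, 0⟩ 0 0))))) (.void 26 ⟨⟨100000, 0, 0, 0, 0, 0, 0, 0, 0, ⟨0, 0⟩, 0⟩, 0, 0⟩ 0 0))) (.void 24 ⟨⟨100000, 0, 0, 0, 0, 0, 0, 0, 0, ⟨0, 0⟩, 0⟩, 0, 0⟩ 0 0)) (.void 105 ⟨⟨100000, 0, 0, 0, 0, 0, 0, 0, 0, ⟨0, 0⟩, 0⟩, 0, 0⟩ 0 0))) (.cut .v 16777216 (.cut .d 8004398 (.cut .v 8388608 (.cut .v 4194304 (.void 4 ⟨⟨0,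 0, 66667, 0, 0, 0, 0, 0, 0, ⟨0, 0⟩, 0⟩, 0, 33333⟩ 0 0) (.pos 5 .pm ⟨⟨0, 0, 0, 0, 0, 0, 0, 0, 0, ⟨0, 0⟩, 0⟩, 0, 0⟩ 0 0)) (.pos 3 .pm ⟨⟨0, 0, 0, 0, 0, 0, 0, 0, 0, ⟨0, 0⟩, 0⟩, 0, 0⟩ 0 0)) (.void 1 ⟨⟨0, 0, 0, 0, 0, 0, 0, 0, 0, ⟨0, 0⟩, 0⟩, 0, 100000⟩ 0 0)) (.cut .d 8004398 (.cut .d 4002199 (.cut .v 33554432 (.cut .v 25165824 (.cut .d 2001099 (.cut .v 20971520 (.cut .d 1000549 (.cut .d 500274 (.cut .v 18874368 (.cut .s 8814592 (.pos 27 .pp ⟨⟨18980418, 0, 0, 0, 0, 0, 0, 0, 0, ⟨0, 0⟩, 0⟩, 2949706, 0⟩ 0 0) (.pos 27 .pp ⟨⟨22646496, 0, 0, 0, 0, 0, 0, 0, 0, ⟨0, 0⟩, 0⟩, 3367741, 0⟩ 0 0)) (.pos 28 .pp ⟨⟨74032816, 0, 0, 0, 0, 0, 0, 0, 0, ⟨0,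 0⟩, 0⟩, 0, 0⟩ 0 0)) (.pos 25 .pp ⟨⟨42172382, 0, 0, 0, 0, 0, 0, 0, 0, ⟨0, 0⟩, 0⟩, 0, 249276⟩ 0 0)) (.pos 25 .pp ⟨⟨0, 0, 0, 0, 0, 0, 0, 0, 0, ⟨0, 0⟩, 0⟩, 0, 666210⟩ 0 0)) (.cut .d 1000549 (.cut .d 500274 (.pos 26 .pp ⟨⟨121888188, 0, 0, 0, 0, 0, 0, 0, 0, ⟨0, 0⟩, 0⟩, 0, 0⟩ 0 0) (.pos 26 .pp ⟨⟨0, 0, 0, 0, 0, 0, 0, 0, 0, ⟨0, 0⟩, 0⟩, 6496792, 0⟩ 0 0)) (.pos 26 .pp ⟨⟨0, 0, 0, 0, 0, 0, 462345, 0, 0, ⟨0, 0⟩, 0⟩, 4564633, 0⟩ 0 0))) (.pos 23 .pp ⟨⟨0, 0, 0, 0, 0, 0, 0, 0, 0, ⟨0, 0⟩, 0⟩, 0, 44006775⟩ 0 0)) (.cut .d 2001099 (.cut .d 1000549 (.void 24 ⟨⟨0, 0, 0, 0, 0, 0, 0, 0, 0, ⟨0, 0⟩, 0⟩, 100000, 0⟩ 0 0) (.cut .l 102527 (.pos 24 .pp ⟨⟨0, 0,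 0, 0, 0, 0, 71649016, 0, 0, ⟨0, 0⟩, 0⟩, 6965290, 0⟩ 0 0) (.cut .v 29360128 (.cut .d 1500824 (.pos 83 .pp ⟨⟨0, 0, 0, 0, 0, 0, 0, 0, 0, ⟨0, 0⟩, 0⟩, 7463716, 0⟩ 0 0) (.cut .v 27262976 (.pos 85 .pp ⟨⟨0, 0, 0, 0, 0, 0, 323892, 0, 0, ⟨0, 0⟩, 0⟩, 5136256, 0⟩ 0 0) (.cut .d 1750961 (.pos 86 .pp ⟨⟨0, 0, 0, 0, 0, 0, 0, 0, 0, ⟨0, 0⟩, 0⟩, 7421467, 0⟩ 0 0) (.cut .v 28311552 (.pos 93 .pp ⟨⟨0, 0, 0, 0, 0, 0, 334653, 0, 0, ⟨0, 0⟩, 0⟩, 5141534, 0⟩ 0 0) (.cut .s 8814592 (.cut .s 8699904 (.cut .d 1876030 (.cut .v 28835840 (.pos 101 .pp ⟨⟨0, 0, 0, 0, 0, 0, 31666054, 0, 0, ⟨0, 0⟩, 0⟩, 5471321, 0⟩ 0 0) (.pos 102 .pp ⟨⟨0, 0, 0, 0, 0, 0, 35179906, 0,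 0, ⟨0, 0⟩, 0⟩, 5912409, 0⟩ 0 0)) (.pos 94 .pp ⟨⟨0, 0, 0, 0, 0, 0, 42687742, 0, 0, ⟨0, 0⟩, 0⟩, 5114601, 0⟩ 0 0)) (.pos 94 .pp ⟨⟨0, 0, 0, 0, 0, 0, 119895, 0, 0, ⟨0, 0⟩, 0⟩, 6182051, 0⟩ 0 0)) (.pos 94 .pp ⟨⟨0, 0, 0, 0, 0, 0, 0, 0, 0, ⟨0, 0⟩, 0⟩, 7032479, 0⟩ 0 0)))))) (.cut .v 31457280 (.cut .s 8814592 (.cut .d 1500824 (.void 106 ⟨⟨0, 0, 0, 0, 0, 0, 0, 0, 0, ⟨0, 0⟩, 0⟩, 100000, 0⟩ 0 0) (.cut .d 1750961 (.void 106 ⟨⟨0, 0, 0, 0, 0, 0, 0, 0, 0, ⟨0, 0⟩, 0⟩, 100000, 0⟩ 0 0) (.cut .s 8699904 (.pos 106 .pp ⟨⟨0, 0, 0, 0, 0, 0, 45374957, 0, 0, ⟨0, 0⟩, 0⟩, 6309714, 0⟩ 0 0) (.pos 106 .pp ⟨⟨0, 0, 0, 0, 0, 0, 27686884, 0, 0, ⟨0, 0⟩, 0⟩, 7047863,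 0⟩ 0 0)))) (.pos 106 .pp ⟨⟨0, 0, 0, 0, 0, 0, 0, 0, 0, ⟨0, 0⟩, 0⟩, 9115123, 0⟩ 0 0)) (.void 107 ⟨⟨0, 0, 0, 0, 0, 0, 0, 0, 0, ⟨0, 0⟩, 0⟩, 100000, 0⟩ 0 0))))) (.cut .v 29360128 (.pos 83 .pp ⟨⟨0, 0, 0, 0, 0, 0, 68162755, 0, 0, ⟨0, 0⟩, 0⟩, 0, 0⟩ 0 0) (.cut .d 3001649 (.cut .d 2501374 (.cut .l 102527 (.void 84 ⟨⟨0, 0, 0, 0, 0, 0, 0, 0, 0, ⟨0, 0⟩, 0⟩, 2818, 97182⟩ 0 0) (.cut .l 153791 (.pos 84 .pp ⟨⟨0, 0, 0, 0, 0, 0, 181093612, 0, 0, ⟨0, 0⟩, 0⟩, 0, 0⟩ 0 0) (.cut .l 179423 (.pos 84 .pp ⟨⟨0, 0, 0, 0, 0, 0, 71096779, 0, 0, ⟨0, 0⟩, 0⟩, 6134768, 0⟩ 0 0) (.cut .v 31457280 (.cut .s 8814592 (.cut .v 30408704 (.pos 108 .pp ⟨⟨0, 0, 0, 0, 0, 0,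 53954575, 0, 0, ⟨0, 0⟩, 0⟩, 4941853, 0⟩ 0 0) (.pos 109 .pp ⟨⟨0, 0, 0, 0, 0, 0, 60136287, 0, 0, ⟨0, 0⟩, 0⟩, 5806276, 0⟩ 0 0)) (.pos 106 .pp ⟨⟨0, 0, 0, 0, 0, 0, 20543081, 0, 0, ⟨0, 0⟩, 0⟩, 6906054, 0⟩ 0 0)) (.cut .d 2251236 (.pos 107 .pp ⟨⟨0, 0, 0, 0, 0, 0, 61032046, 0, 0, ⟨0, 0⟩, 0⟩, 9241220, 0⟩ 0 0) (.pos 107 .pp ⟨⟨0, 0, 0, 0, 0, 0, 72649680, 0, 0, ⟨0, 0⟩, 0⟩, 6308664, 0⟩ 0 0)))))) (.pos 84 .pp ⟨⟨0, 0, 0, 0, 0, 0, 113816701, 0, 0, ⟨0, 0⟩, 0⟩, 0, 0⟩ 0 0)) (.pos 84 .pp ⟨⟨0, 0, 0, 0, 0, 0, 0, 0, 0, ⟨0, 0⟩, 0⟩, 0, 72175694⟩ 0 0))))) (.cut .d 2001099 (.void 105 ⟨⟨0, 0, 0, 0, 0, 0, 0, 0, 0, ⟨0, 0⟩, 0⟩, 100000, 0⟩ 0 0) (.cut .v 50331648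 (.cut .d 3001649 (.cut .v 41943040 (.pos 114 .pp ⟨⟨0, 0, 0, 0, 0, 0, 107781319, 0, 0, ⟨0, 0⟩, 0⟩, 9273603, 0⟩ 0 0) (.void 115 ⟨⟨0, 0, 0, 0, 0, 0, 0, 0, 0, ⟨0, 0⟩, 0⟩, 100000, 0⟩ 0 0)) (.pos 112 .pp ⟨⟨0, 0, 0, 0, 0, 0, 319161441, 0, 0, ⟨0, 0⟩, 0⟩, 0, 0⟩ 0 0)) (.void 113 ⟨⟨0, 0, 0, 0, 0, 0, 0, 0, 0, ⟨0, 0⟩, 0⟩, 100000, 0⟩ 0 0)))) (.void 104 ⟨⟨0, 0, 0, 0, 0, 0, 51015, 0, 0, ⟨0, 0⟩, 0⟩, 0, 48985⟩ 0 0)) (.void 104 ⟨⟨0, 0, 0, 0, 0, 0, 0, 0, 0, ⟨0, 0⟩, 0⟩, 3582, 96418⟩ 0 0)))),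
    by decide +kernel⟩

def covers11 : cell.Covers Vale.Agent.P237.Petty.Cor.Grid.N18.table row11.1 :=
  ⟨(.cut .d 0 (.cut .v 16777216 (.cut .d (-8388608) (.void 1 ⟨⟨0, 0, 0, 0, 0, 100000, 0, 0, 0, ⟨0, 0⟩, 0⟩, 0, 0⟩ 0 0) (.cut .d (-4194304) (.void 1 ⟨⟨0, 0, 0, 0, 0, 100000, 0, 0, 0, ⟨0, 0⟩, 0⟩, 0, 0⟩ 0 0) (.cut .d (-2097152) (.void 1 ⟨⟨0, 0, 0, 0, 0, 100000, 0, 0, 0, ⟨0, 0⟩, 0⟩, 0, 0⟩ 0 0) (.cut .d (-1048576) (.void 1 ⟨⟨0, 0, 0, 0, 0, 100000, 0, 0, 0, ⟨0, 0⟩, 0⟩, 0, 0⟩ 0 0) (.cut .d (-524288) (.void 1 ⟨⟨0, 0, 0, 0, 0, 100000, 0, 0, 0, ⟨0, 0⟩, 0⟩, 0, 0⟩ 0 0) (.cut .d (-262144) (.void 1 ⟨⟨0, 0, 0, 0, 0, 100000, 0, 0, 0, ⟨0, 0⟩,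 0⟩, 0, 0⟩ 0 0) (.cut .d (-131072) (.void 1 ⟨⟨0, 0, 0, 0, 0, 100000, 0, 0, 0, ⟨0, 0⟩, 0⟩, 0, 0⟩ 0 0) (.cut .d (-65536) (.void 1 ⟨⟨0, 0, 0, 0, 0, 100000, 0, 0, 0, ⟨0, 0⟩, 0⟩, 0, 0⟩ 0 0) (.cut .d (-32768) (.void 1 ⟨⟨0, 0, 0, 0, 0, 100000, 0, 0, 0, ⟨0, 0⟩, 0⟩, 0, 0⟩ 0 0) (.cut .v 8388608 (.cut .v 4194304 (.void 4 ⟨⟨0, 0, 100000, 0, 0, 0, 0, 0, 0, ⟨0, 0⟩, 0⟩, 0, 0⟩ 0 0) (.pos 5 .mm ⟨⟨0, 0, 109149, 0, 0, 41438165, 0, 0, 0, ⟨0, 0⟩, 0⟩, 0, 0⟩ 0 0)) (.cut .v 12582912 (.pos 8 .mm ⟨⟨0, 0, 0, 0, 0, 59645779, 0, 0, 0, ⟨0, 0⟩, 0⟩, 0, 0⟩ 0 0) (.cut .v 14680064 (.pos 12 .mm ⟨⟨0, 0, 0, 0, 0, 69406627, 0, 0, 0, ⟨0, 0⟩, 0⟩, 0, 0⟩ 0 0) (.cut .v 15728640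 (.pos 20 .mm ⟨⟨0, 0, 0, 0, 0, 74464954, 0, 0, 0, ⟨0, 0⟩, 0⟩, 0, 0⟩ 0 0) (.cut .v 16252928 (.pos 37 .mm ⟨⟨0, 0, 0, 0, 0, 77038594, 0, 0, 0, ⟨0, 0⟩, 0⟩, 0, 0⟩ 0 0) (.cut .v 16515072 (.pos 39 .mm ⟨⟨0, 0, 0, 0, 0, 91962967, 0, 0, 0, ⟨0, 0⟩, 0⟩, 0, 0⟩ 0 0) (.cut .v 16646144 (.pos 47 .mm ⟨⟨0, 0, 0, 0, 0, 97720787, 0, 0, 0, ⟨0, 0⟩, 0⟩, 0, 0⟩ 0 0) (.cut .v 16711680 (.pos 49 .mm ⟨⟨0, 0, 0, 0, 0, 100640735, 0, 0, 0, ⟨0, 0⟩, 0⟩, 0, 0⟩ 0 0) (.cut .s 9306112 (.cut .s 9175040 (.pos 50 .mm ⟨⟨0, 0, 0, 0, 0, 88720822, 0, 0, 0, ⟨0, 0⟩, 0⟩, 0, 0⟩ 0 0) (.pos 50 .mm ⟨⟨0, 0, 0, 0, 0, 96600117, 0, 0, 0, ⟨0, 0⟩, 0⟩, 0, 0⟩ 0 0)) (.cut .s 9437184 (.pos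 50 .mm ⟨⟨0, 0, 0, 0, 0, 105423306, 0, 0, 0, ⟨0, 0⟩, 0⟩, 0, 0⟩ 0 0) (.pos 50 .mm ⟨⟨0, 0, 0, 0, 0, 115207351, 0, 0, 0, ⟨0, 0⟩, 0⟩, 0, 0⟩ 0 0)))))))))))))))))))) (.cut .v 33554432 (.cut .v 25165824 (.cut .d (-8388608) (.void 23 ⟨⟨0, 0, 0, 0, 0, 100000, 0, 0, 0, ⟨0, 0⟩, 0⟩, 0, 0⟩ 0 0) (.cut .v 20971520 (.cut .d (-4194304) (.void 25 ⟨⟨0, 0, 0, 0, 0, 100000, 0, 0, 0, ⟨0, 0⟩, 0⟩, 0, 0⟩ 0 0) (.cut .v 18874368 (.cut .d (-2097152) (.void 27 ⟨⟨100000, 0, 0, 0, 0, 0, 0, 0, 0, ⟨0, 0⟩, 0⟩, 0, 0⟩ 0 0) (.cut .d (-1048576) (.void 27 ⟨⟨100000, 0, 0, 0, 0, 0, 0, 0, 0, ⟨0, 0⟩, 0⟩, 0, 0⟩ 0 0) (.cut .d (-524288) (.void 27 ⟨⟨100000, 0, 0, 0, 0, 0, 0,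 0, 0, ⟨0, 0⟩, 0⟩, 0, 0⟩ 0 0) (.cut .d (-262144) (.void 27 ⟨⟨100000, 0, 0, 0, 0, 0, 0, 0, 0, ⟨0, 0⟩, 0⟩, 0, 0⟩ 0 0) (.cut .d (-131072) (.void 27 ⟨⟨100000, 0, 0, 0, 0, 0, 0, 0, 0, ⟨0, 0⟩, 0⟩, 0, 0⟩ 0 0) (.cut .d (-65536) (.void 27 ⟨⟨0, 0, 0, 0, 0, 100000, 0, 0, 0, ⟨0, 0⟩, 0⟩, 0, 0⟩ 0 0) (.cut .d (-32768) (.void 27 ⟨⟨0, 0, 0, 0, 0, 100000, 0, 0, 0, ⟨0, 0⟩, 0⟩, 0, 0⟩ 0 0) (.cut .v 17825792 (.cut .v 17301504 (.cut .v 17039360 (.cut .v 16908288 (.cut .s 9306112 (.cut .v 16842752 (.cut .s 9175040 (.cut .s 9109504 (.cut .d (-16384) (.cut .d (-24576) (.void 41 ⟨⟨0, 0, 0, 0, 0, 100000, 0, 0, 0, ⟨0, 0⟩, 0⟩, 0, 0⟩ 0 0) (.cut .d (-20480) (.pos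 41 .mp ⟨⟨40766261, 0, 0, 0, 0, 40290245, 0, 0, 0, ⟨0, 0⟩, 0⟩, 0, 0⟩ 0 0) (.cut .v 16809984 (.cut .s 9076736 (.pos 43 .mp ⟨⟨40357331, 0, 0, 0, 0, 38418496, 0, 0, 0, ⟨0, 0⟩, 0⟩, 0, 0⟩ 0 0) (.pos 43 .mp ⟨⟨41296407, 0, 0, 0, 0, 38937803, 0, 0, 0, ⟨0, 0⟩, 0⟩, 0, 0⟩ 0 0)) (.pos 44 .mp ⟨⟨70857327, 0, 0, 0, 0, 0, 0, 0, 0, ⟨0, 0⟩, 0⟩, 0, 0⟩ 0 0)))) (.cut .v 16809984 (.cut .s 9076736 (.cut .l 102527 (.cut .d (-8192) (.pos 43 .mp ⟨⟨40540518, 0, 0, 0, 0, 38372991, 0, 0, 0, ⟨0, 0⟩, 0⟩, 0, 0⟩ 0 0) (.cut .v 16793600 (.cut .l 51263 (.cut .d (-4096) (.pos 51 .mp ⟨⟨40541653, 0, 0, 0, 0, 38275587, 0, 0, 0, ⟨0, 0⟩, 0⟩, 0, 0⟩ 0 0) (.cut .v 16785408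 (.cut .s 9060352 (.pos 53 .mp ⟨⟨41187695, 0, 0, 0, 0, 35856769, 0, 0, 0, ⟨0, 0⟩, 0⟩, 0, 0⟩ 0 0) (.cut .s 9068544 (.pos 53 .mp ⟨⟨42161879, 0, 0, 0, 0, 35355563, 0, 0, 0, ⟨0, 0⟩, 0⟩, 0, 0⟩ 0 0) (.pos 53 .mp ⟨⟨42342586, 0, 0, 0, 0, 35548937, 0, 0, 0, ⟨0, 0⟩, 0⟩, 0, 0⟩ 0 0))) (.pos 54 .mp ⟨⟨69389230, 0, 0, 0, 0, 0, 0, 0, 0, ⟨0, 0⟩, 0⟩, 0, 0⟩ 0 0))) (.pos 51 .mp ⟨⟨41614671, 0, 0, 0, 0, 34979668, 0, 0, 0, ⟨0, 0⟩, 0⟩, 0, 0⟩ 0 0)) (.pos 52 .mp ⟨⟨69427316, 0, 0, 0, 0, 0, 0, 0, 0, ⟨0, 0⟩, 0⟩, 0, 0⟩ 0 0))) (.pos 43 .mp ⟨⟨41752096, 0, 0, 0, 0, 34892009, 0, 0, 0, ⟨0, 0⟩, 0⟩, 0, 0⟩ 0 0)) (.cut .l 102527 (.cut .d (-8192) (.pos 43 .mp ⟨⟨41479298,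 0, 0, 0, 0, 38896738, 0, 0, 0, ⟨0, 0⟩, 0⟩, 0, 0⟩ 0 0) (.cut .v 16793600 (.cut .l 51263 (.cut .d (-4096) (.pos 51 .mp ⟨⟨41478458, 0, 0, 0, 0, 38799885, 0, 0, 0, ⟨0, 0⟩, 0⟩, 0, 0⟩ 0 0) (.cut .v 16785408 (.cut .l 25631 (.cut .d (-2048) (.pos 53 .mp ⟨⟨41478162, 0, 0, 0, 0, 38751316, 0, 0, 0, ⟨0, 0⟩, 0⟩, 0, 0⟩ 0 0) (.cut .v 16781312 (.cut .l 12815 (.cut .d (-1024) (.pos 55 .mp ⟨⟨41478065, 0, 0, 0, 0, 38727007, 0, 0, 0, ⟨0, 0⟩, 0⟩, 0, 0⟩ 0 0) (.cut .v 16779264 (.cut .l 6407 (.cut .d (-512) (.pos 57 .mp ⟨⟨41478004, 0, 0, 0, 0, 38714959, 0, 0, 0, ⟨0, 0⟩, 0⟩, 0, 0⟩ 0 0) (.cut .l 3203 (.cut .v 16778240 (.cut .s 9093120 (.cut .s 9084928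 (.pos 59 .mp ⟨⟨42424126, 0, 0, 0, 0, 35833730, 0, 0, 0, ⟨0, 0⟩, 0⟩, 0, 0⟩ 0 0) (.pos 59 .mp ⟨⟨42617046, 0, 0, 0, 0, 36021200, 0, 0, 0, ⟨0, 0⟩, 0⟩, 0, 0⟩ 0 0)) (.cut .s 9101312 (.pos 59 .mp ⟨⟨42812913, 0, 0, 0, 0, 36208383, 0, 0, 0, ⟨0, 0⟩, 0⟩, 0, 0⟩ 0 0) (.pos 59 .mp ⟨⟨43011774, 0, 0, 0, 0, 36395217, 0, 0, 0, ⟨0, 0⟩, 0⟩, 0, 0⟩ 0 0))) (.pos 60 .mp ⟨⟨75593024, 0, 0, 0, 0, 0, 0, 0, 0, ⟨0, 0⟩, 0⟩, 0, 0⟩ 0 0)) (.pos 57 .mp ⟨⟨42447591, 0, 0, 0, 0, 35616987, 0, 0, 0, ⟨0, 0⟩, 0⟩, 0, 0⟩ 0 0))) (.pos 57 .mp ⟨⟨42450640, 0, 0, 0, 0, 35617283, 0, 0, 0, ⟨0, 0⟩, 0⟩, 0, 0⟩ 0 0)) (.pos 58 .mp ⟨⟨70607085, 0, 0, 0, 0, 0, 0, 0, 0, ⟨0, 0⟩, 0⟩, 0,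 0⟩ 0 0))) (.pos 55 .mp ⟨⟨42468512, 0, 0, 0, 0, 35605406, 0, 0, 0, ⟨0, 0⟩, 0⟩, 0, 0⟩ 0 0)) (.pos 56 .mp ⟨⟨70617624, 0, 0, 0, 0, 0, 0, 0, 0, ⟨0, 0⟩, 0⟩, 0, 0⟩ 0 0))) (.pos 53 .mp ⟨⟨42504249, 0, 0, 0, 0, 35581815, 0, 0, 0, ⟨0, 0⟩, 0⟩, 0, 0⟩ 0 0)) (.pos 54 .mp ⟨⟨70637238, 0, 0, 0, 0, 0, 0, 0, 0, ⟨0, 0⟩, 0⟩, 0, 0⟩ 0 0))) (.pos 51 .mp ⟨⟨42575897, 0, 0, 0, 0, 35534531, 0, 0, 0, ⟨0, 0⟩, 0⟩, 0, 0⟩ 0 0)) (.pos 52 .mp ⟨⟨70676022, 0, 0, 0, 0, 0, 0, 0, 0, ⟨0, 0⟩, 0⟩, 0, 0⟩ 0 0))) (.pos 43 .mp ⟨⟨42719725, 0, 0, 0, 0, 35439481, 0, 0, 0, ⟨0, 0⟩, 0⟩, 0, 0⟩ 0 0))) (.pos 44 .mp ⟨⟨70467399, 0, 0, 0, 0, 0, 0, 0, 0, ⟨0, 0⟩, 0⟩, 0, 0⟩ 0 0))) (.cut .d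 (-16384) (.cut .d (-24576) (.void 41 ⟨⟨0, 0, 0, 0, 0, 100000, 0, 0, 0, ⟨0, 0⟩, 0⟩, 0, 0⟩ 0 0) (.cut .l 102527 (.void 41 ⟨⟨0, 0, 0, 0, 0, 100000, 0, 0, 0, ⟨0, 0⟩, 0⟩, 0, 0⟩ 0 0) (.cut .l 153791 (.pos 41 .mp ⟨⟨43563912, 0, 0, 0, 0, 40338953, 0, 0, 0, ⟨0, 0⟩, 0⟩, 0, 0⟩ 0 0) (.cut .s 9142272 (.pos 41 .mp ⟨⟨43956052, 0, 0, 0, 0, 36225546, 0, 0, 0, ⟨0, 0⟩, 0⟩, 0, 0⟩ 0 0) (.cut .s 9158656 (.pos 41 .mp ⟨⟨44462374, 0, 0, 0, 0, 37057585, 0, 0, 0, ⟨0, 0⟩, 0⟩, 0, 0⟩ 0 0) (.pos 41 .mp ⟨⟨43927581, 0, 0, 0, 0, 39320338, 0, 0, 0, ⟨0, 0⟩, 0⟩, 0, 0⟩ 0 0)))))) (.cut .v 16809984 (.cut .s 9142272 (.cut .s 9125888 (.cut .s 9117696 (.pos 43 .mp ⟨⟨43431750,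 0, 0, 0, 0, 36364188, 0, 0, 0, ⟨0, 0⟩, 0⟩, 0, 0⟩ 0 0) (.cut .s 9121792 (.pos 43 .mp ⟨⟨43805161, 0, 0, 0, 0, 36257849, 0, 0, 0, ⟨0, 0⟩, 0⟩, 0, 0⟩ 0 0) (.pos 43 .mp ⟨⟨43902646, 0, 0, 0, 0, 36357778, 0, 0, 0, ⟨0, 0⟩, 0⟩, 0, 0⟩ 0 0))) (.cut .l 102527 (.cut .d (-8192) (.pos 43 .mp ⟨⟨42925238, 0, 0, 0, 0, 38941717, 0, 0, 0, ⟨0, 0⟩, 0⟩, 0, 0⟩ 0 0) (.cut .s 9134080 (.pos 43 .mp ⟨⟨43641719, 0, 0, 0, 0, 36959836, 0, 0, 0, ⟨0, 0⟩, 0⟩, 0, 0⟩ 0 0) (.pos 43 .mp ⟨⟨43890638, 0, 0, 0, 0, 37098458, 0, 0, 0, ⟨0, 0⟩, 0⟩, 0, 0⟩ 0 0))) (.pos 43 .mp ⟨⟨43708005, 0, 0, 0, 0, 36653779, 0, 0, 0, ⟨0, 0⟩, 0⟩, 0, 0⟩ 0 0))) (.cut .s 9158656 (.cut .l 102527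 (.cut .d (-8192) (.pos 43 .mp ⟨⟨43417398, 0, 0, 0, 0, 39229371, 0, 0, 0, ⟨0, 0⟩, 0⟩, 0, 0⟩ 0 0) (.cut .s 9150464 (.pos 43 .mp ⟨⟨44140859, 0, 0, 0, 0, 37238738, 0, 0, 0, ⟨0, 0⟩, 0⟩, 0, 0⟩ 0 0) (.pos 43 .mp ⟨⟨44392385, 0, 0, 0, 0, 37380675, 0, 0, 0, ⟨0, 0⟩, 0⟩, 0, 0⟩ 0 0))) (.pos 43 .mp ⟨⟨44209957, 0, 0, 0, 0, 36950190, 0, 0, 0, ⟨0, 0⟩, 0⟩, 0, 0⟩ 0 0)) (.cut .l 102527 (.cut .d (-8192) (.pos 43 .mp ⟨⟨43914692, 0, 0, 0, 0, 39525710, 0, 0, 0, ⟨0, 0⟩, 0⟩, 0, 0⟩ 0 0) (.cut .s 9166848 (.pos 43 .mp ⟨⟨44645219, 0, 0, 0, 0, 37524264, 0, 0, 0, ⟨0, 0⟩, 0⟩, 0, 0⟩ 0 0) (.pos 43 .mp ⟨⟨44899366, 0, 0, 0, 0, 37669503, 0, 0, 0, ⟨0, 0⟩, 0⟩, 0, 0⟩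 0 0))) (.pos 43 .mp ⟨⟨44717155, 0, 0, 0, 0, 37250329, 0, 0, 0, ⟨0, 0⟩, 0⟩, 0, 0⟩ 0 0)))) (.pos 44 .mp ⟨⟨73072396, 0, 0, 0, 0, 0, 0, 0, 0, ⟨0, 0⟩, 0⟩, 0, 0⟩ 0 0)))) (.cut .s 9240576 (.cut .d (-16384) (.cut .d (-24576) (.void 41 ⟨⟨0, 0, 0, 0, 0, 100000, 0, 0, 0, ⟨0, 0⟩, 0⟩, 0, 0⟩ 0 0) (.cut .l 102527 (.void 41 ⟨⟨0, 0, 0, 0, 0, 100000, 0, 0, 0, ⟨0, 0⟩, 0⟩, 0, 0⟩ 0 0) (.cut .s 9207808 (.cut .s 9191424 (.pos 41 .mp ⟨⟨44624504, 0, 0, 0, 0, 39455066, 0, 0, 0, ⟨0, 0⟩, 0⟩, 0, 0⟩ 0 0) (.pos 41 .mp ⟨⟨45114080, 0, 0, 0, 0, 39807917, 0, 0, 0, ⟨0, 0⟩, 0⟩, 0, 0⟩ 0 0)) (.cut .s 9224192 (.pos 41 .mp ⟨⟨45613785, 0, 0, 0, 0, 40159046, 0, 0, 0, ⟨0,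 0⟩, 0⟩, 0, 0⟩ 0 0) (.pos 41 .mp ⟨⟨46123810, 0, 0, 0, 0, 40508120, 0, 0, 0, ⟨0, 0⟩, 0⟩, 0, 0⟩ 0 0))))) (.cut .v 16809984 (.cut .s 9207808 (.cut .s 9191424 (.cut .l 102527 (.cut .d (-8192) (.pos 43 .mp ⟨⟨44417148, 0, 0, 0, 0, 39830803, 0, 0, 0, ⟨0, 0⟩, 0⟩, 0, 0⟩ 0 0) (.cut .v 16793600 (.cut .s 9183232 (.pos 51 .mp ⟨⟨45055859, 0, 0, 0, 0, 37938475, 0, 0, 0, ⟨0, 0⟩, 0⟩, 0, 0⟩ 0 0) (.cut .s 9187328 (.pos 51 .mp ⟨⟨45587260, 0, 0, 0, 0, 37664309, 0, 0, 0, ⟨0, 0⟩, 0⟩, 0, 0⟩ 0 0) (.pos 51 .mp ⟨⟨45704179, 0, 0, 0, 0, 37753118, 0, 0, 0, ⟨0, 0⟩, 0⟩, 0, 0⟩ 0 0))) (.pos 52 .mp ⟨⟨74152977, 0, 0, 0, 0, 0, 0, 0, 0, ⟨0, 0⟩, 0⟩, 0, 0⟩ 0 0))) (.pos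 43 .mp ⟨⟨45229627, 0, 0, 0, 0, 37554074, 0, 0, 0, ⟨0, 0⟩, 0⟩, 0, 0⟩ 0 0)) (.cut .l 102527 (.cut .d (-8192) (.pos 43 .mp ⟨⟨44924793, 0, 0, 0, 0, 40144725, 0, 0, 0, ⟨0, 0⟩, 0⟩, 0, 0⟩ 0 0) (.cut .v 16793600 (.cut .l 51263 (.cut .d (-4096) (.pos 51 .mp ⟨⟨44916591, 0, 0, 0, 0, 40051043, 0, 0, 0, ⟨0, 0⟩, 0⟩, 0, 0⟩ 0 0) (.cut .s 9199616 (.pos 51 .mp ⟨⟨45416256, 0, 0, 0, 0, 38415393, 0, 0, 0, ⟨0, 0⟩, 0⟩, 0, 0⟩ 0 0) (.pos 51 .mp ⟨⟨45673957, 0, 0, 0, 0, 38569513, 0, 0, 0, ⟨0, 0⟩, 0⟩, 0, 0⟩ 0 0))) (.pos 51 .mp ⟨⟨45583021, 0, 0, 0, 0, 37980098, 0, 0, 0, ⟨0, 0⟩, 0⟩, 0, 0⟩ 0 0)) (.pos 52 .mp ⟨⟨74852723, 0, 0, 0, 0, 0, 0, 0, 0, ⟨0, 0⟩, 0⟩, 0,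 0⟩ 0 0))) (.pos 43 .mp ⟨⟨45747401, 0, 0, 0, 0, 37861303, 0, 0, 0, ⟨0, 0⟩, 0⟩, 0, 0⟩ 0 0))) (.cut .s 9224192 (.cut .l 102527 (.cut .d (-8192) (.pos 43 .mp ⟨⟨45437657, 0, 0, 0, 0, 40467546, 0, 0, 0, ⟨0, 0⟩, 0⟩, 0, 0⟩ 0 0) (.cut .v 16793600 (.cut .l 51263 (.cut .d (-4096) (.pos 51 .mp ⟨⟨45428344, 0, 0, 0, 0, 40374204, 0, 0, 0, ⟨0, 0⟩, 0⟩, 0, 0⟩ 0 0) (.cut .s 9216000 (.pos 51 .mp ⟨⟨45932974, 0, 0, 0, 0, 38725284, 0, 0, 0, ⟨0, 0⟩, 0⟩, 0, 0⟩ 0 0) (.pos 51 .mp ⟨⟨46193312, 0, 0, 0, 0, 38882703, 0, 0, 0, ⟨0, 0⟩, 0⟩, 0, 0⟩ 0 0))) (.pos 51 .mp ⟨⟨46102501, 0, 0, 0, 0, 38294884, 0, 0, 0, ⟨0, 0⟩, 0⟩, 0, 0⟩ 0 0)) (.pos 52 .mp ⟨⟨75563781, 0,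 0, 0, 0, 0, 0, 0, 0, ⟨0, 0⟩, 0⟩, 0, 0⟩ 0 0))) (.pos 43 .mp ⟨⟨46270505, 0, 0, 0, 0, 38171894, 0, 0, 0, ⟨0, 0⟩, 0⟩, 0, 0⟩ 0 0)) (.cut .l 102527 (.cut .d (-8192) (.pos 43 .mp ⟨⟨45955767, 0, 0, 0, 0, 40799341, 0, 0, 0, ⟨0, 0⟩, 0⟩, 0, 0⟩ 0 0) (.cut .v 16793600 (.cut .l 51263 (.cut .d (-4096) (.pos 51 .mp ⟨⟨45945329, 0, 0, 0, 0, 40706343, 0, 0, 0, ⟨0, 0⟩, 0⟩, 0, 0⟩ 0 0) (.cut .s 9232384 (.pos 51 .mp ⟨⟨46454973, 0, 0, 0, 0, 39041767, 0, 0, 0, ⟨0, 0⟩, 0⟩, 0, 0⟩ 0 0) (.pos 51 .mp ⟨⟨46717963, 0, 0, 0, 0, 39202472, 0, 0, 0, ⟨0, 0⟩, 0⟩, 0, 0⟩ 0 0))) (.pos 51 .mp ⟨⟨46627284, 0, 0, 0, 0, 38612978, 0, 0, 0, ⟨0, 0⟩, 0⟩, 0, 0⟩ 0 0)) (.pos 52 .mp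 ⟨⟨76286209, 0, 0, 0, 0, 0, 0, 0, 0, ⟨0, 0⟩, 0⟩, 0, 0⟩ 0 0))) (.pos 43 .mp ⟨⟨46798970, 0, 0, 0, 0, 38485724, 0, 0, 0, ⟨0, 0⟩, 0⟩, 0, 0⟩ 0 0)))) (.pos 44 .mp ⟨⟨75854092, 0, 0, 0, 0, 0, 0, 0, 0, ⟨0, 0⟩, 0⟩, 0, 0⟩ 0 0))) (.cut .d (-16384) (.cut .d (-24576) (.void 41 ⟨⟨0, 0, 0, 0, 0, 100000, 0, 0, 0, ⟨0, 0⟩, 0⟩, 0, 0⟩ 0 0) (.cut .l 102527 (.void 41 ⟨⟨0, 0, 0, 0, 0, 100000, 0, 0, 0, ⟨0, 0⟩, 0⟩, 0, 0⟩ 0 0) (.cut .l 153791 (.pos 41 .mp ⟨⟨47633022, 0, 0, 0, 0, 43220132, 0, 0, 0, ⟨0, 0⟩, 0⟩, 0, 0⟩ 0 0) (.cut .s 9273344 (.cut .s 9256960 (.pos 41 .mp ⟨⟨46503168, 0, 0, 0, 0, 40942631, 0, 0, 0, ⟨0, 0⟩, 0⟩, 0, 0⟩ 0 0) (.pos 41 .mp ⟨⟨47034170,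 0, 0, 0, 0, 41283992, 0, 0, 0, ⟨0, 0⟩, 0⟩, 0, 0⟩ 0 0)) (.cut .s 9289728 (.pos 41 .mp ⟨⟨47570536, 0, 0, 0, 0, 41630844, 0, 0, 0, ⟨0, 0⟩, 0⟩, 0, 0⟩ 0 0) (.pos 41 .mp ⟨⟨48112293, 0, 0, 0, 0, 41983125, 0, 0, 0, ⟨0, 0⟩, 0⟩, 0, 0⟩ 0 0)))))) (.cut .v 16809984 (.cut .s 9273344 (.cut .s 9256960 (.cut .l 102527 (.cut .d (-8192) (.pos 43 .mp ⟨⟨46479151, 0, 0, 0, 0, 41140183, 0, 0, 0, ⟨0, 0⟩, 0⟩, 0, 0⟩ 0 0) (.cut .v 16793600 (.cut .l 51263 (.cut .d (-4096) (.pos 51 .mp ⟨⟨46467573, 0, 0, 0, 0, 41047536, 0, 0, 0, ⟨0, 0⟩, 0⟩, 0, 0⟩ 0 0) (.cut .s 9248768 (.pos 51 .mp ⟨⟨46982284, 0, 0, 0, 0, 39364814, 0, 0, 0, ⟨0, 0⟩, 0⟩, 0, 0⟩ 0 0) (.pos 51 .mp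 ⟨⟨47247939, 0, 0, 0, 0, 39528790, 0, 0, 0, ⟨0, 0⟩, 0⟩, 0, 0⟩ 0 0))) (.pos 51 .mp ⟨⟨47157398, 0, 0, 0, 0, 38934258, 0, 0, 0, ⟨0, 0⟩, 0⟩, 0, 0⟩ 0 0)) (.pos 52 .mp ⟨⟨77020064, 0, 0, 0, 0, 0, 0, 0, 0, ⟨0, 0⟩, 0⟩, 0, 0⟩ 0 0))) (.pos 43 .mp ⟨⟨47332823, 0, 0, 0, 0, 38802669, 0, 0, 0, ⟨0, 0⟩, 0⟩, 0, 0⟩ 0 0)) (.cut .l 102527 (.cut .d (-8192) (.pos 43 .mp ⟨⟨47007839, 0, 0, 0, 0, 41490147, 0, 0, 0, ⟨0, 0⟩, 0⟩, 0, 0⟩ 0 0) (.cut .v 16793600 (.cut .l 51263 (.cut .d (-4096) (.pos 51 .mp ⟨⟨46995105, 0, 0, 0, 0, 41397856, 0, 0, 0, ⟨0, 0⟩, 0⟩, 0, 0⟩ 0 0) (.cut .s 9265152 (.pos 51 .mp ⟨⟨47514934, 0, 0, 0, 0, 39694397, 0, 0, 0, ⟨0, 0⟩, 0⟩, 0, 0⟩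 0 0) (.pos 51 .mp ⟨⟨47783270, 0, 0, 0, 0, 39861631, 0, 0, 0, ⟨0, 0⟩, 0⟩, 0, 0⟩ 0 0))) (.pos 51 .mp ⟨⟨47692872, 0, 0, 0, 0, 39258602, 0, 0, 0, ⟨0, 0⟩, 0⟩, 0, 0⟩ 0 0)) (.pos 52 .mp ⟨⟨77765405, 0, 0, 0, 0, 0, 0, 0, 0, ⟨0, 0⟩, 0⟩, 0, 0⟩ 0 0))) (.pos 43 .mp ⟨⟨47872094, 0, 0, 0, 0, 39122607, 0, 0, 0, ⟨0, 0⟩, 0⟩, 0, 0⟩ 0 0))) (.cut .s 9289728 (.cut .l 102527 (.cut .d (-8192) (.pos 43 .mp ⟨⟨47541859, 0, 0, 0, 0, 41849307, 0, 0, 0, ⟨0, 0⟩, 0⟩, 0, 0⟩ 0 0) (.cut .v 16793600 (.cut .l 51263 (.cut .d (-4096) (.pos 51 .mp ⟨⟨47527955, 0, 0, 0, 0, 41757379, 0, 0, 0, ⟨0, 0⟩, 0⟩, 0, 0⟩ 0 0) (.cut .s 9281536 (.pos 51 .mp ⟨⟨48052953, 0, 0, 0, 0, 40030488,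 0, 0, 0, ⟨0, 0⟩, 0⟩, 0, 0⟩ 0 0) (.pos 51 .mp ⟨⟨48323985, 0, 0, 0, 0, 40200965, 0, 0, 0, ⟨0, 0⟩, 0⟩, 0, 0⟩ 0 0))) (.pos 51 .mp ⟨⟨48233735, 0, 0, 0, 0, 39585887, 0, 0, 0, ⟨0, 0⟩, 0⟩, 0, 0⟩ 0 0)) (.pos 52 .mp ⟨⟨78522292, 0, 0, 0, 0, 0, 0, 0, 0, ⟨0, 0⟩, 0⟩, 0, 0⟩ 0 0))) (.pos 43 .mp ⟨⟨48416813, 0, 0, 0, 0, 39445416, 0, 0, 0, ⟨0, 0⟩, 0⟩, 0, 0⟩ 0 0)) (.cut .l 102527 (.cut .d (-8192) (.pos 43 .mp ⟨⟨48081240, 0, 0, 0, 0, 42217740, 0, 0, 0, ⟨0, 0⟩, 0⟩, 0, 0⟩ 0 0) (.cut .v 16793600 (.cut .l 51263 (.cut .d (-4096) (.pos 51 .mp ⟨⟨48066151, 0, 0, 0, 0, 42126179, 0, 0, 0, ⟨0, 0⟩, 0⟩, 0, 0⟩ 0 0) (.cut .s 9297920 (.pos 51 .mp ⟨⟨48596371, 0, 0,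 0, 0, 40373057, 0, 0, 0, ⟨0, 0⟩, 0⟩, 0, 0⟩ 0 0) (.pos 51 .mp ⟨⟨48870114, 0, 0, 0, 0, 40546762, 0, 0, 0, ⟨0, 0⟩, 0⟩, 0, 0⟩ 0 0))) (.pos 51 .mp ⟨⟨48780018, 0, 0, 0, 0, 39915991, 0, 0, 0, ⟨0, 0⟩, 0⟩, 0, 0⟩ 0 0)) (.pos 52 .mp ⟨⟨79290785, 0, 0, 0, 0, 0, 0, 0, 0, ⟨0, 0⟩, 0⟩, 0, 0⟩ 0 0))) (.pos 43 .mp ⟨⟨48967011, 0, 0, 0, 0, 39770971, 0, 0, 0, ⟨0, 0⟩, 0⟩, 0, 0⟩ 0 0)))) (.pos 44 .mp ⟨⟨78816038, 0, 0, 0, 0, 0, 0, 0, 0, ⟨0, 0⟩, 0⟩, 0, 0⟩ 0 0))))) (.pos 42 .mp ⟨⟨79353853, 0, 0, 0, 0, 0, 0, 0, 0, ⟨0, 0⟩, 0⟩, 0, 0⟩ 0 0)) (.cut .v 16842752 (.cut .s 9437184 (.cut .s 9371648 (.cut .d (-16384) (.cut .d (-24576) (.void 41 ⟨⟨0, 0, 0, 0, 0, 100000,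 0, 0, 0, ⟨0, 0⟩, 0⟩, 0, 0⟩ 0 0) (.cut .d (-20480) (.pos 41 .mp ⟨⟨48830237, 0, 0, 0, 0, 46128119, 0, 0, 0, ⟨0, 0⟩, 0⟩, 0, 0⟩ 0 0) (.cut .v 16809984 (.cut .v 16793600 (.pos 51 .mp ⟨⟨0, 0, 0, 0, 0, 110294273, 0, 0, 0, ⟨0, 0⟩, 0⟩, 0, 0⟩ 0 0) (.cut .v 16801792 (.pos 116 .mp ⟨⟨0, 0, 0, 0, 0, 110450603, 0, 0, 0, ⟨0, 0⟩, 0⟩, 0, 0⟩ 0 0) (.cut .l 102527 (.void 117 ⟨⟨100000, 0, 0, 0, 0, 0, 0, 0, 0, ⟨0, 0⟩, 0⟩, 0, 0⟩ 0 0) (.cut .s 9338880 (.pos 117 .mp ⟨⟨48605309, 0, 0, 0, 0, 42861015, 0, 0, 0, ⟨0, 0⟩, 0⟩, 0, 0⟩ 0 0) (.pos 117 .mp ⟨⟨49714986, 0, 0, 0, 0, 43625143, 0, 0, 0, ⟨0, 0⟩, 0⟩, 0, 0⟩ 0 0))))) (.pos 44 .mp ⟨⟨66950430, 0, 0, 0, 0, 20945740,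 0, 0, 0, ⟨0, 0⟩, 0⟩, 0, 0⟩ 0 0)))) (.cut .v 16809984 (.cut .s 9338880 (.cut .s 9322496 (.cut .l 102527 (.cut .d (-8192) (.pos 43 .mp ⟨⟨48626013, 0, 0, 0, 0, 42595522, 0, 0, 0, ⟨0, 0⟩, 0⟩, 0, 0⟩ 0 0) (.cut .v 16793600 (.cut .l 51263 (.cut .d (-4096) (.pos 51 .mp ⟨⟨48609723, 0, 0, 0, 0, 42504334, 0, 0, 0, ⟨0, 0⟩, 0⟩, 0, 0⟩ 0 0) (.cut .s 9314304 (.pos 51 .mp ⟨⟨49145217, 0, 0, 0, 0, 40722075, 0, 0, 0, ⟨0, 0⟩, 0⟩, 0, 0⟩ 0 0) (.pos 51 .mp ⟨⟨49421685, 0, 0, 0, 0, 40898993, 0, 0, 0, ⟨0, 0⟩, 0⟩, 0, 0⟩ 0 0))) (.pos 51 .mp ⟨⟨49331751, 0, 0, 0, 0, 40248791, 0, 0, 0, ⟨0, 0⟩, 0⟩, 0, 0⟩ 0 0)) (.pos 52 .mp ⟨⟨80070944, 0, 0, 0, 0, 0, 0, 0, 0,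 ⟨0, 0⟩, 0⟩, 0, 0⟩ 0 0))) (.pos 43 .mp ⟨⟨49522717, 0, 0, 0, 0, 40099150, 0, 0, 0, ⟨0, 0⟩, 0⟩, 0, 0⟩ 0 0)) (.cut .l 102527 (.cut .d (-8192) (.pos 43 .mp ⟨⟨49176207, 0, 0, 0, 0, 42982730, 0, 0, 0, ⟨0, 0⟩, 0⟩, 0, 0⟩ 0 0) (.cut .v 16793600 (.cut .l 51263 (.cut .d (-4096) (.pos 51 .mp ⟨⟨49158701, 0, 0, 0, 0, 42891920, 0, 0, 0, ⟨0, 0⟩, 0⟩, 0, 0⟩ 0 0) (.cut .s 9330688 (.pos 51 .mp ⟨⟨49697426, 0, 0, 0, 0, 41080647, 0, 0, 0, ⟨0, 0⟩, 0⟩, 0, 0⟩ 0 0) (.pos 51 .mp ⟨⟨49966545, 0, 0, 0, 0, 41275865, 0, 0, 0, ⟨0, 0⟩, 0⟩, 0, 0⟩ 0 0))) (.pos 51 .mp ⟨⟨49888962, 0, 0, 0, 0, 40584165, 0, 0, 0, ⟨0, 0⟩, 0⟩, 0, 0⟩ 0 0)) (.pos 52 .mp ⟨⟨80862831, 0, 0,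 0, 0, 0, 0, 0, 0, ⟨0, 0⟩, 0⟩, 0, 0⟩ 0 0))) (.pos 43 .mp ⟨⟨50083961, 0, 0, 0, 0, 40429829, 0, 0, 0, ⟨0, 0⟩, 0⟩, 0, 0⟩ 0 0))) (.cut .s 9355264 (.cut .l 102527 (.cut .d (-8192) (.pos 43 .mp ⟨⟨49731852, 0, 0, 0, 0, 43379440, 0, 0, 0, ⟨0, 0⟩, 0⟩, 0, 0⟩ 0 0) (.cut .s 9347072 (.cut .s 9342976 (.pos 43 .mp ⟨⟨50470207, 0, 0, 0, 0, 41107442, 0, 0, 0, ⟨0, 0⟩, 0⟩, 0, 0⟩ 0 0) (.pos 43 .mp ⟨⟨50622232, 0, 0, 0, 0, 41185458, 0, 0, 0, ⟨0, 0⟩, 0⟩, 0, 0⟩ 0 0)) (.pos 43 .mp ⟨⟨50829844, 0, 0, 0, 0, 41275113, 0, 0, 0, ⟨0, 0⟩, 0⟩, 0, 0⟩ 0 0))) (.pos 43 .mp ⟨⟨50650776, 0, 0, 0, 0, 40762885, 0, 0, 0, ⟨0, 0⟩, 0⟩, 0, 0⟩ 0 0)) (.cut .l 102527 (.cut .d (-8192)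 (.pos 43 .mp ⟨⟨50292978, 0, 0, 0, 0, 43785732, 0, 0, 0, ⟨0, 0⟩, 0⟩, 0, 0⟩ 0 0) (.cut .s 9363456 (.pos 43 .mp ⟨⟨51115173, 0, 0, 0, 0, 41457318, 0, 0, 0, ⟨0, 0⟩, 0⟩, 0, 0⟩ 0 0) (.pos 43 .mp ⟨⟨51401904, 0, 0, 0, 0, 41641084, 0, 0, 0, ⟨0, 0⟩, 0⟩, 0, 0⟩ 0 0))) (.pos 43 .mp ⟨⟨51223191, 0, 0, 0, 0, 41098194, 0, 0, 0, ⟨0, 0⟩, 0⟩, 0, 0⟩ 0 0)))) (.pos 44 .mp ⟨⟨81961918, 0, 0, 0, 0, 0, 0, 0, 0, ⟨0, 0⟩, 0⟩, 0, 0⟩ 0 0))) (.cut .d (-16384) (.cut .d (-24576) (.void 41 ⟨⟨0, 0, 0, 0, 0, 100000, 0, 0, 0, ⟨0, 0⟩, 0⟩, 0, 0⟩ 0 0) (.cut .d (-20480) (.pos 41 .mp ⟨⟨51085075, 0, 0, 0, 0, 47914637, 0, 0, 0, ⟨0, 0⟩, 0⟩, 0, 0⟩ 0 0) (.cut .v 16809984 (.cut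 .s 9404416 (.pos 43 .mp ⟨⟨50681417, 0, 0, 0, 0, 45194793, 0, 0, 0, ⟨0, 0⟩, 0⟩, 0, 0⟩ 0 0) (.pos 43 .mp ⟨⟨51832109, 0, 0, 0, 0, 46076763, 0, 0, 0, ⟨0, 0⟩, 0⟩, 0, 0⟩ 0 0)) (.pos 44 .mp ⟨⟨70788642, 0, 0, 0, 0, 20412957, 0, 0, 0, ⟨0, 0⟩, 0⟩, 0, 0⟩ 0 0)))) (.cut .v 16809984 (.cut .s 9404416 (.cut .s 9388032 (.cut .l 102527 (.cut .d (-8192) (.pos 43 .mp ⟨⟨50859617, 0, 0, 0, 0, 44201683, 0, 0, 0, ⟨0, 0⟩, 0⟩, 0, 0⟩ 0 0) (.cut .s 9379840 (.pos 43 .mp ⟨⟨51690039, 0, 0, 0, 0, 41826407, 0, 0, 0, ⟨0, 0⟩, 0⟩, 0, 0⟩ 0 0) (.pos 43 .mp ⟨⟨51979584, 0, 0, 0, 0, 42013283, 0, 0, 0, ⟨0, 0⟩, 0⟩, 0, 0⟩ 0 0))) (.pos 43 .mp ⟨⟨51801239, 0, 0, 0, 0, 41435632,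 0, 0, 0, ⟨0, 0⟩, 0⟩, 0, 0⟩ 0 0)) (.cut .l 102527 (.cut .d (-8192) (.pos 43 .mp ⟨⟨51431798, 0, 0, 0, 0, 44627374, 0, 0, 0, ⟨0, 0⟩, 0⟩, 0, 0⟩ 0 0) (.cut .s 9396224 (.pos 43 .mp ⟨⟨52266845, 0, 0, 0, 0, 42207258, 0, 0, 0, ⟨0, 0⟩, 0⟩, 0, 0⟩ 0 0) (.pos 43 .mp ⟨⟨52538673, 0, 0, 0, 0, 42428097, 0, 0, 0, ⟨0, 0⟩, 0⟩, 0, 0⟩ 0 0))) (.pos 43 .mp ⟨⟨52384951, 0, 0, 0, 0, 41775075, 0, 0, 0, ⟨0, 0⟩, 0⟩, 0, 0⟩ 0 0))) (.cut .l 102527 (.cut .d (-8192) (.pos 43 .mp ⟨⟨52009554, 0, 0, 0, 0, 46087513, 0, 0, 0, ⟨0, 0⟩, 0⟩, 0, 0⟩ 0 0) (.cut .v 16793600 (.cut .l 51263 (.cut .d (-4096) (.pos 51 .mp ⟨⟨51985736, 0, 0, 0, 0, 45997347, 0, 0, 0, ⟨0, 0⟩, 0⟩, 0,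 0⟩ 0 0) (.cut .v 16785408 (.cut .l 25631 (.cut .d (-2048) (.pos 53 .mp ⟨⟨51973967, 0, 0, 0, 0, 45952104, 0, 0, 0, ⟨0, 0⟩, 0⟩, 0, 0⟩ 0 0) (.cut .v 16781312 (.cut .l 12815 (.cut .d (-1024) (.pos 55 .mp ⟨⟨51968144, 0, 0, 0, 0, 45929458, 0, 0, 0, ⟨0, 0⟩, 0⟩, 0, 0⟩ 0 0) (.cut .v 16779264 (.cut .l 6407 (.cut .d (-512) (.pos 57 .mp ⟨⟨51965215, 0, 0, 0, 0, 45918277, 0, 0, 0, ⟨0, 0⟩, 0⟩, 0, 0⟩ 0 0) (.cut .l 3203 (.cut .v 16778240 (.cut .s 9420800 (.cut .s 9412608 (.pos 59 .mp ⟨⟨52917263, 0, 0, 0, 0, 42479761, 0, 0, 0, ⟨0, 0⟩, 0⟩, 0, 0⟩ 0 0) (.pos 59 .mp ⟨⟨53266205, 0, 0, 0, 0, 42605129, 0, 0, 0, ⟨0, 0⟩, 0⟩, 0, 0⟩ 0 0)) (.cut .s 9428992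 (.pos 59 .mp ⟨⟨53620096, 0, 0, 0, 0, 42727511, 0, 0, 0, ⟨0, 0⟩, 0⟩, 0, 0⟩ 0 0) (.pos 59 .mp ⟨⟨53978989, 0, 0, 0, 0, 42846832, 0, 0, 0, ⟨0, 0⟩, 0⟩, 0, 0⟩ 0 0))) (.pos 60 .mp ⟨⟨90866109, 0, 0, 0, 0, 0, 0, 0, 0, ⟨0, 0⟩, 0⟩, 0, 0⟩ 0 0)) (.pos 57 .mp ⟨⟨53150270, 0, 0, 0, 0, 42005021, 0, 0, 0, ⟨0, 0⟩, 0⟩, 0, 0⟩ 0 0))) (.pos 57 .mp ⟨⟨53156813, 0, 0, 0, 0, 42001387, 0, 0, 0, ⟨0, 0⟩, 0⟩, 0, 0⟩ 0 0)) (.pos 58 .mp ⟨⟨85556549, 0, 0, 0, 0, 0, 0, 0, 0, ⟨0, 0⟩, 0⟩, 0, 0⟩ 0 0))) (.pos 55 .mp ⟨⟨53184250, 0, 0, 0, 0, 41978372, 0, 0, 0, ⟨0, 0⟩, 0⟩, 0, 0⟩ 0 0)) (.pos 56 .mp ⟨⟨85569431, 0, 0, 0, 0, 0, 0, 0, 0, ⟨0, 0⟩, 0⟩, 0, 0⟩ 0 0))) (.pos 53 .mp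 ⟨⟨53239110, 0, 0, 0, 0, 41932554, 0, 0, 0, ⟨0, 0⟩, 0⟩, 0, 0⟩ 0 0)) (.pos 54 .mp ⟨⟨85593285, 0, 0, 0, 0, 0, 0, 0, 0, ⟨0, 0⟩, 0⟩, 0, 0⟩ 0 0))) (.pos 51 .mp ⟨⟨53349034, 0, 0, 0, 0, 41840803, 0, 0, 0, ⟨0, 0⟩, 0⟩, 0, 0⟩ 0 0)) (.pos 52 .mp ⟨⟨85640409, 0, 0, 0, 0, 0, 0, 0, 0, ⟨0, 0⟩, 0⟩, 0, 0⟩ 0 0))) (.pos 43 .mp ⟨⟨53569495, 0, 0, 0, 0, 41656753, 0, 0, 0, ⟨0, 0⟩, 0⟩, 0, 0⟩ 0 0))) (.pos 44 .mp ⟨⟨85295556, 0, 0, 0, 0, 0, 0, 0, 0, ⟨0, 0⟩, 0⟩, 0, 0⟩ 0 0)))) (.cut .s 9502720 (.cut .d (-16384) (.cut .s 9469952 (.pos 41 .mp ⟨⟨53235750, 0, 0, 0, 0, 47192598, 0, 0, 0, ⟨0, 0⟩, 0⟩, 0, 0⟩ 0 0) (.pos 41 .mp ⟨⟨54436203, 0, 0, 0, 0, 48158942, 0, 0,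 0, ⟨0, 0⟩, 0⟩, 0, 0⟩ 0 0)) (.cut .v 16809984 (.cut .s 9469952 (.cut .l 102527 (.cut .d (-8192) (.pos 43 .mp ⟨⟨53181916, 0, 0, 0, 0, 47015081, 0, 0, 0, ⟨0, 0⟩, 0⟩, 0, 0⟩ 0 0) (.cut .v 16793600 (.cut .l 51263 (.cut .d (-4096) (.pos 51 .mp ⟨⟨53155462, 0, 0, 0, 0, 46925710, 0, 0, 0, ⟨0, 0⟩, 0⟩, 0, 0⟩ 0 0) (.cut .v 16785408 (.cut .l 25631 (.cut .d (-2048) (.pos 53 .mp ⟨⟨53142378, 0, 0, 0, 0, 46880860, 0, 0, 0, ⟨0, 0⟩, 0⟩, 0, 0⟩ 0 0) (.cut .v 16781312 (.cut .l 12815 (.cut .d (-1024) (.pos 55 .mp ⟨⟨53135898, 0, 0, 0, 0, 46858411, 0, 0, 0, ⟨0, 0⟩, 0⟩, 0, 0⟩ 0 0) (.cut .v 16779264 (.cut .l 6407 (.cut .d (-512) (.pos 57 .mp ⟨⟨53132640,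 0, 0, 0, 0, 46847333, 0, 0, 0, ⟨0, 0⟩, 0⟩, 0, 0⟩ 0 0) (.cut .s 9453568 (.cut .s 9445376 (.pos 57 .mp ⟨⟨54114966, 0, 0, 0, 0, 43306693, 0, 0, 0, ⟨0, 0⟩, 0⟩, 0, 0⟩ 0 0) (.pos 57 .mp ⟨⟨54466165, 0, 0, 0, 0, 43446822, 0, 0, 0, ⟨0, 0⟩, 0⟩, 0, 0⟩ 0 0)) (.pos 57 .mp ⟨⟨54358612, 0, 0, 0, 0, 44330760, 0, 0, 0, ⟨0, 0⟩, 0⟩, 0, 0⟩ 0 0))) (.pos 57 .mp ⟨⟨54347582, 0, 0, 0, 0, 42695452, 0, 0, 0, ⟨0, 0⟩, 0⟩, 0, 0⟩ 0 0)) (.pos 58 .mp ⟨⟨87309351, 0, 0, 0, 0, 0, 0, 0, 0, ⟨0, 0⟩, 0⟩, 0, 0⟩ 0 0))) (.pos 55 .mp ⟨⟨54376139, 0, 0, 0, 0, 42671120, 0, 0, 0, ⟨0, 0⟩, 0⟩, 0, 0⟩ 0 0)) (.pos 56 .mp ⟨⟨87322508, 0, 0, 0, 0, 0, 0, 0, 0, ⟨0, 0⟩, 0⟩, 0, 0⟩ 0 0)))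 (.pos 53 .mp ⟨⟨54433238, 0, 0, 0, 0, 42622672, 0, 0, 0, ⟨0, 0⟩, 0⟩, 0, 0⟩ 0 0)) (.pos 54 .mp ⟨⟨87346859, 0, 0, 0, 0, 0, 0, 0, 0, ⟨0, 0⟩, 0⟩, 0, 0⟩ 0 0))) (.pos 51 .mp ⟨⟨54547647, 0, 0, 0, 0, 42525660, 0, 0, 0, ⟨0, 0⟩, 0⟩, 0, 0⟩ 0 0)) (.pos 52 .mp ⟨⟨87394959, 0, 0, 0, 0, 0, 0, 0, 0, ⟨0, 0⟩, 0⟩, 0, 0⟩ 0 0))) (.pos 43 .mp ⟨⟨54777084, 0, 0, 0, 0, 42331077, 0, 0, 0, ⟨0, 0⟩, 0⟩, 0, 0⟩ 0 0)) (.cut .l 102527 (.cut .d (-8192) (.pos 43 .mp ⟨⟨54376959, 0, 0, 0, 0, 47983078, 0, 0, 0, ⟨0, 0⟩, 0⟩, 0, 0⟩ 0 0) (.cut .v 16793600 (.cut .s 9486336 (.cut .s 9478144 (.pos 51 .mp ⟨⟨56044279, 0, 0, 0, 0, 43207283, 0, 0, 0, ⟨0, 0⟩, 0⟩, 0, 0⟩ 0 0) (.pos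 51 .mp ⟨⟨56447484, 0, 0, 0, 0, 43293948, 0, 0, 0, ⟨0, 0⟩, 0⟩, 0, 0⟩ 0 0)) (.pos 51 .mp ⟨⟨56063465, 0, 0, 0, 0, 44572538, 0, 0, 0, ⟨0, 0⟩, 0⟩, 0, 0⟩ 0 0)) (.pos 52 .mp ⟨⟨89198443, 0, 0, 0, 0, 0, 0, 0, 0, ⟨0, 0⟩, 0⟩, 0, 0⟩ 0 0))) (.pos 43 .mp ⟨⟨56007982, 0, 0, 0, 0, 43010993, 0, 0, 0, ⟨0, 0⟩, 0⟩, 0, 0⟩ 0 0))) (.pos 44 .mp ⟨⟨88820922, 0, 0, 0, 0, 0, 0, 0, 0, ⟨0, 0⟩, 0⟩, 0, 0⟩ 0 0))) (.cut .d (-16384) (.cut .s 9535488 (.pos 41 .mp ⟨⟨55659728, 0, 0, 0, 0, 49166327, 0, 0, 0, ⟨0, 0⟩, 0⟩, 0, 0⟩ 0 0) (.pos 41 .mp ⟨⟨56906590, 0, 0, 0, 0, 50215425, 0, 0, 0, ⟨0, 0⟩, 0⟩, 0, 0⟩ 0 0)) (.cut .v 16809984 (.cut .s 9535488 (.cut .s 9519104 (.cut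 .s 9510912 (.pos 43 .mp ⟨⟨57709025, 0, 0, 0, 0, 43507850, 0, 0, 0, ⟨0, 0⟩, 0⟩, 0, 0⟩ 0 0) (.pos 43 .mp ⟨⟨58136720, 0, 0, 0, 0, 43576951, 0, 0, 0, ⟨0, 0⟩, 0⟩, 0, 0⟩ 0 0)) (.pos 43 .mp ⟨⟨57863582, 0, 0, 0, 0, 44746523, 0, 0, 0, ⟨0, 0⟩, 0⟩, 0, 0⟩ 0 0)) (.cut .s 9551872 (.pos 43 .mp ⟨⟨58506048, 0, 0, 0, 0, 45165203, 0, 0, 0, ⟨0, 0⟩, 0⟩, 0, 0⟩ 0 0) (.pos 43 .mp ⟨⟨59412713, 0, 0, 0, 0, 45261407, 0, 0, 0, ⟨0, 0⟩, 0⟩, 0, 0⟩ 0 0))) (.pos 44 .mp ⟨⟨92542135, 0, 0, 0, 0, 0, 0, 0, 0, ⟨0, 0⟩, 0⟩, 0, 0⟩ 0 0))))) (.pos 42 .mp ⟨⟨92305955, 0, 0, 0, 0, 0, 0, 0, 0, ⟨0, 0⟩, 0⟩, 0, 0⟩ 0 0))) (.pos 36 .mp ⟨⟨91681822, 0, 0, 0, 0, 0, 0, 0, 0, ⟨0, 0⟩,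 0⟩, 0, 0⟩ 0 0)) (.void 34 ⟨⟨100000, 0, 0, 0, 0, 0, 0, 0, 0, ⟨0, 0⟩, 0⟩, 0, 0⟩ 0 0)) (.void 32 ⟨⟨100000, 0, 0, 0, 0, 0, 0, 0, 0, ⟨0, 0⟩, 0⟩, 0, 0⟩ 0 0)) (.void 30 ⟨⟨100000, 0, 0, 0, 0, 0, 0, 0, 0, ⟨0, 0⟩, 0⟩, 0, 0⟩ 0 0))))))))) (.void 28 ⟨⟨100000, 0, 0, 0, 0, 0, 0, 0, 0, ⟨0, 0⟩, 0⟩, 0, 0⟩ 0 0))) (.void 26 ⟨⟨100000, 0, 0, 0, 0, 0, 0, 0, 0, ⟨0, 0⟩, 0⟩, 0, 0⟩ 0 0))) (.void 24 ⟨⟨100000, 0, 0, 0, 0, 0, 0, 0, 0, ⟨0, 0⟩, 0⟩, 0, 0⟩ 0 0)) (.void 105 ⟨⟨100000, 0, 0, 0, 0, 0, 0, 0, 0, ⟨0, 0⟩, 0⟩, 0, 0⟩ 0 0))) (.cut .v 16777216 (.cut .d 7172869 (.cut .v 8388608 (.cut .v 4194304 (.void 4 ⟨⟨0, 0, 66667, 0, 0, 0, 0, 0, 0, ⟨0, 0⟩, 0⟩, 0, 33333⟩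 0 0) (.pos 5 .pm ⟨⟨0, 0, 62403, 0, 0, 0, 0, 0, 0, ⟨0, 0⟩, 0⟩, 0, 0⟩ 0 0)) (.pos 3 .pm ⟨⟨0, 0, 0, 0, 0, 0, 0, 0, 0, ⟨0, 0⟩, 0⟩, 0, 0⟩ 0 0)) (.void 1 ⟨⟨0, 0, 0, 0, 0, 0, 0, 0, 0, ⟨0, 0⟩, 0⟩, 0, 100000⟩ 0 0)) (.cut .d 7172869 (.cut .v 33554432 (.cut .d 3586434 (.cut .v 25165824 (.cut .d 1793217 (.cut .v 20971520 (.cut .d 896608 (.cut .d 448304 (.cut .v 18874368 (.cut .s 9306112 (.pos 27 .pp ⟨⟨35012704, 0, 0, 0, 0, 0, 0, 0, 0, ⟨0, 0⟩, 0⟩, 3125733, 0⟩ 0 0) (.pos 27 .pp ⟨⟨45333648, 0, 0, 0, 0, 0, 0, 0, 0, ⟨0, 0⟩, 0⟩, 3282346, 0⟩ 0 0)) (.pos 28 .pp ⟨⟨100920123, 0, 0, 0, 0, 0, 0, 0, 0, ⟨0, 0⟩, 0⟩, 0, 0⟩ 0 0)) (.pos 25 .pp ⟨⟨55031357,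 0, 0, 0, 0, 0, 0, 0, 0, ⟨0, 0⟩, 0⟩, 0, 220610⟩ 0 0)) (.pos 25 .pp ⟨⟨0, 0, 0, 0, 0, 0, 0, 0, 0, ⟨0, 0⟩, 0⟩, 0, 591168⟩ 0 0)) (.cut .d 896608 (.cut .d 448304 (.pos 26 .pp ⟨⟨171152539, 0, 0, 0, 0, 0, 0, 0, 0, ⟨0, 0⟩, 0⟩, 0, 0⟩ 0 0) (.pos 26 .pp ⟨⟨0, 0, 0, 0, 0, 0, 0, 0, 0, ⟨0, 0⟩, 0⟩, 8723660, 0⟩ 0 0)) (.pos 26 .pp ⟨⟨0, 0, 0, 0, 0, 0, 291384, 0, 0, ⟨0, 0⟩, 0⟩, 6566909, 0⟩ 0 0))) (.pos 23 .pp ⟨⟨0, 0, 0, 0, 0, 0, 0, 0, 0, ⟨0, 0⟩, 0⟩, 0, 638461⟩ 0 0)) (.cut .d 1793217 (.cut .d 896608 (.void 24 ⟨⟨0, 0, 0, 0, 0, 0, 0, 0, 0, ⟨0, 0⟩, 0⟩, 100000, 0⟩ 0 0) (.cut .v 29360128 (.pos 83 .pp ⟨⟨0, 0, 0, 0, 0, 0, 5918, 0, 0, ⟨0, 0⟩, 0⟩, 9175918,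 0⟩ 0 0) (.pos 84 .pp ⟨⟨0, 0, 0, 0, 0, 0, 0, 0, 0, ⟨0, 0⟩, 0⟩, 13050568, 0⟩ 0 0))) (.cut .v 29360128 (.pos 83 .pp ⟨⟨0, 0, 0, 0, 0, 0, 1840455, 0, 0, ⟨0, 0⟩, 0⟩, 0, 0⟩ 0 0) (.pos 84 .pp ⟨⟨0, 0, 0, 0, 0, 0, 0, 0, 0, ⟨0, 0⟩, 0⟩, 8294589, 0⟩ 0 0)))) (.pos 22 .pp ⟨⟨0, 0, 0, 0, 0, 0, 0, 0, 0, ⟨0, 0⟩, 0⟩, 0, 87563924⟩ 0 0)) (.cut .v 50331648 (.cut .d 3586434 (.cut .d 1793217 (.void 112 ⟨⟨0, 0, 0, 0, 0, 0, 0, 0, 0, ⟨0, 0⟩, 0⟩, 100000, 0⟩ 0 0) (.cut .v 41943040 (.cut .d 2689825 (.pos 114 .pp ⟨⟨0, 0, 0, 0, 0, 0, 0, 0, 0, ⟨0, 0⟩, 0⟩, 13845855, 0⟩ 0 0) (.pos 114 .pp ⟨⟨0, 0, 0, 0, 0, 0, 102929353, 0, 0, ⟨0, 0⟩, 0⟩, 8467525, 0⟩ 0 0)) (.pos 115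 .pp ⟨⟨0, 0, 0, 0, 0, 0, 0, 0, 0, ⟨0, 0⟩, 0⟩, 55079510, 0⟩ 0 0))) (.pos 112 .pp ⟨⟨0, 0, 0, 0, 0, 0, 211595657, 0, 0, ⟨0, 0⟩, 0⟩, 3797485, 0⟩ 0 0)) (.void 113 ⟨⟨0, 0, 0, 0, 0, 0, 100000, 0, 0, ⟨0, 0⟩, 0⟩, 0, 0⟩ 0 0))) (.void 104 ⟨⟨0, 0, 0, 0, 0, 0, 63782, 0, 0, ⟨0, 0⟩, 0⟩, 0, 36218⟩ 0 0)))),
    by decide +kernel⟩

def covers12 : cell.Covers Vale.Agent.P237.Petty.Cor.Grid.N18.table row12.1 :=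
  ⟨(.cut .d 0 (.cut .v 16777216 (.cut .d (-8388608) (.void 1 ⟨⟨0, 0, 0, 0, 0, 100000, 0, 0, 0, ⟨0, 0⟩, 0⟩, 0, 0⟩ 0 0) (.cut .d (-4194304) (.void 1 ⟨⟨0, 0, 0, 0, 0, 100000, 0, 0, 0, ⟨0, 0⟩, 0⟩, 0, 0⟩ 0 0) (.cut .d (-2097152) (.void 1 ⟨⟨0, 0, 0, 0, 0, 100000, 0, 0, 0, ⟨0, 0⟩, 0⟩, 0, 0⟩ 0 0) (.cut .d (-1048576) (.void 1 ⟨⟨0, 0, 0, 0, 0, 100000, 0, 0, 0, ⟨0, 0⟩, 0⟩, 0, 0⟩ 0 0) (.cut .d (-524288) (.void 1 ⟨⟨0, 0, 0, 0, 0, 100000, 0, 0, 0, ⟨0, 0⟩, 0⟩, 0, 0⟩ 0 0) (.cut .d (-262144) (.void 1 ⟨⟨0, 0, 0, 0, 0, 100000, 0, 0, 0, ⟨0, 0⟩, 0⟩, 0, 0⟩ 0 0) (.cut .d (-131072) (.void 1 ⟨⟨0, 0, 0, 0, 0, 100000, 0, 0, 0, ⟨0, 0⟩, 0⟩, 0, 0⟩ 0 0) (.cut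 .d (-65536) (.void 1 ⟨⟨0, 0, 0, 0, 0, 100000, 0, 0, 0, ⟨0, 0⟩, 0⟩, 0, 0⟩ 0 0) (.cut .d (-32768) (.void 1 ⟨⟨0, 0, 0, 0, 0, 100000, 0, 0, 0, ⟨0, 0⟩, 0⟩, 0, 0⟩ 0 0) (.cut .v 8388608 (.cut .v 4194304 (.void 4 ⟨⟨0, 0, 100000, 0, 0, 0, 0, 0, 0, ⟨0, 0⟩, 0⟩, 0, 0⟩ 0 0) (.pos 5 .mm ⟨⟨0, 0, 679463, 0, 0, 55647587, 0, 0, 0, ⟨0, 0⟩, 0⟩, 0, 0⟩ 0 0)) (.cut .d (-16384) (.pos 3 .mm ⟨⟨0, 0, 0, 0, 0, 165103416, 0, 0, 0, ⟨0, 0⟩, 0⟩, 0, 0⟩ 0 0) (.cut .v 12582912 (.pos 8 .mm ⟨⟨0, 0, 0, 0, 0, 83087218, 0, 0, 0, ⟨0, 0⟩, 0⟩, 0, 0⟩ 0 0) (.cut .v 14680064 (.pos 12 .mm ⟨⟨0, 0, 0, 0, 0, 97615444, 0, 0, 0, ⟨0, 0⟩, 0⟩, 0, 0⟩ 0 0) (.cut .v 15728640 (.pos 20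 .mm ⟨⟨0, 0, 0, 0, 0, 105161363, 0, 0, 0, ⟨0, 0⟩, 0⟩, 0, 0⟩ 0 0) (.cut .v 16252928 (.pos 37 .mm ⟨⟨0, 0, 0, 0, 0, 109004775, 0, 0, 0, ⟨0, 0⟩, 0⟩, 0, 0⟩ 0 0) (.cut .v 16515072 (.pos 39 .mm ⟨⟨0, 0, 0, 0, 0, 116276294, 0, 0, 0, ⟨0, 0⟩, 0⟩, 0, 0⟩ 0 0) (.cut .v 16646144 (.pos 47 .mm ⟨⟨0, 0, 0, 0, 0, 132138902, 0, 0, 0, ⟨0, 0⟩, 0⟩, 0, 0⟩ 0 0) (.cut .v 16711680 (.pos 49 .mm ⟨⟨0, 0, 0, 0, 0, 137351837, 0, 0, 0, ⟨0, 0⟩, 0⟩, 0, 0⟩ 0 0) (.cut .v 16744448 (.pos 63 .mm ⟨⟨0, 0, 0, 0, 0, 139976557, 0, 0, 0, ⟨0, 0⟩, 0⟩, 0, 0⟩ 0 0) (.cut .s 9830400 (.cut .s 9699328 (.pos 64 .mm ⟨⟨0, 0, 0, 0, 0, 126929201, 0, 0, 0, ⟨0, 0⟩, 0⟩, 0, 0⟩ 0 0) (.pos 64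 .mm ⟨⟨0, 0, 0, 0, 0, 137603545, 0, 0, 0, ⟨0, 0⟩, 0⟩, 0, 0⟩ 0 0)) (.cut .s 9961472 (.pos 64 .mm ⟨⟨0, 0, 0, 0, 0, 149675469, 0, 0, 0, ⟨0, 0⟩, 0⟩, 0, 0⟩ 0 0) (.pos 64 .mm ⟨⟨0, 0, 0, 0, 0, 163193293, 0, 0, 0, ⟨0, 0⟩, 0⟩, 0, 0⟩ 0 0)))))))))))))))))))))) (.cut .v 67108864 (.cut .v 33554432 (.cut .v 25165824 (.cut .d (-8388608) (.void 23 ⟨⟨0, 0, 0, 0, 0, 100000, 0, 0, 0, ⟨0, 0⟩, 0⟩, 0, 0⟩ 0 0) (.cut .v 20971520 (.cut .d (-4194304) (.void 25 ⟨⟨0, 0, 0, 0, 0, 100000, 0, 0, 0, ⟨0, 0⟩, 0⟩, 0, 0⟩ 0 0) (.cut .v 18874368 (.cut .d (-2097152) (.void 27 ⟨⟨100000, 0, 0, 0, 0, 0, 0, 0, 0, ⟨0, 0⟩, 0⟩, 0, 0⟩ 0 0) (.cut .v 17825792 (.cut .d (-1048576)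 (.void 29 ⟨⟨100000, 0, 0, 0, 0, 0, 0, 0, 0, ⟨0, 0⟩, 0⟩, 0, 0⟩ 0 0) (.cut .d (-524288) (.void 29 ⟨⟨100000, 0, 0, 0, 0, 0, 0, 0, 0, ⟨0, 0⟩, 0⟩, 0, 0⟩ 0 0) (.cut .d (-262144) (.void 29 ⟨⟨100000, 0, 0, 0, 0, 0, 0, 0, 0, ⟨0, 0⟩, 0⟩, 0, 0⟩ 0 0) (.cut .d (-131072) (.void 29 ⟨⟨100000, 0, 0, 0, 0, 0, 0, 0, 0, ⟨0, 0⟩, 0⟩, 0, 0⟩ 0 0) (.cut .d (-65536) (.void 29 ⟨⟨100000, 0, 0, 0, 0, 0, 0, 0, 0, ⟨0, 0⟩, 0⟩, 0, 0⟩ 0 0) (.cut .d (-32768) (.void 29 ⟨⟨0, 0, 0, 0, 0, 100000, 0, 0, 0, ⟨0, 0⟩, 0⟩, 0, 0⟩ 0 0) (.cut .v 17301504 (.cut .v 17039360 (.cut .v 16908288 (.cut .s 9830400 (.cut .v 16842752 (.cut .d (-16384) (.cut .d (-24576) (.void 41 ⟨⟨0,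 0, 0, 0, 0, 100000, 0, 0, 0, ⟨0, 0⟩, 0⟩, 0, 0⟩ 0 0) (.cut .d (-20480) (.pos 41 .mp ⟨⟨58398897, 0, 0, 0, 0, 111226908, 0, 0, 0, ⟨0, 0⟩, 0⟩, 0, 0⟩ 0 0) (.cut .l 102527 (.void 41 ⟨⟨0, 0, 0, 0, 0, 100000, 0, 0, 0, ⟨0, 0⟩, 0⟩, 0, 0⟩ 0 0) (.cut .l 153791 (.void 41 ⟨⟨0, 0, 0, 0, 0, 100000, 0, 0, 0, ⟨0, 0⟩, 0⟩, 0, 0⟩ 0 0) (.cut .s 9699328 (.cut .s 9633792 (.pos 41 .mp ⟨⟨59267609, 0, 0, 0, 0, 50499928, 0, 0, 0, ⟨0, 0⟩, 0⟩, 0, 0⟩ 0 0) (.pos 41 .mp ⟨⟨61612173, 0, 0, 0, 0, 52572800, 0, 0, 0, ⟨0, 0⟩, 0⟩, 0, 0⟩ 0 0)) (.cut .s 9764864 (.cut .s 9732096 (.pos 41 .mp ⟨⟨64075894, 0, 0, 0, 0, 52195681, 0, 0, 0, ⟨0, 0⟩, 0⟩, 0, 0⟩ 0 0) (.pos 41 .mp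 ⟨⟨65400020, 0, 0, 0, 0, 53188101, 0, 0, 0, ⟨0, 0⟩, 0⟩, 0, 0⟩ 0 0)) (.cut .s 9797632 (.pos 41 .mp ⟨⟨66767805, 0, 0, 0, 0, 54182274, 0, 0, 0, ⟨0, 0⟩, 0⟩, 0, 0⟩ 0 0) (.pos 41 .mp ⟨⟨68180596, 0, 0, 0, 0, 55175483, 0, 0, 0, ⟨0, 0⟩, 0⟩, 0, 0⟩ 0 0)))))))) (.cut .s 9699328 (.cut .v 16809984 (.cut .s 9633792 (.cut .s 9601024 (.cut .s 9584640 (.pos 43 .mp ⟨⟨60305723, 0, 0, 0, 0, 45397723, 0, 0, 0, ⟨0, 0⟩, 0⟩, 0, 0⟩ 0 0) (.pos 43 .mp ⟨⟨60626620, 0, 0, 0, 0, 46100082, 0, 0, 0, ⟨0, 0⟩, 0⟩, 0, 0⟩ 0 0)) (.cut .s 9617408 (.pos 43 .mp ⟨⟨61141329, 0, 0, 0, 0, 46579876, 0, 0, 0, ⟨0, 0⟩, 0⟩, 0, 0⟩ 0 0) (.cut .s 9625600 (.pos 43 .mp ⟨⟨62422348, 0,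 0, 0, 0, 45868462, 0, 0, 0, ⟨0, 0⟩, 0⟩, 0, 0⟩ 0 0) (.pos 43 .mp ⟨⟨62632331, 0, 0, 0, 0, 46177258, 0, 0, 0, ⟨0, 0⟩, 0⟩, 0, 0⟩ 0 0)))) (.cut .s 9666560 (.cut .l 102527 (.cut .d (-8192) (.pos 43 .mp ⟨⟨60750901, 0, 0, 0, 0, 52256236, 0, 0, 0, ⟨0, 0⟩, 0⟩, 0, 0⟩ 0 0) (.cut .s 9650176 (.pos 43 .mp ⟨⟨62023635, 0, 0, 0, 0, 47752949, 0, 0, 0, ⟨0, 0⟩, 0⟩, 0, 0⟩ 0 0) (.cut .s 9658368 (.pos 43 .mp ⟨⟨62739719, 0, 0, 0, 0, 47822461, 0, 0, 0, ⟨0, 0⟩, 0⟩, 0, 0⟩ 0 0) (.pos 43 .mp ⟨⟨63005676, 0, 0, 0, 0, 48077887, 0, 0, 0, ⟨0, 0⟩, 0⟩, 0, 0⟩ 0 0)))) (.pos 43 .mp ⟨⟨62544132, 0, 0, 0, 0, 46884399, 0, 0, 0, ⟨0, 0⟩, 0⟩, 0, 0⟩ 0 0)) (.cut .s 9682944 (.cut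 .s 9674752 (.pos 43 .mp ⟨⟨63724975, 0, 0, 0, 0, 47743654, 0, 0, 0, ⟨0, 0⟩, 0⟩, 0, 0⟩ 0 0) (.pos 43 .mp ⟨⟨63938524, 0, 0, 0, 0, 48081312, 0, 0, 0, ⟨0, 0⟩, 0⟩, 0, 0⟩ 0 0)) (.cut .s 9691136 (.pos 43 .mp ⟨⟨64239126, 0, 0, 0, 0, 48311938, 0, 0, 0, ⟨0, 0⟩, 0⟩, 0, 0⟩ 0 0) (.pos 43 .mp ⟨⟨64592338, 0, 0, 0, 0, 48479575, 0, 0, 0, ⟨0, 0⟩, 0⟩, 0, 0⟩ 0 0))))) (.pos 44 .mp ⟨⟨99413051, 0, 0, 0, 0, 0, 0, 0, 0, ⟨0, 0⟩, 0⟩, 0, 0⟩ 0 0)) (.cut .v 16809984 (.cut .s 9764864 (.cut .s 9732096 (.cut .s 9715712 (.cut .s 9707520 (.pos 43 .mp ⟨⟨64947373, 0, 0, 0, 0, 48649389, 0, 0, 0, ⟨0, 0⟩, 0⟩, 0, 0⟩ 0 0) (.pos 43 .mp ⟨⟨65304235, 0, 0, 0, 0, 48821375,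 0, 0, 0, ⟨0, 0⟩, 0⟩, 0, 0⟩ 0 0)) (.cut .l 102527 (.cut .d (-8192) (.pos 43 .mp ⟨⟨64132954, 0, 0, 0, 0, 52740357, 0, 0, 0, ⟨0, 0⟩, 0⟩, 0, 0⟩ 0 0) (.cut .s 9723904 (.pos 43 .mp ⟨⟨65121570, 0, 0, 0, 0, 49668174, 0, 0, 0, ⟨0, 0⟩, 0⟩, 0, 0⟩ 0 0) (.pos 43 .mp ⟨⟨65507428, 0, 0, 0, 0, 49805001, 0, 0, 0, ⟨0, 0⟩, 0⟩, 0, 0⟩ 0 0))) (.pos 43 .mp ⟨⟨65353650, 0, 0, 0, 0, 49185135, 0, 0, 0, ⟨0, 0⟩, 0⟩, 0, 0⟩ 0 0))) (.cut .s 9748480 (.cut .l 102527 (.cut .d (-8192) (.pos 43 .mp ⟨⟨64837986, 0, 0, 0, 0, 53108520, 0, 0, 0, ⟨0, 0⟩, 0⟩, 0, 0⟩ 0 0) (.cut .s 9740288 (.pos 43 .mp ⟨⟨65865674, 0, 0, 0, 0, 49989065, 0, 0, 0, ⟨0, 0⟩, 0⟩, 0, 0⟩ 0 0) (.pos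 43 .mp ⟨⟨66225736, 0, 0, 0, 0, 50175324, 0, 0, 0, ⟨0, 0⟩, 0⟩, 0, 0⟩ 0 0))) (.pos 43 .mp ⟨⟨66074113, 0, 0, 0, 0, 49585777, 0, 0, 0, ⟨0, 0⟩, 0⟩, 0, 0⟩ 0 0)) (.cut .l 102527 (.cut .d (-8192) (.pos 43 .mp ⟨⟨65550159, 0, 0, 0, 0, 53489019, 0, 0, 0, ⟨0, 0⟩, 0⟩, 0, 0⟩ 0 0) (.cut .s 9756672 (.pos 43 .mp ⟨⟨66587618, 0, 0, 0, 0, 50363773, 0, 0, 0, ⟨0, 0⟩, 0⟩, 0, 0⟩ 0 0) (.cut .s 9760768 (.pos 43 .mp ⟨⟨66811116, 0, 0, 0, 0, 50622877, 0, 0, 0, ⟨0, 0⟩, 0⟩, 0, 0⟩ 0 0) (.pos 43 .mp ⟨⟨66971185, 0, 0, 0, 0, 50745935, 0, 0, 0, ⟨0, 0⟩, 0⟩, 0, 0⟩ 0 0)))) (.pos 43 .mp ⟨⟨66801896, 0, 0, 0, 0, 49990810, 0, 0, 0, ⟨0, 0⟩, 0⟩, 0, 0⟩ 0 0)))) (.cut .s 9797632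 (.cut .s 9781248 (.cut .l 102527 (.cut .d (-8192) (.pos 43 .mp ⟨⟨66269515, 0, 0, 0, 0, 53881962, 0, 0, 0, ⟨0, 0⟩, 0⟩, 0, 0⟩ 0 0) (.cut .v 16793600 (.cut .l 51263 (.cut .d (-4096) (.pos 51 .mp ⟨⟨66204465, 0, 0, 0, 0, 53818891, 0, 0, 0, ⟨0, 0⟩, 0⟩, 0, 0⟩ 0 0) (.cut .s 9773056 (.pos 51 .mp ⟨⟨66900588, 0, 0, 0, 0, 51270814, 0, 0, 0, ⟨0, 0⟩, 0⟩, 0, 0⟩ 0 0) (.pos 51 .mp ⟨⟨67272444, 0, 0, 0, 0, 51458492, 0, 0, 0, ⟨0, 0⟩, 0⟩, 0, 0⟩ 0 0))) (.pos 51 .mp ⟨⟨67198778, 0, 0, 0, 0, 50723338, 0, 0, 0, ⟨0, 0⟩, 0⟩, 0, 0⟩ 0 0)) (.pos 52 .mp ⟨⟨104545594, 0, 0, 0, 0, 0, 0, 0, 0, ⟨0, 0⟩, 0⟩, 0, 0⟩ 0 0))) (.pos 43 .mp ⟨⟨67537044, 0, 0, 0, 0, 50400062,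 0, 0, 0, ⟨0, 0⟩, 0⟩, 0, 0⟩ 0 0)) (.cut .s 9789440 (.cut .s 9785344 (.pos 43 .mp ⟨⟨68412122, 0, 0, 0, 0, 50561001, 0, 0, 0, ⟨0, 0⟩, 0⟩, 0, 0⟩ 0 0) (.pos 43 .mp ⟨⟨68599136, 0, 0, 0, 0, 50657609, 0, 0, 0, ⟨0, 0⟩, 0⟩, 0, 0⟩ 0 0)) (.cut .s 9793536 (.pos 43 .mp ⟨⟨68786620, 0, 0, 0, 0, 50754745, 0, 0, 0, ⟨0, 0⟩, 0⟩, 0, 0⟩ 0 0) (.pos 43 .mp ⟨⟨68974576, 0, 0, 0, 0, 50852408, 0, 0, 0, ⟨0, 0⟩, 0⟩, 0, 0⟩ 0 0)))) (.cut .s 9814016 (.cut .s 9805824 (.cut .s 9801728 (.pos 43 .mp ⟨⟨69163004, 0, 0, 0, 0, 50950597, 0, 0, 0, ⟨0, 0⟩, 0⟩, 0, 0⟩ 0 0) (.cut .s 9803776 (.pos 43 .mp ⟨⟨69257396, 0, 0, 0, 0, 51097244, 0, 0, 0, ⟨0, 0⟩, 0⟩, 0, 0⟩ 0 0) (.pos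 43 .mp ⟨⟨69351905, 0, 0, 0, 0, 51146847, 0, 0, 0, ⟨0, 0⟩, 0⟩, 0, 0⟩ 0 0))) (.cut .d (-8192) (.pos 43 .mp ⟨⟨68409746, 0, 0, 0, 0, 53175405, 0, 0, 0, ⟨0, 0⟩, 0⟩, 0, 0⟩ 0 0) (.cut .s 9809920 (.pos 43 .mp ⟨⟨68905619, 0, 0, 0, 0, 51984575, 0, 0, 0, ⟨0, 0⟩, 0⟩, 0, 0⟩ 0 0) (.pos 43 .mp ⟨⟨69102003, 0, 0, 0, 0, 52072893, 0, 0, 0, ⟨0, 0⟩, 0⟩, 0, 0⟩ 0 0)))) (.cut .s 9822208 (.cut .d (-8192) (.pos 43 .mp ⟨⟨68743648, 0, 0, 0, 0, 53444707, 0, 0, 0, ⟨0, 0⟩, 0⟩, 0, 0⟩ 0 0) (.cut .s 9818112 (.pos 43 .mp ⟨⟨69298342, 0, 0, 0, 0, 52162591, 0, 0, 0, ⟨0, 0⟩, 0⟩, 0, 0⟩ 0 0) (.pos 43 .mp ⟨⟨69494631, 0, 0, 0, 0, 52253678, 0, 0, 0, ⟨0, 0⟩, 0⟩, 0, 0⟩ 0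 0))) (.cut .l 102527 (.cut .d (-8192) (.pos 43 .mp ⟨⟨68844464, 0, 0, 0, 0, 54622919, 0, 0, 0, ⟨0, 0⟩, 0⟩, 0, 0⟩ 0 0) (.cut .s 9826304 (.pos 43 .mp ⟨⟨69723460, 0, 0, 0, 0, 52273625, 0, 0, 0, ⟨0, 0⟩, 0⟩, 0, 0⟩ 0 0) (.pos 43 .mp ⟨⟨69918551, 0, 0, 0, 0, 52369939, 0, 0, 0, ⟨0, 0⟩, 0⟩, 0, 0⟩ 0 0))) (.pos 43 .mp ⟨⟨69787118, 0, 0, 0, 0, 52081339, 0, 0, 0, ⟨0, 0⟩, 0⟩, 0, 0⟩ 0 0)))))) (.pos 44 .mp ⟨⟨106804341, 0, 0, 0, 0, 0, 0, 0, 0, ⟨0, 0⟩, 0⟩, 0, 0⟩ 0 0)))) (.pos 42 .mp ⟨⟨107874836, 0, 0, 0, 0, 0, 0, 0, 0, ⟨0, 0⟩, 0⟩, 0, 0⟩ 0 0)) (.cut .v 16842752 (.cut .d (-16384) (.cut .d (-24576) (.void 41 ⟨⟨0, 0, 0, 0, 0, 100000, 0, 0, 0, ⟨0, 0⟩,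 0⟩, 0, 0⟩ 0 0) (.cut .d (-20480) (.void 41 ⟨⟨0, 0, 0, 0, 0, 100000, 0, 0, 0, ⟨0, 0⟩, 0⟩, 0, 0⟩ 0 0) (.cut .l 102527 (.void 41 ⟨⟨0, 0, 0, 0, 0, 100000, 0, 0, 0, ⟨0, 0⟩, 0⟩, 0, 0⟩ 0 0) (.cut .l 153791 (.void 41 ⟨⟨0, 0, 0, 0, 0, 100000, 0, 0, 0, ⟨0, 0⟩, 0⟩, 0, 0⟩ 0 0) (.cut .s 9961472 (.cut .s 9895936 (.cut .d (-18432) (.pos 41 .mp ⟨⟨70441770, 0, 0, 0, 0, 58868402, 0, 0, 0, ⟨0, 0⟩, 0⟩, 0, 0⟩ 0 0) (.cut .v 16809984 (.cut .s 9863168 (.pos 43 .mp ⟨⟨69079965, 0, 0, 0, 0, 55985615, 0, 0, 0, ⟨0, 0⟩, 0⟩, 0, 0⟩ 0 0) (.pos 43 .mp ⟨⟨70604084, 0, 0, 0, 0, 56893584, 0, 0, 0, ⟨0, 0⟩, 0⟩, 0, 0⟩ 0 0)) (.pos 44 .mp ⟨⟨93397189, 0, 0, 0, 0, 25337809,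 0, 0, 0, ⟨0, 0⟩, 0⟩, 0, 0⟩ 0 0))) (.cut .s 9928704 (.pos 41 .mp ⟨⟨72702600, 0, 0, 0, 0, 58121807, 0, 0, 0, ⟨0, 0⟩, 0⟩, 0, 0⟩ 0 0) (.pos 41 .mp ⟨⟨74309047, 0, 0, 0, 0, 59083531, 0, 0, 0, ⟨0, 0⟩, 0⟩, 0, 0⟩ 0 0))) (.cut .s 10027008 (.cut .s 9994240 (.pos 41 .mp ⟨⟨75673256, 0, 0, 0, 0, 60964151, 0, 0, 0, ⟨0, 0⟩, 0⟩, 0, 0⟩ 0 0) (.pos 41 .mp ⟨⟨77326320, 0, 0, 0, 0, 62081891, 0, 0, 0, ⟨0, 0⟩, 0⟩, 0, 0⟩ 0 0)) (.pos 41 .mp ⟨⟨79011177, 0, 0, 0, 0, 66160135, 0, 0, 0, ⟨0, 0⟩, 0⟩, 0, 0⟩ 0 0))))))) (.cut .s 9961472 (.cut .s 9895936 (.cut .v 16809984 (.cut .s 9863168 (.cut .s 9846784 (.cut .s 9838592 (.cut .l 102527 (.cut .d (-8192) (.pos 43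 .mp ⟨⟨69219651, 0, 0, 0, 0, 54841210, 0, 0, 0, ⟨0, 0⟩, 0⟩, 0, 0⟩ 0 0) (.cut .s 9834496 (.pos 43 .mp ⟨⟨70113670, 0, 0, 0, 0, 52467461, 0, 0, 0, ⟨0, 0⟩, 0⟩, 0, 0⟩ 0 0) (.pos 43 .mp ⟨⟨70307804, 0, 0, 0, 0, 52567754, 0, 0, 0, ⟨0, 0⟩, 0⟩, 0, 0⟩ 0 0))) (.pos 43 .mp ⟨⟨70168699, 0, 0, 0, 0, 52295700, 0, 0, 0, ⟨0, 0⟩, 0⟩, 0, 0⟩ 0 0)) (.cut .l 102527 (.cut .d (-8192) (.pos 43 .mp ⟨⟨69596690, 0, 0, 0, 0, 55062739, 0, 0, 0, ⟨0, 0⟩, 0⟩, 0, 0⟩ 0 0) (.cut .s 9842688 (.pos 43 .mp ⟨⟨70498707, 0, 0, 0, 0, 52674279, 0, 0, 0, ⟨0, 0⟩, 0⟩, 0, 0⟩ 0 0) (.pos 43 .mp ⟨⟨70690082, 0, 0, 0, 0, 52781334, 0, 0, 0, ⟨0, 0⟩, 0⟩, 0, 0⟩ 0 0))) (.pos 43 .mp ⟨⟨70552172,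 0, 0, 0, 0, 52510918, 0, 0, 0, ⟨0, 0⟩, 0⟩, 0, 0⟩ 0 0))) (.cut .s 9854976 (.cut .l 102527 (.cut .d (-8192) (.pos 43 .mp ⟨⟨69975585, 0, 0, 0, 0, 55287522, 0, 0, 0, ⟨0, 0⟩, 0⟩, 0, 0⟩ 0 0) (.cut .s 9850880 (.pos 43 .mp ⟨⟨70881929, 0, 0, 0, 0, 52888918, 0, 0, 0, ⟨0, 0⟩, 0⟩, 0, 0⟩ 0 0) (.pos 43 .mp ⟨⟨71074249, 0, 0, 0, 0, 52997030, 0, 0, 0, ⟨0, 0⟩, 0⟩, 0, 0⟩ 0 0))) (.pos 43 .mp ⟨⟨70937543, 0, 0, 0, 0, 52726971, 0, 0, 0, ⟨0, 0⟩, 0⟩, 0, 0⟩ 0 0)) (.cut .l 102527 (.cut .d (-8192) (.pos 43 .mp ⟨⟨70356343, 0, 0, 0, 0, 55515572, 0, 0, 0, ⟨0, 0⟩, 0⟩, 0, 0⟩ 0 0) (.cut .s 9859072 (.pos 43 .mp ⟨⟨71267042, 0, 0, 0, 0, 53105670, 0, 0, 0, ⟨0, 0⟩,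 0⟩, 0, 0⟩ 0 0) (.pos 43 .mp ⟨⟨71460310, 0, 0, 0, 0, 53214836, 0, 0, 0, ⟨0, 0⟩, 0⟩, 0, 0⟩ 0 0))) (.pos 43 .mp ⟨⟨71324817, 0, 0, 0, 0, 52943838, 0, 0, 0, ⟨0, 0⟩, 0⟩, 0, 0⟩ 0 0)))) (.cut .s 9879552 (.cut .s 9871360 (.cut .l 102527 (.cut .d (-8192) (.pos 43 .mp ⟨⟨70738969, 0, 0, 0, 0, 55746903, 0, 0, 0, ⟨0, 0⟩, 0⟩, 0, 0⟩ 0 0) (.cut .s 9867264 (.pos 43 .mp ⟨⟨71654052, 0, 0, 0, 0, 53324529, 0, 0, 0, ⟨0, 0⟩, 0⟩, 0, 0⟩ 0 0) (.pos 43 .mp ⟨⟨71848271, 0, 0, 0, 0, 53434746, 0, 0, 0, ⟨0, 0⟩, 0⟩, 0, 0⟩ 0 0))) (.pos 43 .mp ⟨⟨71714001, 0, 0, 0, 0, 53161495, 0, 0, 0, ⟨0, 0⟩, 0⟩, 0, 0⟩ 0 0)) (.cut .l 102527 (.cut .d (-8192) (.pos 43 .mp ⟨⟨71123469,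 0, 0, 0, 0, 55981530, 0, 0, 0, ⟨0, 0⟩, 0⟩, 0, 0⟩ 0 0) (.cut .s 9875456 (.pos 43 .mp ⟨⟨72042966, 0, 0, 0, 0, 53545487, 0, 0, 0, ⟨0, 0⟩, 0⟩, 0, 0⟩ 0 0) (.pos 43 .mp ⟨⟨72238137, 0, 0, 0, 0, 53656751, 0, 0, 0, ⟨0, 0⟩, 0⟩, 0, 0⟩ 0 0))) (.pos 43 .mp ⟨⟨72105100, 0, 0, 0, 0, 53379922, 0, 0, 0, ⟨0, 0⟩, 0⟩, 0, 0⟩ 0 0))) (.cut .s 9887744 (.cut .l 102527 (.cut .d (-8192) (.pos 43 .mp ⟨⟨71509848, 0, 0, 0, 0, 56219467, 0, 0, 0, ⟨0, 0⟩, 0⟩, 0, 0⟩ 0 0) (.cut .s 9883648 (.pos 43 .mp ⟨⟨72433787, 0, 0, 0, 0, 53768538, 0, 0, 0, ⟨0, 0⟩, 0⟩, 0, 0⟩ 0 0) (.pos 43 .mp ⟨⟨72629916, 0, 0, 0, 0, 53880846, 0, 0, 0, ⟨0, 0⟩, 0⟩, 0, 0⟩ 0 0))) (.pos 43 .mp ⟨⟨72498121,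 0, 0, 0, 0, 53599096, 0, 0, 0, ⟨0, 0⟩, 0⟩, 0, 0⟩ 0 0)) (.cut .l 102527 (.cut .d (-8192) (.pos 43 .mp ⟨⟨71898114, 0, 0, 0, 0, 56460728, 0, 0, 0, ⟨0, 0⟩, 0⟩, 0, 0⟩ 0 0) (.cut .s 9891840 (.pos 43 .mp ⟨⟨72826524, 0, 0, 0, 0, 53993675, 0, 0, 0, ⟨0, 0⟩, 0⟩, 0, 0⟩ 0 0) (.pos 43 .mp ⟨⟨73023612, 0, 0, 0, 0, 54107024, 0, 0, 0, ⟨0, 0⟩, 0⟩, 0, 0⟩ 0 0))) (.pos 43 .mp ⟨⟨72893069, 0, 0, 0, 0, 53818995, 0, 0, 0, ⟨0, 0⟩, 0⟩, 0, 0⟩ 0 0))))) (.pos 44 .mp ⟨⟨111369357, 0, 0, 0, 0, 0, 0, 0, 0, ⟨0, 0⟩, 0⟩, 0, 0⟩ 0 0)) (.cut .v 16809984 (.cut .s 9928704 (.cut .s 9912320 (.cut .s 9904128 (.cut .l 102527 (.cut .d (-8192) (.pos 43 .mp ⟨⟨72288271, 0, 0,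 0, 0, 56705328, 0, 0, 0, ⟨0, 0⟩, 0⟩, 0, 0⟩ 0 0) (.cut .s 9900032 (.pos 43 .mp ⟨⟨73221181, 0, 0, 0, 0, 54220891, 0, 0, 0, ⟨0, 0⟩, 0⟩, 0, 0⟩ 0 0) (.pos 43 .mp ⟨⟨73419231, 0, 0, 0, 0, 54335276, 0, 0, 0, ⟨0, 0⟩, 0⟩, 0, 0⟩ 0 0))) (.pos 43 .mp ⟨⟨73289950, 0, 0, 0, 0, 54039597, 0, 0, 0, ⟨0, 0⟩, 0⟩, 0, 0⟩ 0 0)) (.cut .l 102527 (.cut .d (-8192) (.pos 43 .mp ⟨⟨72680325, 0, 0, 0, 0, 56953281, 0, 0, 0, ⟨0, 0⟩, 0⟩, 0, 0⟩ 0 0) (.cut .s 9908224 (.pos 43 .mp ⟨⟨73617764, 0, 0, 0, 0, 54450178, 0, 0, 0, ⟨0, 0⟩, 0⟩, 0, 0⟩ 0 0) (.pos 43 .mp ⟨⟨73816780, 0, 0, 0, 0, 54565597, 0, 0, 0, ⟨0, 0⟩, 0⟩, 0, 0⟩ 0 0))) (.pos 43 .mp ⟨⟨73688770, 0, 0, 0, 0, 54260881,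 0, 0, 0, ⟨0, 0⟩, 0⟩, 0, 0⟩ 0 0))) (.cut .s 9920512 (.cut .l 102527 (.cut .d (-8192) (.pos 43 .mp ⟨⟨73074282, 0, 0, 0, 0, 57204603, 0, 0, 0, ⟨0, 0⟩, 0⟩, 0, 0⟩ 0 0) (.cut .s 9916416 (.pos 43 .mp ⟨⟨74016280, 0, 0, 0, 0, 54681530, 0, 0, 0, ⟨0, 0⟩, 0⟩, 0, 0⟩ 0 0) (.pos 43 .mp ⟨⟨74211357, 0, 0, 0, 0, 54805576, 0, 0, 0, ⟨0, 0⟩, 0⟩, 0, 0⟩ 0 0))) (.pos 43 .mp ⟨⟨74089536, 0, 0, 0, 0, 54482824, 0, 0, 0, ⟨0, 0⟩, 0⟩, 0, 0⟩ 0 0)) (.cut .d (-8192) (.pos 43 .mp ⟨⟨73724276, 0, 0, 0, 0, 56476706, 0, 0, 0, ⟨0, 0⟩, 0⟩, 0, 0⟩ 0 0) (.cut .s 9924608 (.pos 43 .mp ⟨⟨74371375, 0, 0, 0, 0, 55008403, 0, 0, 0, ⟨0, 0⟩, 0⟩, 0, 0⟩ 0 0) (.pos 43 .mp ⟨⟨74564642,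 0, 0, 0, 0, 55138776, 0, 0, 0, ⟨0, 0⟩, 0⟩, 0, 0⟩ 0 0))))) (.cut .s 9945088 (.cut .s 9936896 (.cut .d (-8192) (.pos 43 .mp ⟨⟨74159444, 0, 0, 0, 0, 56669477, 0, 0, 0, ⟨0, 0⟩, 0⟩, 0, 0⟩ 0 0) (.cut .s 9932800 (.pos 43 .mp ⟨⟨74757725, 0, 0, 0, 0, 55270787, 0, 0, 0, ⟨0, 0⟩, 0⟩, 0, 0⟩ 0 0) (.pos 43 .mp ⟨⟨74950618, 0, 0, 0, 0, 55404446, 0, 0, 0, ⟨0, 0⟩, 0⟩, 0, 0⟩ 0 0))) (.cut .d (-8192) (.pos 43 .mp ⟨⟨74602453, 0, 0, 0, 0, 56855831, 0, 0, 0, ⟨0, 0⟩, 0⟩, 0, 0⟩ 0 0) (.cut .s 9940992 (.pos 43 .mp ⟨⟨75143316, 0, 0, 0, 0, 55539763, 0, 0, 0, ⟨0, 0⟩, 0⟩, 0, 0⟩ 0 0) (.pos 43 .mp ⟨⟨75335813, 0, 0, 0, 0, 55676748, 0, 0, 0, ⟨0, 0⟩, 0⟩, 0, 0⟩ 0 0))))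 (.cut .s 9953280 (.cut .s 9949184 (.cut .s 9947136 (.pos 43 .mp ⟨⟨76164047, 0, 0, 0, 0, 54880682, 0, 0, 0, ⟨0, 0⟩, 0⟩, 0, 0⟩ 0 0) (.pos 43 .mp ⟨⟨76267069, 0, 0, 0, 0, 54939213, 0, 0, 0, ⟨0, 0⟩, 0⟩, 0, 0⟩ 0 0)) (.pos 43 .mp ⟨⟨76473486, 0, 0, 0, 0, 54945939, 0, 0, 0, ⟨0, 0⟩, 0⟩, 0, 0⟩ 0 0)) (.cut .s 9957376 (.pos 43 .mp ⟨⟨76680405, 0, 0, 0, 0, 55063493, 0, 0, 0, ⟨0, 0⟩, 0⟩, 0, 0⟩ 0 0) (.pos 43 .mp ⟨⟨76887825, 0, 0, 0, 0, 55181538, 0, 0, 0, ⟨0, 0⟩, 0⟩, 0, 0⟩ 0 0))))) (.pos 44 .mp ⟨⟨115715464, 0, 0, 0, 0, 0, 0, 0, 0, ⟨0, 0⟩, 0⟩, 0, 0⟩ 0 0))) (.cut .s 10027008 (.cut .v 16809984 (.cut .s 9994240 (.cut .s 9977856 (.cut .s 9969664 (.cut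 .s 9965568 (.pos 43 .mp ⟨⟨77095747, 0, 0, 0, 0, 55300073, 0, 0, 0, ⟨0, 0⟩, 0⟩, 0, 0⟩ 0 0) (.pos 43 .mp ⟨⟨77304172, 0, 0, 0, 0, 55419098, 0, 0, 0, ⟨0, 0⟩, 0⟩, 0, 0⟩ 0 0)) (.cut .s 9973760 (.pos 43 .mp ⟨⟨77513101, 0, 0, 0, 0, 55538612, 0, 0, 0, ⟨0, 0⟩, 0⟩, 0, 0⟩ 0 0) (.pos 43 .mp ⟨⟨77722535, 0, 0, 0, 0, 55658613, 0, 0, 0, ⟨0, 0⟩, 0⟩, 0, 0⟩ 0 0))) (.cut .l 102527 (.cut .d (-8192) (.pos 43 .mp ⟨⟨76295175, 0, 0, 0, 0, 60173148, 0, 0, 0, ⟨0, 0⟩, 0⟩, 0, 0⟩ 0 0) (.cut .v 16793600 (.cut .l 51263 (.cut .d (-4096) (.pos 51 .mp ⟨⟨76195465, 0, 0, 0, 0, 60137353, 0, 0, 0, ⟨0, 0⟩, 0⟩, 0, 0⟩ 0 0) (.cut .s 9986048 (.pos 51 .mp ⟨⟨76992350, 0, 0,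 0, 0, 57128918, 0, 0, 0, ⟨0, 0⟩, 0⟩, 0, 0⟩ 0 0) (.pos 51 .mp ⟨⟨77377555, 0, 0, 0, 0, 57427190, 0, 0, 0, ⟨0, 0⟩, 0⟩, 0, 0⟩ 0 0))) (.pos 51 .mp ⟨⟨77349493, 0, 0, 0, 0, 56464294, 0, 0, 0, ⟨0, 0⟩, 0⟩, 0, 0⟩ 0 0)) (.pos 52 .mp ⟨⟨118300903, 0, 0, 0, 0, 0, 0, 0, 0, ⟨0, 0⟩, 0⟩, 0, 0⟩ 0 0))) (.pos 43 .mp ⟨⟨77784974, 0, 0, 0, 0, 56024837, 0, 0, 0, ⟨0, 0⟩, 0⟩, 0, 0⟩ 0 0))) (.cut .s 10010624 (.cut .l 102527 (.cut .d (-8192) (.pos 43 .mp ⟨⟨77119853, 0, 0, 0, 0, 60752110, 0, 0, 0, ⟨0, 0⟩, 0⟩, 0, 0⟩ 0 0) (.cut .s 10002432 (.cut .s 9998336 (.pos 43 .mp ⟨⟨78168789, 0, 0, 0, 0, 57068446, 0, 0, 0, ⟨0, 0⟩, 0⟩, 0, 0⟩ 0 0) (.pos 43 .mp ⟨⟨78406095,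 0, 0, 0, 0, 57161152, 0, 0, 0, ⟨0, 0⟩, 0⟩, 0, 0⟩ 0 0)) (.pos 43 .mp ⟨⟨78740090, 0, 0, 0, 0, 57256629, 0, 0, 0, ⟨0, 0⟩, 0⟩, 0, 0⟩ 0 0))) (.pos 43 .mp ⟨⟨78628101, 0, 0, 0, 0, 56474771, 0, 0, 0, ⟨0, 0⟩, 0⟩, 0, 0⟩ 0 0)) (.cut .l 102527 (.cut .d (-8192) (.pos 43 .mp ⟨⟨77952411, 0, 0, 0, 0, 61345242, 0, 0, 0, ⟨0, 0⟩, 0⟩, 0, 0⟩ 0 0) (.cut .s 10018816 (.pos 43 .mp ⟨⟨79163281, 0, 0, 0, 0, 57511646, 0, 0, 0, ⟨0, 0⟩, 0⟩, 0, 0⟩ 0 0) (.pos 43 .mp ⟨⟨79588488, 0, 0, 0, 0, 57768622, 0, 0, 0, ⟨0, 0⟩, 0⟩, 0, 0⟩ 0 0))) (.pos 43 .mp ⟨⟨79479309, 0, 0, 0, 0, 56926282, 0, 0, 0, ⟨0, 0⟩, 0⟩, 0, 0⟩ 0 0)))) (.pos 44 .mp ⟨⟨120322292, 0, 0, 0, 0, 0, 0, 0,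 0, ⟨0, 0⟩, 0⟩, 0, 0⟩ 0 0)) (.cut .v 16809984 (.cut .s 10059776 (.cut .s 10043392 (.cut .l 102527 (.cut .d (-8192) (.pos 43 .mp ⟨⟨78792899, 0, 0, 0, 0, 61952670, 0, 0, 0, ⟨0, 0⟩, 0⟩, 0, 0⟩ 0 0) (.cut .s 10035200 (.pos 43 .mp ⟨⟨79997066, 0, 0, 0, 0, 58056603, 0, 0, 0, ⟨0, 0⟩, 0⟩, 0, 0⟩ 0 0) (.pos 43 .mp ⟨⟨80383623, 0, 0, 0, 0, 58384029, 0, 0, 0, ⟨0, 0⟩, 0⟩, 0, 0⟩ 0 0))) (.pos 43 .mp ⟨⟨80338649, 0, 0, 0, 0, 57379189, 0, 0, 0, ⟨0, 0⟩, 0⟩, 0, 0⟩ 0 0)) (.cut .s 10051584 (.pos 43 .mp ⟨⟨81579551, 0, 0, 0, 0, 57661962, 0, 0, 0, ⟨0, 0⟩, 0⟩, 0, 0⟩ 0 0) (.pos 43 .mp ⟨⟨82018422, 0, 0, 0, 0, 57919048, 0, 0, 0, ⟨0, 0⟩, 0⟩, 0, 0⟩ 0 0))) (.cut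 .s 10076160 (.cut .s 10067968 (.pos 43 .mp ⟨⟨82459381, 0, 0, 0, 0, 58177992, 0, 0, 0, ⟨0, 0⟩, 0⟩, 0, 0⟩ 0 0) (.pos 43 .mp ⟨⟨82902433, 0, 0, 0, 0, 58438788, 0, 0, 0, ⟨0, 0⟩, 0⟩, 0, 0⟩ 0 0)) (.cut .s 10084352 (.pos 43 .mp ⟨⟨83405903, 0, 0, 0, 0, 58624269, 0, 0, 0, ⟨0, 0⟩, 0⟩, 0, 0⟩ 0 0) (.pos 43 .mp ⟨⟨84031121, 0, 0, 0, 0, 58653100, 0, 0, 0, ⟨0, 0⟩, 0⟩, 0, 0⟩ 0 0)))) (.pos 44 .mp ⟨⟨125196023, 0, 0, 0, 0, 0, 0, 0, 0, ⟨0, 0⟩, 0⟩, 0, 0⟩ 0 0))))) (.pos 42 .mp ⟨⟨125037443, 0, 0, 0, 0, 0, 0, 0, 0, ⟨0, 0⟩, 0⟩, 0, 0⟩ 0 0))) (.pos 36 .mp ⟨⟨124705073, 0, 0, 0, 0, 0, 0, 0, 0, ⟨0, 0⟩, 0⟩, 0, 0⟩ 0 0)) (.void 34 ⟨⟨100000, 0, 0, 0, 0, 0, 0, 0,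 0, ⟨0, 0⟩, 0⟩, 0, 0⟩ 0 0)) (.void 32 ⟨⟨100000, 0, 0, 0, 0, 0, 0, 0, 0, ⟨0, 0⟩, 0⟩, 0, 0⟩ 0 0)))))))) (.void 30 ⟨⟨100000, 0, 0, 0, 0, 0, 0, 0, 0, ⟨0, 0⟩, 0⟩, 0, 0⟩ 0 0))) (.void 28 ⟨⟨100000, 0, 0, 0, 0, 0, 0, 0, 0, ⟨0, 0⟩, 0⟩, 0, 0⟩ 0 0))) (.void 26 ⟨⟨100000, 0, 0, 0, 0, 0, 0, 0, 0, ⟨0, 0⟩, 0⟩, 0, 0⟩ 0 0))) (.void 24 ⟨⟨100000, 0, 0, 0, 0, 0, 0, 0, 0, ⟨0, 0⟩, 0⟩, 0, 0⟩ 0 0)) (.void 105 ⟨⟨100000, 0, 0, 0, 0, 0, 0, 0, 0, ⟨0, 0⟩, 0⟩, 0, 0⟩ 0 0)) (.void 124 ⟨⟨100000, 0, 0, 0, 0, 0, 0, 0, 0, ⟨0, 0⟩, 0⟩, 0, 0⟩ 0 0))) (.cut .v 16777216 (.cut .v 8388608 (.cut .v 4194304 (.void 4 ⟨⟨0, 0, 66667, 0, 0, 0, 0, 0, 0, ⟨0, 0⟩, 0⟩, 0, 33333⟩ 0 0)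 (.pos 5 .pm ⟨⟨0, 0, 626958, 0, 0, 0, 0, 0, 0, ⟨0, 0⟩, 0⟩, 0, 0⟩ 0 0)) (.pos 3 .pm ⟨⟨0, 0, 0, 0, 0, 0, 0, 0, 0, ⟨0, 0⟩, 0⟩, 0, 0⟩ 0 0)) (.cut .v 67108864 (.cut .d 6320185 (.cut .v 33554432 (.cut .d 3160092 (.cut .v 25165824 (.cut .d 1580046 (.cut .d 790023 (.cut .v 20971520 (.cut .d 395011 (.cut .v 18874368 (.cut .s 9830400 (.pos 27 .pp ⟨⟨58751153, 0, 0, 0, 0, 0, 0, 0, 0, ⟨0, 0⟩, 0⟩, 3333204, 0⟩ 0 0) (.pos 27 .pp ⟨⟨76566838, 0, 0, 0, 0, 0, 0, 0, 0, ⟨0, 0⟩, 0⟩, 3143581, 0⟩ 0 0)) (.pos 28 .pp ⟨⟨137905532, 0, 0, 0, 0, 0, 0, 0, 0, ⟨0, 0⟩, 0⟩, 0, 0⟩ 0 0)) (.pos 25 .pp ⟨⟨73927826, 0, 0, 0, 0, 0, 0, 0, 0, ⟨0, 0⟩, 0⟩, 0, 190975⟩ 0 0))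 (.cut .d 395011 (.pos 26 .pp ⟨⟨210449345, 0, 0, 0, 0, 0, 0, 0, 0, ⟨0, 0⟩, 0⟩, 0, 0⟩ 0 0) (.pos 26 .pp ⟨⟨0, 0, 0, 0, 0, 0, 0, 0, 0, ⟨0, 0⟩, 0⟩, 11844337, 0⟩ 0 0))) (.pos 23 .pp ⟨⟨0, 0, 0, 0, 0, 0, 359897, 0, 0, ⟨0, 0⟩, 0⟩, 8033693, 0⟩ 0 0)) (.pos 23 .pp ⟨⟨0, 0, 0, 0, 0, 0, 0, 0, 0, ⟨0, 0⟩, 0⟩, 0, 538498⟩ 0 0)) (.cut .d 1580046 (.cut .d 790023 (.pos 24 .pp ⟨⟨0, 0, 0, 0, 0, 0, 0, 0, 0, ⟨0, 0⟩, 0⟩, 29174713, 0⟩ 0 0) (.pos 24 .pp ⟨⟨0, 0, 0, 0, 0, 0, 0, 0, 0, ⟨0, 0⟩, 0⟩, 14876932, 0⟩ 0 0)) (.pos 24 .pp ⟨⟨0, 0, 0, 0, 0, 0, 40704, 0, 0, ⟨0, 0⟩, 0⟩, 10658329, 0⟩ 0 0))) (.pos 22 .pp ⟨⟨0, 0, 0, 0, 0, 0, 0, 0, 0, ⟨0, 0⟩, 0⟩, 0, 598331⟩ 0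 0)) (.cut .v 50331648 (.cut .d 3160092 (.cut .d 1580046 (.void 112 ⟨⟨0, 0, 0, 0, 0, 0, 0, 0, 0, ⟨0, 0⟩, 0⟩, 100000, 0⟩ 0 0) (.pos 112 .pp ⟨⟨0, 0, 0, 0, 0, 0, 0, 0, 0, ⟨0, 0⟩, 0⟩, 20614612, 0⟩ 0 0)) (.pos 112 .pp ⟨⟨0, 0, 0, 0, 0, 0, 0, 0, 0, ⟨0, 0⟩, 0⟩, 12803555, 0⟩ 0 0)) (.cut .d 3160092 (.void 113 ⟨⟨0, 0, 0, 0, 0, 0, 0, 0, 0, ⟨0, 0⟩, 0⟩, 100000, 0⟩ 0 0) (.pos 113 .pp ⟨⟨0, 0, 0, 0, 0, 0, 156996410, 0, 0, ⟨0, 0⟩, 0⟩, 22286466, 0⟩ 0 0)))) (.pos 104 .pp ⟨⟨0, 0, 0, 0, 0, 0, 125628294, 0, 0, ⟨0, 0⟩, 0⟩, 0, 19925572⟩ 0 0)) (.void 124 ⟨⟨0, 92904, 0, 0, 0, 0, 0, 0, 0, ⟨0, 0⟩, 0⟩, 7096, 0⟩ 0 0)))),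
    by decide +kernel⟩

def covers13 : cell.Covers Vale.Agent.P237.Petty.Cor.Grid.N18.table row13.1 :=
  ⟨(.cut .d 0 (.cut .v 16777216 (.cut .d (-8388608) (.void 1 ⟨⟨0, 0, 0, 0, 0, 100000, 0, 0, 0, ⟨0, 0⟩, 0⟩, 0, 0⟩ 0 0) (.cut .d (-4194304) (.void 1 ⟨⟨0, 0, 0, 0, 0, 100000, 0, 0, 0, ⟨0, 0⟩, 0⟩, 0, 0⟩ 0 0) (.cut .d (-2097152) (.void 1 ⟨⟨0, 0, 0, 0, 0, 100000, 0, 0, 0, ⟨0, 0⟩, 0⟩, 0, 0⟩ 0 0) (.cut .d (-1048576) (.void 1 ⟨⟨0, 0, 0, 0, 0, 100000, 0, 0, 0, ⟨0, 0⟩, 0⟩, 0, 0⟩ 0 0) (.cut .d (-524288) (.void 1 ⟨⟨0, 0, 0, 0, 0, 100000, 0, 0, 0, ⟨0, 0⟩, 0⟩, 0, 0⟩ 0 0) (.cut .d (-262144) (.void 1 ⟨⟨0, 0, 0, 0, 0, 100000, 0, 0, 0, ⟨0, 0⟩,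 0⟩, 0, 0⟩ 0 0) (.cut .d (-131072) (.void 1 ⟨⟨0, 0, 0, 0, 0, 100000, 0, 0, 0, ⟨0, 0⟩, 0⟩, 0, 0⟩ 0 0) (.cut .d (-65536) (.void 1 ⟨⟨0, 0, 0, 0, 0, 100000, 0, 0, 0, ⟨0, 0⟩, 0⟩, 0, 0⟩ 0 0) (.cut .d (-32768) (.void 1 ⟨⟨0, 0, 0, 0, 0, 100000, 0, 0, 0, ⟨0, 0⟩, 0⟩, 0, 0⟩ 0 0) (.cut .v 8388608 (.cut .v 4194304 (.void 4 ⟨⟨0, 0, 100000, 0, 0, 0, 0, 0, 0, ⟨0, 0⟩, 0⟩, 0, 0⟩ 0 0) (.pos 5 .mm ⟨⟨0, 0, 1449577, 0, 0, 74697887, 0, 0, 0, ⟨0, 0⟩, 0⟩, 0, 0⟩ 0 0)) (.cut .d (-16384) (.pos 3 .mm ⟨⟨0, 0, 0, 0, 0, 223006122, 0, 0, 0, ⟨0, 0⟩, 0⟩, 0, 0⟩ 0 0) (.cut .v 12582912 (.pos 8 .mm ⟨⟨0, 0, 0, 0, 0, 115347533, 0, 0, 0, ⟨0, 0⟩, 0⟩, 0, 0⟩ 0 0) (.cut .v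 14680064 (.pos 12 .mm ⟨⟨0, 0, 0, 0, 0, 136816560, 0, 0, 0, ⟨0, 0⟩, 0⟩, 0, 0⟩ 0 0) (.cut .v 15728640 (.pos 20 .mm ⟨⟨0, 0, 0, 0, 0, 148011907, 0, 0, 0, ⟨0, 0⟩, 0⟩, 0, 0⟩ 0 0) (.cut .v 16252928 (.pos 37 .mm ⟨⟨0, 0, 0, 0, 0, 153724789, 0, 0, 0, ⟨0, 0⟩, 0⟩, 0, 0⟩ 0 0) (.cut .v 16515072 (.pos 39 .mm ⟨⟨0, 0, 0, 0, 0, 167032913, 0, 0, 0, ⟨0, 0⟩, 0⟩, 0, 0⟩ 0 0) (.cut .v 16646144 (.pos 47 .mm ⟨⟨0, 0, 0, 0, 0, 182716492, 0, 0, 0, ⟨0, 0⟩, 0⟩, 0, 0⟩ 0 0) (.cut .v 16711680 (.pos 49 .mm ⟨⟨0, 0, 0, 0, 0, 187915982, 0, 0, 0, ⟨0, 0⟩, 0⟩, 0, 0⟩ 0 0) (.cut .v 16744448 (.pos 63 .mm ⟨⟨0, 0, 0, 0, 0, 190532667, 0, 0, 0, ⟨0, 0⟩, 0⟩, 0, 0⟩ 0 0) (.cut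 .s 10289152 (.cut .s 10190848 (.pos 64 .mm ⟨⟨0, 0, 0, 0, 0, 177134048, 0, 0, 0, ⟨0, 0⟩, 0⟩, 0, 0⟩ 0 0) (.pos 64 .mm ⟨⟨0, 0, 0, 0, 0, 188311611, 0, 0, 0, ⟨0, 0⟩, 0⟩, 0, 0⟩ 0 0)) (.cut .s 10387456 (.pos 64 .mm ⟨⟨0, 0, 0, 0, 0, 200556024, 0, 0, 0, ⟨0, 0⟩, 0⟩, 0, 0⟩ 0 0) (.pos 64 .mm ⟨⟨0, 0, 0, 0, 0, 213894652, 0, 0, 0, ⟨0, 0⟩, 0⟩, 0, 0⟩ 0 0)))))))))))))))))))))) (.cut .v 67108864 (.cut .v 33554432 (.cut .v 25165824 (.cut .d (-8388608) (.void 23 ⟨⟨0, 0, 0, 0, 0, 100000, 0, 0, 0, ⟨0, 0⟩, 0⟩, 0, 0⟩ 0 0) (.cut .v 20971520 (.cut .d (-4194304) (.void 25 ⟨⟨100000, 0, 0, 0, 0, 0, 0, 0, 0, ⟨0, 0⟩, 0⟩, 0, 0⟩ 0 0) (.cut .v 18874368 (.cut .d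 (-2097152) (.void 27 ⟨⟨100000, 0, 0, 0, 0, 0, 0, 0, 0, ⟨0, 0⟩, 0⟩, 0, 0⟩ 0 0) (.cut .v 17825792 (.cut .d (-1048576) (.void 29 ⟨⟨100000, 0, 0, 0, 0, 0, 0, 0, 0, ⟨0, 0⟩, 0⟩, 0, 0⟩ 0 0) (.cut .v 17301504 (.cut .d (-524288) (.void 31 ⟨⟨100000, 0, 0, 0, 0, 0, 0, 0, 0, ⟨0, 0⟩, 0⟩, 0, 0⟩ 0 0) (.cut .v 17039360 (.cut .d (-262144) (.void 33 ⟨⟨100000, 0, 0, 0, 0, 0, 0, 0, 0, ⟨0, 0⟩, 0⟩, 0, 0⟩ 0 0) (.cut .d (-131072) (.void 33 ⟨⟨100000, 0, 0, 0, 0, 0, 0, 0, 0, ⟨0, 0⟩, 0⟩, 0, 0⟩ 0 0) (.cut .d (-65536) (.void 33 ⟨⟨100000, 0, 0, 0, 0, 0, 0, 0, 0, ⟨0, 0⟩, 0⟩, 0, 0⟩ 0 0) (.cut .d (-32768) (.void 33 ⟨⟨0, 0, 0, 0, 0, 100000, 0, 0, 0, ⟨0, 0⟩, 0⟩,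 0, 0⟩ 0 0) (.cut .v 16908288 (.cut .d (-16384) (.cut .v 16842752 (.cut .d (-24576) (.void 41 ⟨⟨0, 0, 0, 0, 0, 100000, 0, 0, 0, ⟨0, 0⟩, 0⟩, 0, 0⟩ 0 0) (.cut .d (-20480) (.void 41 ⟨⟨0, 0, 0, 0, 0, 100000, 0, 0, 0, ⟨0, 0⟩, 0⟩, 0, 0⟩ 0 0) (.cut .d (-18432) (.void 41 ⟨⟨0, 0, 0, 0, 0, 100000, 0, 0, 0, ⟨0, 0⟩, 0⟩, 0, 0⟩ 0 0) (.cut .l 102527 (.void 41 ⟨⟨0, 0, 0, 0, 0, 100000, 0, 0, 0, ⟨0, 0⟩, 0⟩, 0, 0⟩ 0 0) (.cut .l 153791 (.void 41 ⟨⟨0, 0, 0, 0, 0, 100000, 0, 0, 0, ⟨0, 0⟩, 0⟩, 0, 0⟩ 0 0) (.cut .l 179423 (.void 41 ⟨⟨0, 0, 0, 0, 0, 100000, 0, 0, 0, ⟨0, 0⟩, 0⟩, 0, 0⟩ 0 0) (.cut .s 10289152 (.cut .v 16809984 (.pos 43 .mp ⟨⟨82133821, 0, 0,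 0, 0, 80413890, 0, 0, 0, ⟨0, 0⟩, 0⟩, 0, 0⟩ 0 0) (.pos 44 .mp ⟨⟨115297549, 0, 0, 0, 0, 36296386, 0, 0, 0, ⟨0, 0⟩, 0⟩, 0, 0⟩ 0 0)) (.cut .v 16809984 (.pos 43 .mp ⟨⟨93408142, 0, 0, 0, 0, 87517727, 0, 0, 0, ⟨0, 0⟩, 0⟩, 0, 0⟩ 0 0) (.pos 44 .mp ⟨⟨158474876, 0, 0, 0, 0, 0, 0, 0, 0, ⟨0, 0⟩, 0⟩, 0, 0⟩ 0 0))))))))) (.void 42 ⟨⟨100000, 0, 0, 0, 0, 0, 0, 0, 0, ⟨0, 0⟩, 0⟩, 0, 0⟩ 0 0)) (.cut .s 10289152 (.cut .v 16842752 (.cut .s 10190848 (.cut .v 16809984 (.cut .s 10141696 (.cut .s 10117120 (.cut .s 10104832 (.pos 43 .mp ⟨⟨84466339, 0, 0, 0, 0, 59122092, 0, 0, 0, ⟨0, 0⟩, 0⟩, 0, 0⟩ 0 0) (.cut .s 10110976 (.pos 43 .mp ⟨⟨85528409, 0, 0, 0, 0,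 58642165, 0, 0, 0, ⟨0, 0⟩, 0⟩, 0, 0⟩ 0 0) (.pos 43 .mp ⟨⟨85756135, 0, 0, 0, 0, 58935874, 0, 0, 0, ⟨0, 0⟩, 0⟩, 0, 0⟩ 0 0))) (.cut .l 102527 (.cut .d (-8192) (.pos 43 .mp ⟨⟨84198177, 0, 0, 0, 0, 64888421, 0, 0, 0, ⟨0, 0⟩, 0⟩, 0, 0⟩ 0 0) (.cut .s 10129408 (.pos 43 .mp ⟨⟨85076526, 0, 0, 0, 0, 60673955, 0, 0, 0, ⟨0, 0⟩, 0⟩, 0, 0⟩ 0 0) (.cut .s 10135552 (.pos 43 .mp ⟨⟨85764612, 0, 0, 0, 0, 60761876, 0, 0, 0, ⟨0, 0⟩, 0⟩, 0, 0⟩ 0 0) (.pos 43 .mp ⟨⟨86039413, 0, 0, 0, 0, 61006832, 0, 0, 0, ⟨0, 0⟩, 0⟩, 0, 0⟩ 0 0)))) (.pos 43 .mp ⟨⟨85674785, 0, 0, 0, 0, 59840571, 0, 0, 0, ⟨0, 0⟩, 0⟩, 0, 0⟩ 0 0))) (.cut .s 10166272 (.cut .s 10153984 (.cut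 .s 10147840 (.pos 43 .mp ⟨⟨86901272, 0, 0, 0, 0, 60460132, 0, 0, 0, ⟨0, 0⟩, 0⟩, 0, 0⟩ 0 0) (.pos 43 .mp ⟨⟨87223000, 0, 0, 0, 0, 60654669, 0, 0, 0, ⟨0, 0⟩, 0⟩, 0, 0⟩ 0 0)) (.cut .s 10160128 (.pos 43 .mp ⟨⟨87573635, 0, 0, 0, 0, 60814192, 0, 0, 0, ⟨0, 0⟩, 0⟩, 0, 0⟩ 0 0) (.pos 43 .mp ⟨⟨87925625, 0, 0, 0, 0, 60975327, 0, 0, 0, ⟨0, 0⟩, 0⟩, 0, 0⟩ 0 0))) (.cut .s 10178560 (.cut .s 10172416 (.pos 43 .mp ⟨⟨88278975, 0, 0, 0, 0, 61138073, 0, 0, 0, ⟨0, 0⟩, 0⟩, 0, 0⟩ 0 0) (.pos 43 .mp ⟨⟨88633687, 0, 0, 0, 0, 61302424, 0, 0, 0, ⟨0, 0⟩, 0⟩, 0, 0⟩ 0 0)) (.cut .s 10184704 (.pos 43 .mp ⟨⟨88989764, 0, 0, 0, 0, 61468377, 0, 0, 0, ⟨0, 0⟩, 0⟩, 0, 0⟩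 0 0) (.pos 43 .mp ⟨⟨89347211, 0, 0, 0, 0, 61635928, 0, 0, 0, ⟨0, 0⟩, 0⟩, 0, 0⟩ 0 0))))) (.pos 44 .mp ⟨⟨132688441, 0, 0, 0, 0, 0, 0, 0, 0, ⟨0, 0⟩, 0⟩, 0, 0⟩ 0 0)) (.cut .v 16809984 (.cut .s 10240000 (.cut .s 10215424 (.cut .s 10203136 (.cut .d (-8192) (.pos 43 .mp ⟨⟨88296428, 0, 0, 0, 0, 64644206, 0, 0, 0, ⟨0, 0⟩, 0⟩, 0, 0⟩ 0 0) (.cut .s 10196992 (.pos 43 .mp ⟨⟨88775178, 0, 0, 0, 0, 63068937, 0, 0, 0, ⟨0, 0⟩, 0⟩, 0, 0⟩ 0 0) (.pos 43 .mp ⟨⟨89164549, 0, 0, 0, 0, 63189081, 0, 0, 0, ⟨0, 0⟩, 0⟩, 0, 0⟩ 0 0))) (.cut .d (-8192) (.pos 43 .mp ⟨⟨88865825, 0, 0, 0, 0, 65218780, 0, 0, 0, ⟨0, 0⟩, 0⟩, 0, 0⟩ 0 0) (.cut .s 10209280 (.pos 43 .mp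 ⟨⟨89553822, 0, 0, 0, 0, 63313270, 0, 0, 0, ⟨0, 0⟩, 0⟩, 0, 0⟩ 0 0) (.pos 43 .mp ⟨⟨89942974, 0, 0, 0, 0, 63441548, 0, 0, 0, ⟨0, 0⟩, 0⟩, 0, 0⟩ 0 0)))) (.cut .s 10227712 (.cut .l 102527 (.cut .d (-8192) (.pos 43 .mp ⟨⟨89394812, 0, 0, 0, 0, 66783772, 0, 0, 0, ⟨0, 0⟩, 0⟩, 0, 0⟩ 0 0) (.cut .s 10221568 (.pos 43 .mp ⟨⟨90327571, 0, 0, 0, 0, 63559055, 0, 0, 0, ⟨0, 0⟩, 0⟩, 0, 0⟩ 0 0) (.pos 43 .mp ⟨⟨90688399, 0, 0, 0, 0, 63742927, 0, 0, 0, ⟨0, 0⟩, 0⟩, 0, 0⟩ 0 0))) (.pos 43 .mp ⟨⟨90628407, 0, 0, 0, 0, 63125636, 0, 0, 0, ⟨0, 0⟩, 0⟩, 0, 0⟩ 0 0)) (.cut .l 102527 (.cut .d (-8192) (.pos 43 .mp ⟨⟨90106798, 0, 0, 0, 0, 67167238, 0, 0, 0, ⟨0, 0⟩, 0⟩,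 0, 0⟩ 0 0) (.cut .s 10233856 (.pos 43 .mp ⟨⟨91050591, 0, 0, 0, 0, 63928411, 0, 0, 0, ⟨0, 0⟩, 0⟩, 0, 0⟩ 0 0) (.pos 43 .mp ⟨⟨91414150, 0, 0, 0, 0, 64115502, 0, 0, 0, ⟨0, 0⟩, 0⟩, 0, 0⟩ 0 0))) (.pos 43 .mp ⟨⟨91357839, 0, 0, 0, 0, 63512262, 0, 0, 0, ⟨0, 0⟩, 0⟩, 0, 0⟩ 0 0)))) (.cut .s 10264576 (.cut .s 10252288 (.cut .s 10246144 (.cut .s 10243072 (.pos 43 .mp ⟨⟨92441262, 0, 0, 0, 0, 63304969, 0, 0, 0, ⟨0, 0⟩, 0⟩, 0, 0⟩ 0 0) (.pos 43 .mp ⟨⟨92626398, 0, 0, 0, 0, 63396550, 0, 0, 0, ⟨0, 0⟩, 0⟩, 0, 0⟩ 0 0)) (.cut .s 10249216 (.pos 43 .mp ⟨⟨92811884, 0, 0, 0, 0, 63488521, 0, 0, 0, ⟨0, 0⟩, 0⟩, 0, 0⟩ 0 0) (.pos 43 .mp ⟨⟨92997722, 0, 0, 0, 0,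 63580881, 0, 0, 0, ⟨0, 0⟩, 0⟩, 0, 0⟩ 0 0))) (.cut .s 10258432 (.cut .s 10255360 (.pos 43 .mp ⟨⟨93183911, 0, 0, 0, 0, 63673629, 0, 0, 0, ⟨0, 0⟩, 0⟩, 0, 0⟩ 0 0) (.pos 43 .mp ⟨⟨93370452, 0, 0, 0, 0, 63766766, 0, 0, 0, ⟨0, 0⟩, 0⟩, 0, 0⟩ 0 0)) (.cut .s 10261504 (.pos 43 .mp ⟨⟨93557346, 0, 0, 0, 0, 63860289, 0, 0, 0, ⟨0, 0⟩, 0⟩, 0, 0⟩ 0 0) (.pos 43 .mp ⟨⟨93744593, 0, 0, 0, 0, 63954199, 0, 0, 0, ⟨0, 0⟩, 0⟩, 0, 0⟩ 0 0)))) (.cut .s 10276864 (.cut .s 10270720 (.cut .s 10267648 (.pos 43 .mp ⟨⟨93932194, 0, 0, 0, 0, 64048496, 0, 0, 0, ⟨0, 0⟩, 0⟩, 0, 0⟩ 0 0) (.pos 43 .mp ⟨⟨94120148, 0, 0, 0, 0, 64143178, 0, 0, 0, ⟨0, 0⟩, 0⟩, 0, 0⟩ 0 0)) (.cut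 .s 10273792 (.pos 43 .mp ⟨⟨94308456, 0, 0, 0, 0, 64238245, 0, 0, 0, ⟨0, 0⟩, 0⟩, 0, 0⟩ 0 0) (.pos 43 .mp ⟨⟨94497120, 0, 0, 0, 0, 64333697, 0, 0, 0, ⟨0, 0⟩, 0⟩, 0, 0⟩ 0 0))) (.cut .d (-8192) (.cut .s 10283008 (.pos 43 .mp ⟨⟨93240665, 0, 0, 0, 0, 67039874, 0, 0, 0, ⟨0, 0⟩, 0⟩, 0, 0⟩ 0 0) (.pos 43 .mp ⟨⟨93592315, 0, 0, 0, 0, 67276161, 0, 0, 0, ⟨0, 0⟩, 0⟩, 0, 0⟩ 0 0)) (.cut .v 16793600 (.cut .l 102527 (.cut .d (-4096) (.pos 51 .mp ⟨⟨93134363, 0, 0, 0, 0, 67481885, 0, 0, 0, ⟨0, 0⟩, 0⟩, 0, 0⟩ 0 0) (.cut .s 10283008 (.pos 51 .mp ⟨⟨93304071, 0, 0, 0, 0, 66412620, 0, 0, 0, ⟨0, 0⟩, 0⟩, 0, 0⟩ 0 0) (.pos 51 .mp ⟨⟨93684893, 0, 0, 0, 0, 66601078,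 0, 0, 0, ⟨0, 0⟩, 0⟩, 0, 0⟩ 0 0))) (.pos 51 .mp ⟨⟨0, 0, 0, 0, 0, 0, 0, 0, 0, ⟨0, 0⟩, 0⟩, 0, 0⟩ 0 0)) (.pos 52 .mp ⟨⟨139544960, 0, 0, 0, 0, 0, 0, 0, 0, ⟨0, 0⟩, 0⟩, 0, 0⟩ 0 0)))))) (.pos 44 .mp ⟨⟨140134294, 0, 0, 0, 0, 0, 0, 0, 0, ⟨0, 0⟩, 0⟩, 0, 0⟩ 0 0))) (.pos 42 .mp ⟨⟨138373027, 0, 0, 0, 0, 0, 0, 0, 0, ⟨0, 0⟩, 0⟩, 0, 0⟩ 0 0)) (.cut .v 16842752 (.cut .s 10387456 (.cut .v 16809984 (.cut .s 10338304 (.cut .s 10313728 (.cut .s 10301440 (.cut .d (-8192) (.cut .s 10295296 (.pos 43 .mp ⟨⟨93949170, 0, 0, 0, 0, 67508488, 0, 0, 0, ⟨0, 0⟩, 0⟩, 0, 0⟩ 0 0) (.pos 43 .mp ⟨⟨94311277, 0, 0, 0, 0, 67736781, 0, 0, 0, ⟨0, 0⟩, 0⟩, 0, 0⟩ 0 0)) (.cut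 .v 16793600 (.cut .l 102527 (.cut .d (-4096) (.pos 51 .mp ⟨⟨93844618, 0, 0, 0, 0, 67950511, 0, 0, 0, ⟨0, 0⟩, 0⟩, 0, 0⟩ 0 0) (.cut .s 10295296 (.pos 51 .mp ⟨⟨94065254, 0, 0, 0, 0, 66794251, 0, 0, 0, ⟨0, 0⟩, 0⟩, 0, 0⟩ 0 0) (.pos 51 .mp ⟨⟨94445128, 0, 0, 0, 0, 66992186, 0, 0, 0, ⟨0, 0⟩, 0⟩, 0, 0⟩ 0 0))) (.pos 51 .mp ⟨⟨0, 0, 0, 0, 0, 0, 0, 0, 0, ⟨0, 0⟩, 0⟩, 0, 0⟩ 0 0)) (.pos 52 .mp ⟨⟨140527374, 0, 0, 0, 0, 0, 0, 0, 0, ⟨0, 0⟩, 0⟩, 0, 0⟩ 0 0))) (.cut .d (-8192) (.cut .s 10307584 (.pos 43 .mp ⟨⟨94678683, 0, 0, 0, 0, 67960966, 0, 0, 0, ⟨0, 0⟩, 0⟩, 0, 0⟩ 0 0) (.pos 43 .mp ⟨⟨95051434, 0, 0, 0, 0, 68180968, 0, 0, 0, ⟨0, 0⟩, 0⟩, 0, 0⟩ 0 0))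 (.cut .v 16793600 (.cut .l 102527 (.cut .l 51263 (.cut .d (-4096) (.pos 51 .mp ⟨⟨94314303, 0, 0, 0, 0, 69718095, 0, 0, 0, ⟨0, 0⟩, 0⟩, 0, 0⟩ 0 0) (.cut .s 10307584 (.pos 51 .mp ⟨⟨94852160, 0, 0, 0, 0, 67134566, 0, 0, 0, ⟨0, 0⟩, 0⟩, 0, 0⟩ 0 0) (.pos 51 .mp ⟨⟨95230768, 0, 0, 0, 0, 67342656, 0, 0, 0, ⟨0, 0⟩, 0⟩, 0, 0⟩ 0 0))) (.pos 51 .mp ⟨⟨95223077, 0, 0, 0, 0, 66565156, 0, 0, 0, ⟨0, 0⟩, 0⟩, 0, 0⟩ 0 0)) (.pos 51 .mp ⟨⟨0, 0, 0, 0, 0, 0, 0, 0, 0, ⟨0, 0⟩, 0⟩, 0, 0⟩ 0 0)) (.pos 52 .mp ⟨⟨141521675, 0, 0, 0, 0, 0, 0, 0, 0, ⟨0, 0⟩, 0⟩, 0, 0⟩ 0 0)))) (.cut .s 10326016 (.cut .d (-8192) (.cut .s 10319872 (.pos 43 .mp ⟨⟨95429577, 0, 0, 0, 0,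 68396713, 0, 0, 0, ⟨0, 0⟩, 0⟩, 0, 0⟩ 0 0) (.pos 43 .mp ⟨⟨95813160, 0, 0, 0, 0, 68608126, 0, 0, 0, ⟨0, 0⟩, 0⟩, 0, 0⟩ 0 0)) (.cut .v 16793600 (.cut .l 102527 (.cut .l 51263 (.cut .d (-4096) (.pos 51 .mp ⟨⟨95060123, 0, 0, 0, 0, 70176357, 0, 0, 0, ⟨0, 0⟩, 0⟩, 0, 0⟩ 0 0) (.cut .s 10319872 (.pos 51 .mp ⟨⟨95609198, 0, 0, 0, 0, 67554810, 0, 0, 0, ⟨0, 0⟩, 0⟩, 0, 0⟩ 0 0) (.pos 51 .mp ⟨⟨95987433, 0, 0, 0, 0, 67771060, 0, 0, 0, ⟨0, 0⟩, 0⟩, 0, 0⟩ 0 0))) (.pos 51 .mp ⟨⟨95983018, 0, 0, 0, 0, 66981335, 0, 0, 0, ⟨0, 0⟩, 0⟩, 0, 0⟩ 0 0)) (.pos 51 .mp ⟨⟨0, 0, 0, 0, 0, 0, 0, 0, 0, ⟨0, 0⟩, 0⟩, 0, 0⟩ 0 0)) (.pos 52 .mp ⟨⟨142527920, 0, 0, 0, 0, 0, 0,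 0, 0, ⟨0, 0⟩, 0⟩, 0, 0⟩ 0 0))) (.cut .d (-8192) (.cut .s 10332160 (.pos 43 .mp ⟨⟨96202229, 0, 0, 0, 0, 68815133, 0, 0, 0, ⟨0, 0⟩, 0⟩, 0, 0⟩ 0 0) (.pos 43 .mp ⟨⟨96596832, 0, 0, 0, 0, 69017656, 0, 0, 0, ⟨0, 0⟩, 0⟩, 0, 0⟩ 0 0)) (.cut .v 16793600 (.cut .l 102527 (.cut .d (-4096) (.pos 51 .mp ⟨⟨96103936, 0, 0, 0, 0, 69255400, 0, 0, 0, ⟨0, 0⟩, 0⟩, 0, 0⟩ 0 0) (.cut .s 10332160 (.pos 51 .mp ⟨⟨96336316, 0, 0, 0, 0, 68054945, 0, 0, 0, ⟨0, 0⟩, 0⟩, 0, 0⟩ 0 0) (.pos 51 .mp ⟨⟨96712737, 0, 0, 0, 0, 68282449, 0, 0, 0, ⟨0, 0⟩, 0⟩, 0, 0⟩ 0 0))) (.pos 51 .mp ⟨⟨0, 0, 0, 0, 0, 0, 0, 0, 0, ⟨0, 0⟩, 0⟩, 0, 0⟩ 0 0)) (.pos 52 .mp ⟨⟨143546167, 0, 0, 0,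 0, 0, 0, 0, 0, ⟨0, 0⟩, 0⟩, 0, 0⟩ 0 0))))) (.cut .s 10362880 (.cut .s 10350592 (.cut .d (-8192) (.cut .s 10344448 (.pos 43 .mp ⟨⟨96997015, 0, 0, 0, 0, 69215623, 0, 0, 0, ⟨0, 0⟩, 0⟩, 0, 0⟩ 0 0) (.pos 43 .mp ⟨⟨97402826, 0, 0, 0, 0, 69408955, 0, 0, 0, ⟨0, 0⟩, 0⟩, 0, 0⟩ 0 0)) (.cut .v 16793600 (.cut .l 102527 (.cut .d (-4096) (.pos 51 .mp ⟨⟨96901143, 0, 0, 0, 0, 69654704, 0, 0, 0, ⟨0, 0⟩, 0⟩, 0, 0⟩ 0 0) (.cut .s 10344448 (.pos 51 .mp ⟨⟨97088492, 0, 0, 0, 0, 68515050, 0, 0, 0, ⟨0, 0⟩, 0⟩, 0, 0⟩ 0 0) (.pos 51 .mp ⟨⟨97463555, 0, 0, 0, 0, 68752798, 0, 0, 0, ⟨0, 0⟩, 0⟩, 0, 0⟩ 0 0))) (.pos 51 .mp ⟨⟨0, 0, 0, 0, 0, 0, 0, 0, 0, ⟨0, 0⟩, 0⟩,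 0, 0⟩ 0 0)) (.pos 52 .mp ⟨⟨144576473, 0, 0, 0, 0, 0, 0, 0, 0, ⟨0, 0⟩, 0⟩, 0, 0⟩ 0 0))) (.cut .d (-8192) (.cut .s 10356736 (.pos 43 .mp ⟨⟨97814313, 0, 0, 0, 0, 69597579, 0, 0, 0, ⟨0, 0⟩, 0⟩, 0, 0⟩ 0 0) (.pos 43 .mp ⟨⟨98231522, 0, 0, 0, 0, 69781417, 0, 0, 0, ⟨0, 0⟩, 0⟩, 0, 0⟩ 0 0)) (.cut .v 16793600 (.cut .s 10356736 (.cut .s 10353664 (.pos 51 .mp ⟨⟨98829140, 0, 0, 0, 0, 67519638, 0, 0, 0, ⟨0, 0⟩, 0⟩, 0, 0⟩ 0 0) (.pos 51 .mp ⟨⟨99040209, 0, 0, 0, 0, 67608248, 0, 0, 0, ⟨0, 0⟩, 0⟩, 0, 0⟩ 0 0)) (.pos 51 .mp ⟨⟨98778730, 0, 0, 0, 0, 68457994, 0, 0, 0, ⟨0, 0⟩, 0⟩, 0, 0⟩ 0 0)) (.pos 52 .mp ⟨⟨145618895, 0, 0, 0, 0, 0, 0, 0, 0, ⟨0, 0⟩, 0⟩,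 0, 0⟩ 0 0)))) (.cut .s 10375168 (.cut .d (-8192) (.cut .s 10369024 (.pos 43 .mp ⟨⟨98654502, 0, 0, 0, 0, 69960392, 0, 0, 0, ⟨0, 0⟩, 0⟩, 0, 0⟩ 0 0) (.pos 43 .mp ⟨⟨99083299, 0, 0, 0, 0, 70134430, 0, 0, 0, ⟨0, 0⟩, 0⟩, 0, 0⟩ 0 0)) (.cut .v 16793600 (.cut .s 10369024 (.pos 51 .mp ⟨⟨99171086, 0, 0, 0, 0, 68681472, 0, 0, 0, ⟨0, 0⟩, 0⟩, 0, 0⟩ 0 0) (.pos 51 .mp ⟨⟨99564883, 0, 0, 0, 0, 68906809, 0, 0, 0, ⟨0, 0⟩, 0⟩, 0, 0⟩ 0 0)) (.pos 52 .mp ⟨⟨146673493, 0, 0, 0, 0, 0, 0, 0, 0, ⟨0, 0⟩, 0⟩, 0, 0⟩ 0 0))) (.cut .d (-8192) (.cut .s 10381312 (.pos 43 .mp ⟨⟨99517962, 0, 0, 0, 0, 70303452, 0, 0, 0, ⟨0, 0⟩, 0⟩, 0, 0⟩ 0 0) (.pos 43 .mp ⟨⟨99958539,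 0, 0, 0, 0, 70467381, 0, 0, 0, ⟨0, 0⟩, 0⟩, 0, 0⟩ 0 0)) (.cut .s 10381312 (.pos 43 .mp ⟨⟨100161260, 0, 0, 0, 0, 68854133, 0, 0, 0, ⟨0, 0⟩, 0⟩, 0, 0⟩ 0 0) (.pos 43 .mp ⟨⟨100558675, 0, 0, 0, 0, 69082056, 0, 0, 0, ⟨0, 0⟩, 0⟩, 0, 0⟩ 0 0)))))) (.pos 44 .mp ⟨⟨148271432, 0, 0, 0, 0, 0, 0, 0, 0, ⟨0, 0⟩, 0⟩, 0, 0⟩ 0 0)) (.cut .v 16809984 (.cut .s 10436608 (.cut .s 10412032 (.cut .s 10399744 (.cut .s 10393600 (.cut .s 10390528 (.pos 43 .mp ⟨⟨101731167, 0, 0, 0, 0, 68130537, 0, 0, 0, ⟨0, 0⟩, 0⟩, 0, 0⟩ 0 0) (.pos 43 .mp ⟨⟨101933647, 0, 0, 0, 0, 68240173, 0, 0, 0, ⟨0, 0⟩, 0⟩, 0, 0⟩ 0 0)) (.cut .s 10396672 (.pos 43 .mp ⟨⟨102136500, 0, 0, 0,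 0, 68350171, 0, 0, 0, ⟨0, 0⟩, 0⟩, 0, 0⟩ 0 0) (.pos 43 .mp ⟨⟨102339726, 0, 0, 0, 0, 68460530, 0, 0, 0, ⟨0, 0⟩, 0⟩, 0, 0⟩ 0 0))) (.cut .d (-8192) (.pos 43 .mp ⟨⟨100747661, 0, 0, 0, 0, 72352199, 0, 0, 0, ⟨0, 0⟩, 0⟩, 0, 0⟩ 0 0) (.cut .s 10405888 (.pos 43 .mp ⟨⟨101759669, 0, 0, 0, 0, 69776931, 0, 0, 0, ⟨0, 0⟩, 0⟩, 0, 0⟩ 0 0) (.pos 43 .mp ⟨⟨102162930, 0, 0, 0, 0, 70012255, 0, 0, 0, ⟨0, 0⟩, 0⟩, 0, 0⟩ 0 0)))) (.cut .s 10424320 (.cut .d (-8192) (.pos 43 .mp ⟨⟨100178346, 0, 0, 0, 0, 75207741, 0, 0, 0, ⟨0, 0⟩, 0⟩, 0, 0⟩ 0 0) (.cut .s 10418176 (.pos 43 .mp ⟨⟨102558552, 0, 0, 0, 0, 70263557, 0, 0, 0, ⟨0, 0⟩, 0⟩, 0, 0⟩ 0 0) (.pos 43 .mp ⟨⟨102928902,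 0, 0, 0, 0, 70558222, 0, 0, 0, ⟨0, 0⟩, 0⟩, 0, 0⟩ 0 0))) (.cut .d (-8192) (.pos 43 .mp ⟨⟨100974545, 0, 0, 0, 0, 75754233, 0, 0, 0, ⟨0, 0⟩, 0⟩, 0, 0⟩ 0 0) (.cut .s 10430464 (.pos 43 .mp ⟨⟨103298234, 0, 0, 0, 0, 70858651, 0, 0, 0, ⟨0, 0⟩, 0⟩, 0, 0⟩ 0 0) (.pos 43 .mp ⟨⟨103666519, 0, 0, 0, 0, 71164898, 0, 0, 0, ⟨0, 0⟩, 0⟩, 0, 0⟩ 0 0))))) (.cut .s 10461184 (.cut .s 10448896 (.cut .s 10442752 (.cut .s 10439680 (.pos 43 .mp ⟨⟨105073428, 0, 0, 0, 0, 69849480, 0, 0, 0, ⟨0, 0⟩, 0⟩, 0, 0⟩ 0 0) (.pos 43 .mp ⟨⟨105334295, 0, 0, 0, 0, 69893635, 0, 0, 0, ⟨0, 0⟩, 0⟩, 0, 0⟩ 0 0)) (.pos 43 .mp ⟨⟨103621652, 0, 0, 0, 0, 73041677, 0, 0, 0, ⟨0, 0⟩, 0⟩,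 0, 0⟩ 0 0)) (.cut .s 10455040 (.pos 43 .mp ⟨⟨104124603, 0, 0, 0, 0, 73151895, 0, 0, 0, ⟨0, 0⟩, 0⟩, 0, 0⟩ 0 0) (.pos 43 .mp ⟨⟨104785591, 0, 0, 0, 0, 73032213, 0, 0, 0, ⟨0, 0⟩, 0⟩, 0, 0⟩ 0 0))) (.cut .s 10473472 (.cut .s 10467328 (.pos 43 .mp ⟨⟨105509647, 0, 0, 0, 0, 72822712, 0, 0, 0, ⟨0, 0⟩, 0⟩, 0, 0⟩ 0 0) (.pos 43 .mp ⟨⟨106249677, 0, 0, 0, 0, 72592911, 0, 0, 0, ⟨0, 0⟩, 0⟩, 0, 0⟩ 0 0)) (.cut .s 10479616 (.pos 43 .mp ⟨⟨107005769, 0, 0, 0, 0, 72342654, 0, 0, 0, ⟨0, 0⟩, 0⟩, 0, 0⟩ 0 0) (.pos 43 .mp ⟨⟨107778014, 0, 0, 0, 0, 72071787, 0, 0, 0, ⟨0, 0⟩, 0⟩, 0, 0⟩ 0 0))))) (.pos 44 .mp ⟨⟨157007789, 0, 0, 0, 0, 0, 0, 0, 0, ⟨0, 0⟩, 0⟩, 0,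 0⟩ 0 0))) (.pos 42 .mp ⟨⟨154597579, 0, 0, 0, 0, 0, 0, 0, 0, ⟨0, 0⟩, 0⟩, 0, 0⟩ 0 0)))) (.pos 36 .mp ⟨⟨158185950, 0, 0, 0, 0, 0, 0, 0, 0, ⟨0, 0⟩, 0⟩, 0, 0⟩ 0 0)))))) (.void 34 ⟨⟨100000, 0, 0, 0, 0, 0, 0, 0, 0, ⟨0, 0⟩, 0⟩, 0, 0⟩ 0 0))) (.void 32 ⟨⟨100000, 0, 0, 0, 0, 0, 0, 0, 0, ⟨0, 0⟩, 0⟩, 0, 0⟩ 0 0))) (.void 30 ⟨⟨100000, 0, 0, 0, 0, 0, 0, 0, 0, ⟨0, 0⟩, 0⟩, 0, 0⟩ 0 0))) (.void 28 ⟨⟨100000, 0, 0, 0, 0, 0, 0, 0, 0, ⟨0, 0⟩, 0⟩, 0, 0⟩ 0 0))) (.void 26 ⟨⟨100000, 0, 0, 0, 0, 0, 0, 0, 0, ⟨0, 0⟩, 0⟩, 0, 0⟩ 0 0))) (.void 24 ⟨⟨100000, 0, 0, 0, 0, 0, 0, 0, 0, ⟨0, 0⟩, 0⟩, 0, 0⟩ 0 0)) (.void 105 ⟨⟨100000, 0, 0, 0, 0, 0, 0, 0, 0, ⟨0, 0⟩, 0⟩,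 0, 0⟩ 0 0)) (.void 124 ⟨⟨100000, 0, 0, 0, 0, 0, 0, 0, 0, ⟨0, 0⟩, 0⟩, 0, 0⟩ 0 0))) (.cut .v 16777216 (.cut .v 8388608 (.cut .v 4194304 (.void 4 ⟨⟨0, 0, 66667, 0, 0, 0, 0, 0, 0, ⟨0, 0⟩, 0⟩, 0, 33333⟩ 0 0) (.pos 5 .pm ⟨⟨0, 0, 1389939, 0, 0, 0, 0, 0, 0, ⟨0, 0⟩, 0⟩, 0, 0⟩ 0 0)) (.pos 3 .pm ⟨⟨0, 0, 0, 0, 0, 0, 0, 0, 0, ⟨0, 0⟩, 0⟩, 0, 0⟩ 0 0)) (.cut .v 67108864 (.cut .d 5556092 (.cut .v 33554432 (.cut .d 2778046 (.cut .v 25165824 (.cut .d 1389023 (.cut .d 694511 (.cut .v 20971520 (.cut .d 347255 (.cut .v 18874368 (.cut .s 10289152 (.pos 27 .pp ⟨⟨64005322, 0, 0, 0, 0, 0, 0, 0, 0, ⟨0, 0⟩, 0⟩, 5968354, 0⟩ 0 0) (.pos 27 .pp ⟨⟨80494302, 0,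 0, 0, 0, 0, 0, 0, 0, ⟨0, 0⟩, 0⟩, 5865644, 0⟩ 0 0)) (.pos 28 .pp ⟨⟨177627703, 0, 0, 0, 0, 0, 0, 0, 0, ⟨0, 0⟩, 0⟩, 0, 0⟩ 0 0)) (.pos 25 .pp ⟨⟨0, 0, 0, 0, 0, 0, 0, 0, 0, ⟨0, 0⟩, 0⟩, 9324486, 131100⟩ 0 0)) (.cut .d 347255 (.pos 26 .pp ⟨⟨265221895, 0, 0, 0, 0, 0, 0, 0, 0, ⟨0, 0⟩, 0⟩, 0, 0⟩ 0 0) (.pos 26 .pp ⟨⟨0, 0, 0, 0, 0, 0, 0, 0, 0, ⟨0, 0⟩, 0⟩, 15608935, 0⟩ 0 0))) (.pos 23 .pp ⟨⟨0, 0, 0, 0, 0, 0, 0, 0, 0, ⟨0, 0⟩, 0⟩, 10260024, 108671⟩ 0 0)) (.pos 23 .pp ⟨⟨0, 0, 0, 0, 0, 0, 0, 0, 0, ⟨0, 0⟩, 0⟩, 0, 425577⟩ 0 0)) (.cut .d 1389023 (.cut .d 694511 (.void 24 ⟨⟨0, 0, 0, 0, 0, 0, 0, 0, 0, ⟨0, 0⟩, 0⟩, 100000, 0⟩ 0 0) (.pos 24 .pp ⟨⟨0, 0,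 0, 0, 0, 0, 0, 0, 0, ⟨0, 0⟩, 0⟩, 19272647, 0⟩ 0 0)) (.pos 24 .pp ⟨⟨0, 0, 0, 0, 0, 0, 171731, 0, 0, ⟨0, 0⟩, 0⟩, 12395759, 0⟩ 0 0))) (.pos 22 .pp ⟨⟨0, 0, 0, 0, 0, 0, 0, 0, 0, ⟨0, 0⟩, 0⟩, 0, 472863⟩ 0 0)) (.cut .d 2778046 (.cut .v 50331648 (.cut .d 1389023 (.void 112 ⟨⟨0, 0, 0, 0, 0, 0, 0, 0, 0, ⟨0, 0⟩, 0⟩, 100000, 0⟩ 0 0) (.pos 112 .pp ⟨⟨0, 0, 0, 0, 0, 0, 0, 0, 0, ⟨0, 0⟩, 0⟩, 26054680, 0⟩ 0 0)) (.void 113 ⟨⟨0, 0, 0, 0, 0, 0, 0, 0, 0, ⟨0, 0⟩, 0⟩, 100000, 0⟩ 0 0)) (.pos 105 .pp ⟨⟨0, 0, 0, 0, 0, 0, 0, 0, 0, ⟨0, 0⟩, 0⟩, 21791808, 0⟩ 0 0))) (.pos 104 .pp ⟨⟨0, 0, 0, 0, 0, 0, 0, 0, 0, ⟨0, 0⟩, 0⟩, 0, 33739087⟩ 0 0)) (.void 124 ⟨⟨0, 93092,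 0, 0, 0, 0, 0, 0, 0, ⟨0, 0⟩, 0⟩, 6908, 0⟩ 0 0)))),
    by decide +kernel⟩

def covers14 : cell.Covers Vale.Agent.P237.Petty.Cor.Grid.N18.table row14.1 :=
  ⟨(.cut .d 0 (.cut .v 16777216 (.cut .d (-8388608) (.void 1 ⟨⟨0, 0, 0, 0, 0, 100000, 0, 0, 0, ⟨0, 0⟩, 0⟩, 0, 0⟩ 0 0) (.cut .d (-4194304) (.void 1 ⟨⟨0, 0, 0, 0, 0, 100000, 0, 0, 0, ⟨0, 0⟩, 0⟩, 0, 0⟩ 0 0) (.cut .d (-2097152) (.void 1 ⟨⟨0, 0, 0, 0, 0, 100000, 0, 0, 0, ⟨0, 0⟩, 0⟩, 0, 0⟩ 0 0) (.cut .d (-1048576) (.void 1 ⟨⟨0, 0, 0, 0, 0, 100000, 0, 0, 0, ⟨0, 0⟩, 0⟩, 0, 0⟩ 0 0) (.cut .d (-524288) (.void 1 ⟨⟨0, 0, 0, 0, 0, 100000, 0, 0, 0, ⟨0, 0⟩, 0⟩, 0, 0⟩ 0 0) (.cut .d (-262144)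 (.void 1 ⟨⟨0, 0, 0, 0, 0, 100000, 0, 0, 0, ⟨0, 0⟩, 0⟩, 0, 0⟩ 0 0) (.cut .d (-131072) (.void 1 ⟨⟨0, 0, 0, 0, 0, 100000, 0, 0, 0, ⟨0, 0⟩, 0⟩, 0, 0⟩ 0 0) (.cut .d (-65536) (.void 1 ⟨⟨0, 0, 0, 0, 0, 100000, 0, 0, 0, ⟨0, 0⟩, 0⟩, 0, 0⟩ 0 0) (.cut .d (-32768) (.void 1 ⟨⟨0, 0, 0, 0, 0, 100000, 0, 0, 0, ⟨0, 0⟩, 0⟩, 0, 0⟩ 0 0) (.cut .d (-16384) (.void 1 ⟨⟨0, 0, 0, 0, 0, 100000, 0, 0, 0, ⟨0, 0⟩, 0⟩, 0, 0⟩ 0 0) (.cut .v 8388608 (.cut .v 4194304 (.void 4 ⟨⟨0, 0, 100000, 0, 0, 0, 0, 0, 0, ⟨0, 0⟩, 0⟩, 0, 0⟩ 0 0) (.pos 5 .mm ⟨⟨0, 0, 2198401, 0, 0, 93415059, 0, 0, 0, ⟨0, 0⟩, 0⟩, 0, 0⟩ 0 0)) (.cut .v 12582912 (.pos 8 .mm ⟨⟨0, 0, 0, 0, 0, 147542632,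 0, 0, 0, ⟨0, 0⟩, 0⟩, 0, 0⟩ 0 0) (.cut .v 14680064 (.pos 12 .mm ⟨⟨0, 0, 0, 0, 0, 176140432, 0, 0, 0, ⟨0, 0⟩, 0⟩, 0, 0⟩ 0 0) (.cut .v 15728640 (.pos 20 .mm ⟨⟨0, 0, 0, 0, 0, 191097636, 0, 0, 0, ⟨0, 0⟩, 0⟩, 0, 0⟩ 0 0) (.cut .v 16252928 (.pos 37 .mm ⟨⟨0, 0, 0, 0, 0, 198740813, 0, 0, 0, ⟨0, 0⟩, 0⟩, 0, 0⟩ 0 0) (.cut .v 16515072 (.pos 39 .mm ⟨⟨0, 0, 0, 0, 0, 221586183, 0, 0, 0, ⟨0, 0⟩, 0⟩, 0, 0⟩ 0 0) (.cut .v 16646144 (.pos 47 .mm ⟨⟨0, 0, 0, 0, 0, 237801348, 0, 0, 0, ⟨0, 0⟩, 0⟩, 0, 0⟩ 0 0) (.cut .v 16711680 (.pos 49 .mm ⟨⟨0, 0, 0, 0, 0, 244166600, 0, 0, 0, ⟨0, 0⟩, 0⟩, 0, 0⟩ 0 0) (.cut .v 16744448 (.pos 63 .mm ⟨⟨0, 0, 0, 0, 0, 247369320,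 0, 0, 0, ⟨0, 0⟩, 0⟩, 0, 0⟩ 0 0) (.cut .s 10682368 (.cut .s 10584064 (.pos 64 .mm ⟨⟨0, 0, 0, 0, 0, 228402877, 0, 0, 0, ⟨0, 0⟩, 0⟩, 0, 0⟩ 0 0) (.pos 64 .mm ⟨⟨0, 0, 0, 0, 0, 242973142, 0, 0, 0, ⟨0, 0⟩, 0⟩, 0, 0⟩ 0 0)) (.cut .s 10780672 (.pos 64 .mm ⟨⟨0, 0, 0, 0, 0, 258934485, 0, 0, 0, ⟨0, 0⟩, 0⟩, 0, 0⟩ 0 0) (.pos 64 .mm ⟨⟨0, 0, 0, 0, 0, 276322412, 0, 0, 0, ⟨0, 0⟩, 0⟩, 0, 0⟩ 0 0)))))))))))))))))))))) (.cut .v 67108864 (.cut .v 33554432 (.cut .v 25165824 (.cut .d (-8388608) (.void 23 ⟨⟨0, 0, 0, 0, 0, 100000, 0, 0, 0, ⟨0, 0⟩, 0⟩, 0, 0⟩ 0 0) (.cut .v 20971520 (.cut .d (-4194304) (.void 25 ⟨⟨100000, 0, 0, 0, 0, 0, 0, 0, 0, ⟨0, 0⟩, 0⟩,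 0, 0⟩ 0 0) (.cut .v 18874368 (.cut .d (-2097152) (.void 27 ⟨⟨100000, 0, 0, 0, 0, 0, 0, 0, 0, ⟨0, 0⟩, 0⟩, 0, 0⟩ 0 0) (.cut .v 17825792 (.cut .d (-1048576) (.void 29 ⟨⟨100000, 0, 0, 0, 0, 0, 0, 0, 0, ⟨0, 0⟩, 0⟩, 0, 0⟩ 0 0) (.cut .v 17301504 (.cut .d (-524288) (.void 31 ⟨⟨100000, 0, 0, 0, 0, 0, 0, 0, 0, ⟨0, 0⟩, 0⟩, 0, 0⟩ 0 0) (.cut .v 17039360 (.cut .d (-262144) (.void 33 ⟨⟨100000, 0, 0, 0, 0, 0, 0, 0, 0, ⟨0, 0⟩, 0⟩, 0, 0⟩ 0 0) (.cut .d (-131072) (.void 33 ⟨⟨100000, 0, 0, 0, 0, 0, 0, 0, 0, ⟨0, 0⟩, 0⟩, 0, 0⟩ 0 0) (.cut .d (-65536) (.void 33 ⟨⟨100000, 0, 0, 0, 0, 0, 0, 0, 0, ⟨0, 0⟩, 0⟩, 0, 0⟩ 0 0) (.cut .d (-32768) (.void 33 ⟨⟨100000,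 0, 0, 0, 0, 0, 0, 0, 0, ⟨0, 0⟩, 0⟩, 0, 0⟩ 0 0) (.cut .d (-16384) (.void 33 ⟨⟨0, 0, 0, 0, 0, 100000, 0, 0, 0, ⟨0, 0⟩, 0⟩, 0, 0⟩ 0 0) (.cut .v 16908288 (.cut .s 10682368 (.cut .v 16842752 (.cut .s 10584064 (.cut .v 16809984 (.cut .s 10534912 (.cut .s 10510336 (.cut .s 10498048 (.cut .s 10491904 (.pos 43 .mp ⟨⟨108445835, 0, 0, 0, 0, 71962575, 0, 0, 0, ⟨0, 0⟩, 0⟩, 0, 0⟩ 0 0) (.pos 43 .mp ⟨⟨108496930, 0, 0, 0, 0, 72708028, 0, 0, 0, ⟨0, 0⟩, 0⟩, 0, 0⟩ 0 0)) (.cut .s 10504192 (.pos 43 .mp ⟨⟨108560764, 0, 0, 0, 0, 73439672, 0, 0, 0, ⟨0, 0⟩, 0⟩, 0, 0⟩ 0 0) (.pos 43 .mp ⟨⟨108637465, 0, 0, 0, 0, 74157300, 0, 0, 0, ⟨0, 0⟩, 0⟩, 0, 0⟩ 0 0)))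 (.cut .s 10522624 (.cut .s 10516480 (.pos 43 .mp ⟨⟨108727161, 0, 0, 0, 0, 74860707, 0, 0, 0, ⟨0, 0⟩, 0⟩, 0, 0⟩ 0 0) (.pos 43 .mp ⟨⟨108829979, 0, 0, 0, 0, 75549685, 0, 0, 0, ⟨0, 0⟩, 0⟩, 0, 0⟩ 0 0)) (.cut .s 10528768 (.pos 43 .mp ⟨⟨109090663, 0, 0, 0, 0, 76009499, 0, 0, 0, ⟨0, 0⟩, 0⟩, 0, 0⟩ 0 0) (.cut .s 10531840 (.pos 43 .mp ⟨⟨111515406, 0, 0, 0, 0, 73048011, 0, 0, 0, ⟨0, 0⟩, 0⟩, 0, 0⟩ 0 0) (.pos 43 .mp ⟨⟨111675708, 0, 0, 0, 0, 73229480, 0, 0, 0, ⟨0, 0⟩, 0⟩, 0, 0⟩ 0 0))))) (.cut .s 10559488 (.cut .s 10547200 (.cut .d (-8192) (.pos 43 .mp ⟨⟨108414869, 0, 0, 0, 0, 80224775, 0, 0, 0, ⟨0, 0⟩, 0⟩, 0, 0⟩ 0 0) (.cut .s 10541056 (.pos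 43 .mp ⟨⟨110834234, 0, 0, 0, 0, 75002955, 0, 0, 0, ⟨0, 0⟩, 0⟩, 0, 0⟩ 0 0) (.pos 43 .mp ⟨⟨111319337, 0, 0, 0, 0, 75131450, 0, 0, 0, ⟨0, 0⟩, 0⟩, 0, 0⟩ 0 0))) (.cut .d (-8192) (.pos 43 .mp ⟨⟨109274069, 0, 0, 0, 0, 80650790, 0, 0, 0, ⟨0, 0⟩, 0⟩, 0, 0⟩ 0 0) (.cut .s 10553344 (.pos 43 .mp ⟨⟨111804256, 0, 0, 0, 0, 75265260, 0, 0, 0, ⟨0, 0⟩, 0⟩, 0, 0⟩ 0 0) (.pos 43 .mp ⟨⟨112288960, 0, 0, 0, 0, 75404445, 0, 0, 0, ⟨0, 0⟩, 0⟩, 0, 0⟩ 0 0)))) (.cut .s 10571776 (.cut .d (-8192) (.pos 43 .mp ⟨⟨110139847, 0, 0, 0, 0, 81089420, 0, 0, 0, ⟨0, 0⟩, 0⟩, 0, 0⟩ 0 0) (.cut .s 10565632 (.pos 43 .mp ⟨⟨112743444, 0, 0, 0, 0, 75595988, 0, 0, 0, ⟨0, 0⟩, 0⟩,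 0, 0⟩ 0 0) (.pos 43 .mp ⟨⟨113187937, 0, 0, 0, 0, 75808271, 0, 0, 0, ⟨0, 0⟩, 0⟩, 0, 0⟩ 0 0))) (.cut .d (-8192) (.pos 43 .mp ⟨⟨111012240, 0, 0, 0, 0, 81540757, 0, 0, 0, ⟨0, 0⟩, 0⟩, 0, 0⟩ 0 0) (.cut .s 10577920 (.pos 43 .mp ⟨⟨113634140, 0, 0, 0, 0, 76022990, 0, 0, 0, ⟨0, 0⟩, 0⟩, 0, 0⟩ 0 0) (.pos 43 .mp ⟨⟨114082057, 0, 0, 0, 0, 76240143, 0, 0, 0, ⟨0, 0⟩, 0⟩, 0, 0⟩ 0 0)))))) (.pos 44 .mp ⟨⟨166619218, 0, 0, 0, 0, 0, 0, 0, 0, ⟨0, 0⟩, 0⟩, 0, 0⟩ 0 0)) (.cut .v 16809984 (.cut .s 10633216 (.cut .s 10608640 (.cut .s 10596352 (.cut .d (-8192) (.pos 43 .mp ⟨⟨111891281, 0, 0, 0, 0, 82004891, 0, 0, 0, ⟨0, 0⟩, 0⟩, 0, 0⟩ 0 0) (.cut .s 10590208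 (.pos 43 .mp ⟨⟨114531692, 0, 0, 0, 0, 76459730, 0, 0, 0, ⟨0, 0⟩, 0⟩, 0, 0⟩ 0 0) (.pos 43 .mp ⟨⟨114983051, 0, 0, 0, 0, 76681749, 0, 0, 0, ⟨0, 0⟩, 0⟩, 0, 0⟩ 0 0))) (.cut .d (-8192) (.cut .s 10602496 (.pos 43 .mp ⟨⟨112777007, 0, 0, 0, 0, 81938472, 0, 0, 0, ⟨0, 0⟩, 0⟩, 0, 0⟩ 0 0) (.pos 43 .mp ⟨⟨113222387, 0, 0, 0, 0, 82178671, 0, 0, 0, ⟨0, 0⟩, 0⟩, 0, 0⟩ 0 0)) (.cut .v 16793600 (.cut .s 10602496 (.pos 51 .mp ⟨⟨114202444, 0, 0, 0, 0, 78728485, 0, 0, 0, ⟨0, 0⟩, 0⟩, 0, 0⟩ 0 0) (.pos 51 .mp ⟨⟨114520708, 0, 0, 0, 0, 79159811, 0, 0, 0, ⟨0, 0⟩, 0⟩, 0, 0⟩ 0 0)) (.pos 52 .mp ⟨⟨123080917, 0, 0, 0, 0, 66716020, 0, 0, 0, ⟨0, 0⟩, 0⟩, 0, 0⟩ 0 0))))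 (.cut .s 10620928 (.cut .d (-8192) (.cut .s 10614784 (.pos 43 .mp ⟨⟨113669453, 0, 0, 0, 0, 82422122, 0, 0, 0, ⟨0, 0⟩, 0⟩, 0, 0⟩ 0 0) (.pos 43 .mp ⟨⟨114118207, 0, 0, 0, 0, 82668836, 0, 0, 0, ⟨0, 0⟩, 0⟩, 0, 0⟩ 0 0)) (.cut .v 16793600 (.cut .l 102527 (.cut .d (-4096) (.pos 51 .mp ⟨⟨113952898, 0, 0, 0, 0, 82281303, 0, 0, 0, ⟨0, 0⟩, 0⟩, 0, 0⟩ 0 0) (.cut .s 10614784 (.pos 51 .mp ⟨⟨115460281, 0, 0, 0, 0, 78610330, 0, 0, 0, ⟨0, 0⟩, 0⟩, 0, 0⟩ 0 0) (.pos 51 .mp ⟨⟨115884402, 0, 0, 0, 0, 78889352, 0, 0, 0, ⟨0, 0⟩, 0⟩, 0, 0⟩ 0 0))) (.pos 51 .mp ⟨⟨113355450, 0, 0, 0, 0, 80777156, 0, 0, 0, ⟨0, 0⟩, 0⟩, 0, 0⟩ 0 0)) (.pos 52 .mp ⟨⟨123886834, 0,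 0, 0, 0, 67317847, 0, 0, 0, ⟨0, 0⟩, 0⟩, 0, 0⟩ 0 0))) (.cut .d (-8192) (.cut .s 10627072 (.pos 43 .mp ⟨⟨114568654, 0, 0, 0, 0, 82918825, 0, 0, 0, ⟨0, 0⟩, 0⟩, 0, 0⟩ 0 0) (.pos 43 .mp ⟨⟨115020800, 0, 0, 0, 0, 83172101, 0, 0, 0, ⟨0, 0⟩, 0⟩, 0, 0⟩ 0 0)) (.cut .v 16793600 (.cut .l 102527 (.cut .d (-4096) (.pos 51 .mp ⟨⟨114851240, 0, 0, 0, 0, 82783123, 0, 0, 0, ⟨0, 0⟩, 0⟩, 0, 0⟩ 0 0) (.cut .s 10627072 (.pos 51 .mp ⟨⟨116356896, 0, 0, 0, 0, 79103619, 0, 0, 0, ⟨0, 0⟩, 0⟩, 0, 0⟩ 0 0) (.pos 51 .mp ⟨⟨116829243, 0, 0, 0, 0, 79323341, 0, 0, 0, ⟨0, 0⟩, 0⟩, 0, 0⟩ 0 0))) (.pos 51 .mp ⟨⟨114246756, 0, 0, 0, 0, 81298265, 0, 0, 0, ⟨0, 0⟩, 0⟩, 0, 0⟩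 0 0)) (.pos 52 .mp ⟨⟨124736424, 0, 0, 0, 0, 67877695, 0, 0, 0, ⟨0, 0⟩, 0⟩, 0, 0⟩ 0 0))))) (.cut .s 10657792 (.cut .s 10645504 (.cut .d (-8192) (.cut .s 10639360 (.pos 43 .mp ⟨⟨115474648, 0, 0, 0, 0, 83428675, 0, 0, 0, ⟨0, 0⟩, 0⟩, 0, 0⟩ 0 0) (.pos 43 .mp ⟨⟨115930204, 0, 0, 0, 0, 83688560, 0, 0, 0, ⟨0, 0⟩, 0⟩, 0, 0⟩ 0 0)) (.cut .v 16793600 (.cut .l 102527 (.cut .d (-4096) (.pos 51 .mp ⟨⟨115756375, 0, 0, 0, 0, 83298083, 0, 0, 0, ⟨0, 0⟩, 0⟩, 0, 0⟩ 0 0) (.cut .s 10639360 (.pos 51 .mp ⟨⟨117300892, 0, 0, 0, 0, 79549330, 0, 0, 0, ⟨0, 0⟩, 0⟩, 0, 0⟩ 0 0) (.pos 51 .mp ⟨⟨117771807, 0, 0, 0, 0, 79781654, 0, 0, 0, ⟨0, 0⟩, 0⟩, 0, 0⟩ 0 0))) (.pos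 51 .mp ⟨⟨115144772, 0, 0, 0, 0, 81823818, 0, 0, 0, ⟨0, 0⟩, 0⟩, 0, 0⟩ 0 0)) (.pos 52 .mp ⟨⟨125630714, 0, 0, 0, 0, 68394015, 0, 0, 0, ⟨0, 0⟩, 0⟩, 0, 0⟩ 0 0))) (.cut .d (-8192) (.cut .s 10651648 (.pos 43 .mp ⟨⟨116387471, 0, 0, 0, 0, 83951766, 0, 0, 0, ⟨0, 0⟩, 0⟩, 0, 0⟩ 0 0) (.pos 43 .mp ⟨⟨116846454, 0, 0, 0, 0, 84218307, 0, 0, 0, ⟨0, 0⟩, 0⟩, 0, 0⟩ 0 0)) (.cut .l 102527 (.cut .v 16793600 (.cut .d (-4096) (.pos 51 .mp ⟨⟨116668340, 0, 0, 0, 0, 83826279, 0, 0, 0, ⟨0, 0⟩, 0⟩, 0, 0⟩ 0 0) (.cut .s 10651648 (.pos 51 .mp ⟨⟨118241952, 0, 0, 0, 0, 80020380, 0, 0, 0, ⟨0, 0⟩, 0⟩, 0, 0⟩ 0 0) (.pos 51 .mp ⟨⟨118711292, 0, 0, 0, 0, 80265574, 0, 0,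 0, ⟨0, 0⟩, 0⟩, 0, 0⟩ 0 0))) (.pos 52 .mp ⟨⟨180941550, 0, 0, 0, 0, 0, 0, 0, 0, ⟨0, 0⟩, 0⟩, 0, 0⟩ 0 0)) (.pos 43 .mp ⟨⟨118302576, 0, 0, 0, 0, 79081081, 0, 0, 0, ⟨0, 0⟩, 0⟩, 0, 0⟩ 0 0)))) (.cut .s 10670080 (.cut .d (-8192) (.cut .s 10663936 (.pos 43 .mp ⟨⟨117307159, 0, 0, 0, 0, 84488193, 0, 0, 0, ⟨0, 0⟩, 0⟩, 0, 0⟩ 0 0) (.pos 43 .mp ⟨⟨117769589, 0, 0, 0, 0, 84761438, 0, 0, 0, ⟨0, 0⟩, 0⟩, 0, 0⟩ 0 0)) (.cut .l 102527 (.cut .v 16793600 (.cut .d (-4096) (.pos 51 .mp ⟨⟨117587172, 0, 0, 0, 0, 84367805, 0, 0, 0, ⟨0, 0⟩, 0⟩, 0, 0⟩ 0 0) (.cut .s 10663936 (.pos 51 .mp ⟨⟨119179791, 0, 0, 0, 0, 80517305, 0, 0, 0, ⟨0, 0⟩, 0⟩, 0, 0⟩ 0 0) (.pos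 51 .mp ⟨⟨119647412, 0, 0, 0, 0, 80775640, 0, 0, 0, ⟨0, 0⟩, 0⟩, 0, 0⟩ 0 0))) (.pos 52 .mp ⟨⟨182198460, 0, 0, 0, 0, 0, 0, 0, 0, ⟨0, 0⟩, 0⟩, 0, 0⟩ 0 0)) (.pos 43 .mp ⟨⟨119231288, 0, 0, 0, 0, 79589057, 0, 0, 0, ⟨0, 0⟩, 0⟩, 0, 0⟩ 0 0))) (.cut .d (-8192) (.cut .s 10676224 (.pos 43 .mp ⟨⟨118233750, 0, 0, 0, 0, 85038053, 0, 0, 0, ⟨0, 0⟩, 0⟩, 0, 0⟩ 0 0) (.pos 43 .mp ⟨⟨118699645, 0, 0, 0, 0, 85318049, 0, 0, 0, ⟨0, 0⟩, 0⟩, 0, 0⟩ 0 0)) (.cut .l 102527 (.cut .v 16793600 (.cut .d (-4096) (.pos 51 .mp ⟨⟨118512908, 0, 0, 0, 0, 84922757, 0, 0, 0, ⟨0, 0⟩, 0⟩, 0, 0⟩ 0 0) (.cut .s 10676224 (.pos 51 .mp ⟨⟨120114119, 0, 0, 0, 0, 81040649, 0, 0, 0,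 ⟨0, 0⟩, 0⟩, 0, 0⟩ 0 0) (.pos 51 .mp ⟨⟨120579875, 0, 0, 0, 0, 81312400, 0, 0, 0, ⟨0, 0⟩, 0⟩, 0, 0⟩ 0 0))) (.pos 52 .mp ⟨⟨183464580, 0, 0, 0, 0, 0, 0, 0, 0, ⟨0, 0⟩, 0⟩, 0, 0⟩ 0 0)) (.pos 43 .mp ⟨⟨120166891, 0, 0, 0, 0, 80100977, 0, 0, 0, ⟨0, 0⟩, 0⟩, 0, 0⟩ 0 0)))))) (.pos 44 .mp ⟨⟨175898551, 0, 0, 0, 0, 0, 0, 0, 0, ⟨0, 0⟩, 0⟩, 0, 0⟩ 0 0))) (.pos 42 .mp ⟨⟨173529334, 0, 0, 0, 0, 0, 0, 0, 0, ⟨0, 0⟩, 0⟩, 0, 0⟩ 0 0)) (.cut .v 16842752 (.cut .s 10780672 (.cut .v 16809984 (.cut .s 10731520 (.cut .s 10706944 (.cut .s 10694656 (.cut .d (-8192) (.cut .s 10688512 (.pos 43 .mp ⟨⟨119167280, 0, 0, 0, 0, 85601441, 0, 0, 0, ⟨0, 0⟩, 0⟩, 0, 0⟩ 0 0)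 (.pos 43 .mp ⟨⟨119636660, 0, 0, 0, 0, 85888238, 0, 0, 0, ⟨0, 0⟩, 0⟩, 0, 0⟩ 0 0)) (.cut .v 16793600 (.cut .l 102527 (.cut .d (-4096) (.pos 51 .mp ⟨⟨119445586, 0, 0, 0, 0, 85491232, 0, 0, 0, ⟨0, 0⟩, 0⟩, 0, 0⟩ 0 0) (.cut .s 10688512 (.pos 51 .mp ⟨⟨121044643, 0, 0, 0, 0, 81590962, 0, 0, 0, ⟨0, 0⟩, 0⟩, 0, 0⟩ 0 0) (.pos 51 .mp ⟨⟨121508386, 0, 0, 0, 0, 81876407, 0, 0, 0, ⟨0, 0⟩, 0⟩, 0, 0⟩ 0 0))) (.pos 51 .mp ⟨⟨118804665, 0, 0, 0, 0, 83967871, 0, 0, 0, ⟨0, 0⟩, 0⟩, 0, 0⟩ 0 0)) (.pos 52 .mp ⟨⟨129675627, 0, 0, 0, 0, 69992599, 0, 0, 0, ⟨0, 0⟩, 0⟩, 0, 0⟩ 0 0))) (.cut .d (-8192) (.cut .s 10700800 (.pos 43 .mp ⟨⟨120107789, 0, 0, 0, 0, 86178454,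 0, 0, 0, ⟨0, 0⟩, 0⟩, 0, 0⟩ 0 0) (.pos 43 .mp ⟨⟨120580672, 0, 0, 0, 0, 86472101, 0, 0, 0, ⟨0, 0⟩, 0⟩, 0, 0⟩ 0 0)) (.cut .v 16793600 (.cut .l 102527 (.cut .d (-4096) (.pos 51 .mp ⟨⟨120385243, 0, 0, 0, 0, 86073326, 0, 0, 0, ⟨0, 0⟩, 0⟩, 0, 0⟩ 0 0) (.cut .s 10700800 (.pos 51 .mp ⟨⟨121971066, 0, 0, 0, 0, 82168804, 0, 0, 0, ⟨0, 0⟩, 0⟩, 0, 0⟩ 0 0) (.pos 51 .mp ⟨⟨122432646, 0, 0, 0, 0, 82468225, 0, 0, 0, ⟨0, 0⟩, 0⟩, 0, 0⟩ 0 0))) (.pos 51 .mp ⟨⟨119736779, 0, 0, 0, 0, 84513696, 0, 0, 0, ⟨0, 0⟩, 0⟩, 0, 0⟩ 0 0)) (.pos 52 .mp ⟨⟨130809029, 0, 0, 0, 0, 70267603, 0, 0, 0, ⟨0, 0⟩, 0⟩, 0, 0⟩ 0 0)))) (.cut .s 10719232 (.cut .d (-8192) (.pos 43 .mp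 ⟨⟨121055314, 0, 0, 0, 0, 87370568, 0, 0, 0, ⟨0, 0⟩, 0⟩, 0, 0⟩ 0 0) (.cut .v 16793600 (.cut .s 10713088 (.cut .s 10710016 (.pos 51 .mp ⟨⟨124196626, 0, 0, 0, 0, 80780902, 0, 0, 0, ⟨0, 0⟩, 0⟩, 0, 0⟩ 0 0) (.pos 51 .mp ⟨⟨124463574, 0, 0, 0, 0, 80882010, 0, 0, 0, ⟨0, 0⟩, 0⟩, 0, 0⟩ 0 0)) (.pos 51 .mp ⟨⟨122822923, 0, 0, 0, 0, 83951759, 0, 0, 0, ⟨0, 0⟩, 0⟩, 0, 0⟩ 0 0)) (.pos 52 .mp ⟨⟨131993415, 0, 0, 0, 0, 70489516, 0, 0, 0, ⟨0, 0⟩, 0⟩, 0, 0⟩ 0 0))) (.cut .d (-8192) (.pos 43 .mp ⟨⟨122009893, 0, 0, 0, 0, 87981671, 0, 0, 0, ⟨0, 0⟩, 0⟩, 0, 0⟩ 0 0) (.cut .v 16793600 (.cut .s 10725376 (.pos 51 .mp ⟨⟨123367210, 0, 0, 0, 0, 84141814, 0, 0, 0,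 ⟨0, 0⟩, 0⟩, 0, 0⟩ 0 0) (.pos 51 .mp ⟨⟨124033895, 0, 0, 0, 0, 84152841, 0, 0, 0, ⟨0, 0⟩, 0⟩, 0, 0⟩ 0 0)) (.pos 52 .mp ⟨⟨133229853, 0, 0, 0, 0, 70656697, 0, 0, 0, ⟨0, 0⟩, 0⟩, 0, 0⟩ 0 0))))) (.cut .s 10756096 (.cut .s 10743808 (.cut .d (-8192) (.pos 43 .mp ⟨⟨122971565, 0, 0, 0, 0, 88606717, 0, 0, 0, ⟨0, 0⟩, 0⟩, 0, 0⟩ 0 0) (.cut .s 10737664 (.pos 43 .mp ⟨⟨125850713, 0, 0, 0, 0, 82457207, 0, 0, 0, ⟨0, 0⟩, 0⟩, 0, 0⟩ 0 0) (.pos 43 .mp ⟨⟨126344850, 0, 0, 0, 0, 82737275, 0, 0, 0, ⟨0, 0⟩, 0⟩, 0, 0⟩ 0 0))) (.cut .d (-8192) (.pos 43 .mp ⟨⟨123940369, 0, 0, 0, 0, 89245807, 0, 0, 0, ⟨0, 0⟩, 0⟩, 0, 0⟩ 0 0) (.cut .s 10749952 (.pos 43 .mp ⟨⟨126840831,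 0, 0, 0, 0, 83019743, 0, 0, 0, ⟨0, 0⟩, 0⟩, 0, 0⟩ 0 0) (.pos 43 .mp ⟨⟨127338661, 0, 0, 0, 0, 83304611, 0, 0, 0, ⟨0, 0⟩, 0⟩, 0, 0⟩ 0 0)))) (.cut .s 10768384 (.cut .d (-8192) (.pos 43 .mp ⟨⟨124916344, 0, 0, 0, 0, 89899042, 0, 0, 0, ⟨0, 0⟩, 0⟩, 0, 0⟩ 0 0) (.cut .s 10762240 (.pos 43 .mp ⟨⟨127838344, 0, 0, 0, 0, 83591876, 0, 0, 0, ⟨0, 0⟩, 0⟩, 0, 0⟩ 0 0) (.pos 43 .mp ⟨⟨128339887, 0, 0, 0, 0, 83881537, 0, 0, 0, ⟨0, 0⟩, 0⟩, 0, 0⟩ 0 0))) (.cut .d (-8192) (.pos 43 .mp ⟨⟨125899531, 0, 0, 0, 0, 90566524, 0, 0, 0, ⟨0, 0⟩, 0⟩, 0, 0⟩ 0 0) (.cut .s 10774528 (.pos 43 .mp ⟨⟨128843294, 0, 0, 0, 0, 84173593, 0, 0, 0, ⟨0, 0⟩, 0⟩, 0, 0⟩ 0 0) (.pos 43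 .mp ⟨⟨129304916, 0, 0, 0, 0, 84537289, 0, 0, 0, ⟨0, 0⟩, 0⟩, 0, 0⟩ 0 0)))))) (.pos 44 .mp ⟨⟨186038473, 0, 0, 0, 0, 0, 0, 0, 0, ⟨0, 0⟩, 0⟩, 0, 0⟩ 0 0)) (.cut .v 16809984 (.cut .s 10829824 (.cut .s 10805248 (.cut .s 10792960 (.cut .d (-8192) (.pos 43 .mp ⟨⟨126889968, 0, 0, 0, 0, 91248355, 0, 0, 0, ⟨0, 0⟩, 0⟩, 0, 0⟩ 0 0) (.cut .s 10786816 (.pos 43 .mp ⟨⟨129756966, 0, 0, 0, 0, 84921591, 0, 0, 0, ⟨0, 0⟩, 0⟩, 0, 0⟩ 0 0) (.pos 43 .mp ⟨⟨130207407, 0, 0, 0, 0, 85313884, 0, 0, 0, ⟨0, 0⟩, 0⟩, 0, 0⟩ 0 0))) (.cut .s 10799104 (.cut .s 10796032 (.pos 43 .mp ⟨⟨131918275, 0, 0, 0, 0, 83690301, 0, 0, 0, ⟨0, 0⟩, 0⟩, 0, 0⟩ 0 0) (.pos 43 .mp ⟨⟨132323601,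 0, 0, 0, 0, 83613377, 0, 0, 0, ⟨0, 0⟩, 0⟩, 0, 0⟩ 0 0)) (.pos 43 .mp ⟨⟨130051126, 0, 0, 0, 0, 87850350, 0, 0, 0, ⟨0, 0⟩, 0⟩, 0, 0⟩ 0 0))) (.cut .s 10817536 (.cut .s 10811392 (.pos 43 .mp ⟨⟨130759814, 0, 0, 0, 0, 87855759, 0, 0, 0, ⟨0, 0⟩, 0⟩, 0, 0⟩ 0 0) (.pos 43 .mp ⟨⟨131638367, 0, 0, 0, 0, 87609243, 0, 0, 0, ⟨0, 0⟩, 0⟩, 0, 0⟩ 0 0)) (.cut .s 10823680 (.pos 43 .mp ⟨⟨132536077, 0, 0, 0, 0, 87338132, 0, 0, 0, ⟨0, 0⟩, 0⟩, 0, 0⟩ 0 0) (.pos 43 .mp ⟨⟨133453065, 0, 0, 0, 0, 87042216, 0, 0, 0, ⟨0, 0⟩, 0⟩, 0, 0⟩ 0 0)))) (.cut .s 10854400 (.cut .d (-8192) (.pos 43 .mp ⟨⟨130925041, 0, 0, 0, 0, 95464367, 0, 0, 0, ⟨0, 0⟩, 0⟩, 0, 0⟩ 0 0) (.cut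 .l 102527 (.cut .v 16793600 (.cut .d (-4096) (.pos 51 .mp ⟨⟨131193215, 0, 0, 0, 0, 94744462, 0, 0, 0, ⟨0, 0⟩, 0⟩, 0, 0⟩ 0 0) (.cut .s 10842112 (.pos 51 .mp ⟨⟨133495704, 0, 0, 0, 0, 88238229, 0, 0, 0, ⟨0, 0⟩, 0⟩, 0, 0⟩ 0 0) (.pos 51 .mp ⟨⟨134476101, 0, 0, 0, 0, 88997034, 0, 0, 0, ⟨0, 0⟩, 0⟩, 0, 0⟩ 0 0))) (.pos 52 .mp ⟨⟨200797120, 0, 0, 0, 0, 0, 0, 0, 0, ⟨0, 0⟩, 0⟩, 0, 0⟩ 0 0)) (.pos 43 .mp ⟨⟨133770665, 0, 0, 0, 0, 86026584, 0, 0, 0, ⟨0, 0⟩, 0⟩, 0, 0⟩ 0 0))) (.cut .d (-8192) (.pos 43 .mp ⟨⟨132987150, 0, 0, 0, 0, 97016722, 0, 0, 0, ⟨0, 0⟩, 0⟩, 0, 0⟩ 0 0) (.cut .s 10866688 (.pos 43 .mp ⟨⟨136621671, 0, 0, 0, 0, 88097291, 0, 0, 0, ⟨0,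 0⟩, 0⟩, 0, 0⟩ 0 0) (.pos 43 .mp ⟨⟨137691530, 0, 0, 0, 0, 88751993, 0, 0, 0, ⟨0, 0⟩, 0⟩, 0, 0⟩ 0 0))))) (.pos 44 .mp ⟨⟨197059686, 0, 0, 0, 0, 0, 0, 0, 0, ⟨0, 0⟩, 0⟩, 0, 0⟩ 0 0))) (.pos 42 .mp ⟨⟨194155524, 0, 0, 0, 0, 0, 0, 0, 0, ⟨0, 0⟩, 0⟩, 0, 0⟩ 0 0))) (.pos 36 .mp ⟨⟨193434128, 0, 0, 0, 0, 0, 0, 0, 0, ⟨0, 0⟩, 0⟩, 0, 0⟩ 0 0))))))) (.void 34 ⟨⟨100000, 0, 0, 0, 0, 0, 0, 0, 0, ⟨0, 0⟩, 0⟩, 0, 0⟩ 0 0))) (.void 32 ⟨⟨100000, 0, 0, 0, 0, 0, 0, 0, 0, ⟨0, 0⟩, 0⟩, 0, 0⟩ 0 0))) (.void 30 ⟨⟨100000, 0, 0, 0, 0, 0, 0, 0, 0, ⟨0, 0⟩, 0⟩, 0, 0⟩ 0 0))) (.void 28 ⟨⟨100000, 0, 0, 0, 0, 0, 0, 0, 0, ⟨0, 0⟩, 0⟩, 0, 0⟩ 0 0))) (.void 26 ⟨⟨100000, 0, 0,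 0, 0, 0, 0, 0, 0, ⟨0, 0⟩, 0⟩, 0, 0⟩ 0 0))) (.void 24 ⟨⟨100000, 0, 0, 0, 0, 0, 0, 0, 0, ⟨0, 0⟩, 0⟩, 0, 0⟩ 0 0)) (.void 105 ⟨⟨100000, 0, 0, 0, 0, 0, 0, 0, 0, ⟨0, 0⟩, 0⟩, 0, 0⟩ 0 0)) (.void 124 ⟨⟨100000, 0, 0, 0, 0, 0, 0, 0, 0, ⟨0, 0⟩, 0⟩, 0, 0⟩ 0 0))) (.cut .v 16777216 (.cut .v 8388608 (.cut .v 4194304 (.cut .v 2097152 (.void 6 ⟨⟨0, 0, 66667, 0, 0, 0, 0, 0, 0, ⟨0, 0⟩, 0⟩, 0, 33333⟩ 0 0) (.pos 7 .pm ⟨⟨0, 0, 32149359, 0, 0, 0, 0, 0, 0, ⟨0, 0⟩, 0⟩, 0, 89085⟩ 0 0)) (.pos 5 .pm ⟨⟨0, 0, 2133529, 0, 0, 0, 0, 0, 0, ⟨0, 0⟩, 0⟩, 0, 0⟩ 0 0)) (.pos 3 .pm ⟨⟨0, 0, 0, 0, 0, 0, 0, 0, 0, ⟨0, 0⟩, 0⟩, 0, 0⟩ 0 0)) (.cut .v 67108864 (.cut .d 5033166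 (.cut .d 2516583 (.cut .v 33554432 (.cut .v 25165824 (.cut .d 1258291 (.cut .d 629145 (.cut .v 20971520 (.cut .d 314572 (.cut .v 18874368 (.cut .s 10682368 (.pos 27 .pp ⟨⟨100510187, 0, 0, 0, 0, 0, 0, 0, 0, ⟨0, 0⟩, 0⟩, 5608172, 0⟩ 0 0) (.pos 27 .pp ⟨⟨125829212, 0, 0, 0, 0, 0, 0, 0, 0, ⟨0, 0⟩, 0⟩, 5011974, 0⟩ 0 0)) (.pos 28 .pp ⟨⟨223060029, 0, 0, 0, 0, 0, 0, 0, 0, ⟨0, 0⟩, 0⟩, 0, 0⟩ 0 0)) (.pos 25 .pp ⟨⟨0, 0, 0, 0, 0, 0, 0, 0, 0, ⟨0, 0⟩, 0⟩, 11588910, 106773⟩ 0 0)) (.cut .d 314572 (.pos 26 .pp ⟨⟨1002427, 0, 0, 0, 0, 0, 0, 0, 0, ⟨0, 0⟩, 0⟩, 25644863, 0⟩ 0 0) (.pos 26 .pp ⟨⟨0, 0, 0, 0, 0, 0, 0, 0, 0, ⟨0, 0⟩, 0⟩, 19464528, 0⟩ 0 0)))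 (.pos 23 .pp ⟨⟨0, 0, 0, 0, 0, 0, 0, 0, 0, ⟨0, 0⟩, 0⟩, 12110766, 98713⟩ 0 0)) (.pos 23 .pp ⟨⟨0, 0, 0, 0, 0, 0, 0, 0, 0, ⟨0, 0⟩, 0⟩, 0, 342918⟩ 0 0)) (.cut .d 1258291 (.cut .d 629145 (.pos 24 .pp ⟨⟨0, 0, 0, 0, 0, 0, 0, 0, 0, ⟨0, 0⟩, 0⟩, 44939947, 0⟩ 0 0) (.pos 24 .pp ⟨⟨0, 0, 0, 0, 0, 0, 0, 0, 0, ⟨0, 0⟩, 0⟩, 23603040, 0⟩ 0 0)) (.pos 24 .pp ⟨⟨0, 0, 0, 0, 0, 0, 212833, 0, 0, ⟨0, 0⟩, 0⟩, 13897345, 0⟩ 0 0))) (.cut .d 1258291 (.void 105 ⟨⟨0, 0, 0, 0, 0, 0, 0, 0, 0, ⟨0, 0⟩, 0⟩, 100000, 0⟩ 0 0) (.pos 105 .pp ⟨⟨0, 0, 0, 0, 0, 0, 0, 0, 0, ⟨0, 0⟩, 0⟩, 41015278, 0⟩ 0 0))) (.cut .v 33554432 (.pos 22 .pp ⟨⟨0, 0, 0, 0, 0, 0, 0, 0, 0, ⟨0, 0⟩, 0⟩,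 0, 381020⟩ 0 0) (.pos 105 .pp ⟨⟨0, 0, 0, 0, 0, 0, 0, 0, 0, ⟨0, 0⟩, 0⟩, 23308223, 0⟩ 0 0))) (.pos 104 .pp ⟨⟨0, 0, 0, 0, 0, 0, 0, 0, 0, ⟨0, 0⟩, 0⟩, 0, 285765⟩ 0 0)) (.void 124 ⟨⟨0, 93272, 0, 0, 0, 0, 0, 0, 0, ⟨0, 0⟩, 0⟩, 6728, 0⟩ 0 0)))),
    by decide +kernel⟩

def covers15 : cell.Covers Vale.Agent.P237.Petty.Cor.Grid.N18.table row15.1 :=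
  ⟨(.cut .d 0 (.cut .v 16777216 (.cut .d (-8388608) (.void 1 ⟨⟨0, 0, 0, 0, 0, 100000, 0, 0, 0, ⟨0, 0⟩, 0⟩, 0, 0⟩ 0 0) (.cut .d (-4194304) (.void 1 ⟨⟨0, 0, 0, 0, 0, 100000, 0, 0, 0, ⟨0, 0⟩, 0⟩, 0, 0⟩ 0 0) (.cut .d (-2097152) (.void 1 ⟨⟨0, 0, 0, 0, 0, 100000, 0, 0, 0, ⟨0, 0⟩, 0⟩, 0, 0⟩ 0 0) (.cut .d (-1048576) (.void 1 ⟨⟨0, 0, 0, 0, 0, 100000, 0, 0, 0, ⟨0, 0⟩, 0⟩, 0, 0⟩ 0 0) (.cut .d (-524288) (.void 1 ⟨⟨0, 0, 0, 0, 0, 100000, 0, 0, 0, ⟨0, 0⟩, 0⟩, 0, 0⟩ 0 0) (.cut .d (-262144) (.void 1 ⟨⟨0, 0, 0, 0, 0, 100000, 0, 0, 0, ⟨0, 0⟩, 0⟩, 0, 0⟩ 0 0) (.cut .d (-131072) (.void 1 ⟨⟨0, 0, 0, 0, 0, 100000, 0, 0, 0, ⟨0, 0⟩, 0⟩, 0, 0⟩ 0 0) (.cut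 .d (-65536) (.void 1 ⟨⟨0, 0, 0, 0, 0, 100000, 0, 0, 0, ⟨0, 0⟩, 0⟩, 0, 0⟩ 0 0) (.cut .d (-32768) (.void 1 ⟨⟨0, 0, 0, 0, 0, 100000, 0, 0, 0, ⟨0, 0⟩, 0⟩, 0, 0⟩ 0 0) (.cut .d (-16384) (.void 1 ⟨⟨0, 0, 0, 0, 0, 100000, 0, 0, 0, ⟨0, 0⟩, 0⟩, 0, 0⟩ 0 0) (.cut .v 8388608 (.cut .v 4194304 (.void 4 ⟨⟨0, 0, 100000, 0, 0, 0, 0, 0, 0, ⟨0, 0⟩, 0⟩, 0, 0⟩ 0 0) (.pos 5 .mm ⟨⟨0, 0, 3137734, 0, 0, 117479536, 0, 0, 0, ⟨0, 0⟩, 0⟩, 0, 0⟩ 0 0)) (.cut .v 12582912 (.pos 8 .mm ⟨⟨0, 0, 0, 0, 0, 189040493, 0, 0, 0, ⟨0, 0⟩, 0⟩, 0, 0⟩ 0 0) (.cut .v 14680064 (.pos 12 .mm ⟨⟨0, 0, 0, 0, 0, 226943453, 0, 0, 0, ⟨0, 0⟩, 0⟩, 0, 0⟩ 0 0) (.cut .v 15728640 (.pos 20 .mm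 ⟨⟨0, 0, 0, 0, 0, 246817770, 0, 0, 0, ⟨0, 0⟩, 0⟩, 0, 0⟩ 0 0) (.cut .v 16252928 (.pos 37 .mm ⟨⟨0, 0, 0, 0, 0, 256985638, 0, 0, 0, ⟨0, 0⟩, 0⟩, 0, 0⟩ 0 0) (.cut .v 16515072 (.pos 39 .mm ⟨⟨0, 0, 0, 0, 0, 298632722, 0, 0, 0, ⟨0, 0⟩, 0⟩, 0, 0⟩ 0 0) (.cut .v 16646144 (.pos 47 .mm ⟨⟨0, 0, 0, 0, 0, 316301258, 0, 0, 0, ⟨0, 0⟩, 0⟩, 0, 0⟩ 0 0) (.cut .v 16711680 (.pos 49 .mm ⟨⟨0, 0, 0, 0, 0, 325247117, 0, 0, 0, ⟨0, 0⟩, 0⟩, 0, 0⟩ 0 0) (.cut .v 16744448 (.pos 63 .mm ⟨⟨0, 0, 0, 0, 0, 329747989, 0, 0, 0, ⟨0, 0⟩, 0⟩, 0, 0⟩ 0 0) (.cut .s 11108352 (.cut .s 10993664 (.pos 64 .mm ⟨⟨0, 0, 0, 0, 0, 296360097, 0, 0, 0, ⟨0, 0⟩, 0⟩, 0, 0⟩ 0 0) (.pos 64 .mm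 ⟨⟨0, 0, 0, 0, 0, 318392770, 0, 0, 0, ⟨0, 0⟩, 0⟩, 0, 0⟩ 0 0)) (.cut .s 11223040 (.pos 64 .mm ⟨⟨0, 0, 0, 0, 0, 342959978, 0, 0, 0, ⟨0, 0⟩, 0⟩, 0, 0⟩ 0 0) (.pos 64 .mm ⟨⟨0, 0, 0, 0, 0, 370137235, 0, 0, 0, ⟨0, 0⟩, 0⟩, 0, 0⟩ 0 0)))))))))))))))))))))) (.cut .v 268435456 (.cut .v 67108864 (.cut .v 33554432 (.cut .v 25165824 (.cut .d (-8388608) (.void 23 ⟨⟨0, 0, 0, 0, 0, 100000, 0, 0, 0, ⟨0, 0⟩, 0⟩, 0, 0⟩ 0 0) (.cut .v 20971520 (.cut .d (-4194304) (.void 25 ⟨⟨100000, 0, 0, 0, 0, 0, 0, 0, 0, ⟨0, 0⟩, 0⟩, 0, 0⟩ 0 0) (.cut .v 18874368 (.cut .d (-2097152) (.void 27 ⟨⟨100000, 0, 0, 0, 0, 0, 0, 0, 0, ⟨0, 0⟩, 0⟩, 0, 0⟩ 0 0) (.cut .v 17825792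 (.cut .d (-1048576) (.void 29 ⟨⟨100000, 0, 0, 0, 0, 0, 0, 0, 0, ⟨0, 0⟩, 0⟩, 0, 0⟩ 0 0) (.cut .d (-524288) (.void 29 ⟨⟨100000, 0, 0, 0, 0, 0, 0, 0, 0, ⟨0, 0⟩, 0⟩, 0, 0⟩ 0 0) (.cut .d (-262144) (.void 29 ⟨⟨100000, 0, 0, 0, 0, 0, 0, 0, 0, ⟨0, 0⟩, 0⟩, 0, 0⟩ 0 0) (.cut .d (-131072) (.void 29 ⟨⟨100000, 0, 0, 0, 0, 0, 0, 0, 0, ⟨0, 0⟩, 0⟩, 0, 0⟩ 0 0) (.cut .d (-65536) (.void 29 ⟨⟨100000, 0, 0, 0, 0, 0, 0, 0, 0, ⟨0, 0⟩, 0⟩, 0, 0⟩ 0 0) (.cut .d (-32768) (.void 29 ⟨⟨100000, 0, 0, 0, 0, 0, 0, 0, 0, ⟨0, 0⟩, 0⟩, 0, 0⟩ 0 0) (.cut .d (-16384) (.void 29 ⟨⟨0, 0, 0, 0, 0, 100000, 0, 0, 0, ⟨0, 0⟩, 0⟩, 0, 0⟩ 0 0) (.cut .v 17301504 (.cut .v 17039360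 (.cut .v 16908288 (.cut .s 11108352 (.cut .v 16842752 (.cut .s 10993664 (.cut .s 10936320 (.cut .v 16809984 (.cut .s 10907648 (.cut .d (-8192) (.pos 43 .mp ⟨⟨135084297, 0, 0, 0, 0, 99053097, 0, 0, 0, ⟨0, 0⟩, 0⟩, 0, 0⟩ 0 0) (.cut .v 16793600 (.cut .s 10893312 (.pos 51 .mp ⟨⟨137532866, 0, 0, 0, 0, 91407139, 0, 0, 0, ⟨0, 0⟩, 0⟩, 0, 0⟩ 0 0) (.cut .s 10900480 (.pos 51 .mp ⟨⟨141662269, 0, 0, 0, 0, 87302594, 0, 0, 0, ⟨0, 0⟩, 0⟩, 0, 0⟩ 0 0) (.pos 51 .mp ⟨⟨142044205, 0, 0, 0, 0, 87915248, 0, 0, 0, ⟨0, 0⟩, 0⟩, 0, 0⟩ 0 0))) (.pos 52 .mp ⟨⟨161370430, 0, 0, 0, 0, 58281944, 0, 0, 0, ⟨0, 0⟩, 0⟩, 0, 0⟩ 0 0))) (.cut .s 10921984 (.cut .s 10914816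 (.pos 43 .mp ⟨⟨141045112, 0, 0, 0, 0, 90621193, 0, 0, 0, ⟨0, 0⟩, 0⟩, 0, 0⟩ 0 0) (.pos 43 .mp ⟨⟨141089277, 0, 0, 0, 0, 91810467, 0, 0, 0, ⟨0, 0⟩, 0⟩, 0, 0⟩ 0 0)) (.cut .s 10929152 (.pos 43 .mp ⟨⟨141155345, 0, 0, 0, 0, 92975707, 0, 0, 0, ⟨0, 0⟩, 0⟩, 0, 0⟩ 0 0) (.pos 43 .mp ⟨⟨141322270, 0, 0, 0, 0, 93996839, 0, 0, 0, ⟨0, 0⟩, 0⟩, 0, 0⟩ 0 0)))) (.pos 44 .mp ⟨⟨208225529, 0, 0, 0, 0, 0, 0, 0, 0, ⟨0, 0⟩, 0⟩, 0, 0⟩ 0 0)) (.cut .v 16809984 (.cut .s 10964992 (.cut .s 10950656 (.cut .d (-8192) (.pos 43 .mp ⟨⟨140103794, 0, 0, 0, 0, 99519595, 0, 0, 0, ⟨0, 0⟩, 0⟩, 0, 0⟩ 0 0) (.cut .s 10943488 (.pos 43 .mp ⟨⟨143299875, 0, 0, 0, 0, 92091336, 0,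 0, 0, ⟨0, 0⟩, 0⟩, 0, 0⟩ 0 0) (.pos 43 .mp ⟨⟨143989154, 0, 0, 0, 0, 92307003, 0, 0, 0, ⟨0, 0⟩, 0⟩, 0, 0⟩ 0 0))) (.cut .d (-8192) (.pos 43 .mp ⟨⟨141387474, 0, 0, 0, 0, 100101857, 0, 0, 0, ⟨0, 0⟩, 0⟩, 0, 0⟩ 0 0) (.cut .s 10957824 (.pos 43 .mp ⟨⟨144746607, 0, 0, 0, 0, 92430901, 0, 0, 0, ⟨0, 0⟩, 0⟩, 0, 0⟩ 0 0) (.pos 43 .mp ⟨⟨145418455, 0, 0, 0, 0, 92701236, 0, 0, 0, ⟨0, 0⟩, 0⟩, 0, 0⟩ 0 0)))) (.cut .s 10979328 (.cut .d (-8192) (.pos 43 .mp ⟨⟨142682831, 0, 0, 0, 0, 100707391, 0, 0, 0, ⟨0, 0⟩, 0⟩, 0, 0⟩ 0 0) (.cut .s 10972160 (.pos 43 .mp ⟨⟨146081393, 0, 0, 0, 0, 92995151, 0, 0, 0, ⟨0, 0⟩, 0⟩, 0, 0⟩ 0 0) (.pos 43 .mp ⟨⟨146747365, 0, 0,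 0, 0, 93293512, 0, 0, 0, ⟨0, 0⟩, 0⟩, 0, 0⟩ 0 0))) (.cut .d (-8192) (.pos 43 .mp ⟨⟨143989942, 0, 0, 0, 0, 101336400, 0, 0, 0, ⟨0, 0⟩, 0⟩, 0, 0⟩ 0 0) (.cut .s 10986496 (.pos 43 .mp ⟨⟨147416379, 0, 0, 0, 0, 93596318, 0, 0, 0, ⟨0, 0⟩, 0⟩, 0, 0⟩ 0 0) (.cut .s 10990080 (.pos 43 .mp ⟨⟨147857507, 0, 0, 0, 0, 94052905, 0, 0, 0, ⟨0, 0⟩, 0⟩, 0, 0⟩ 0 0) (.pos 43 .mp ⟨⟨148141572, 0, 0, 0, 0, 94282018, 0, 0, 0, ⟨0, 0⟩, 0⟩, 0, 0⟩ 0 0)))))) (.pos 44 .mp ⟨⟨214970480, 0, 0, 0, 0, 0, 0, 0, 0, ⟨0, 0⟩, 0⟩, 0, 0⟩ 0 0))) (.cut .s 11051008 (.cut .v 16809984 (.cut .s 11022336 (.cut .s 11008000 (.cut .d (-8192) (.pos 43 .mp ⟨⟨145308887, 0, 0, 0, 0, 101989093,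 0, 0, 0, ⟨0, 0⟩, 0⟩, 0, 0⟩ 0 0) (.cut .v 16793600 (.cut .l 102527 (.cut .d (-4096) (.pos 51 .mp ⟨⟨145550580, 0, 0, 0, 0, 101272356, 0, 0, 0, ⟨0, 0⟩, 0⟩, 0, 0⟩ 0 0) (.cut .s 11000832 (.pos 51 .mp ⟨⟨147523280, 0, 0, 0, 0, 95997830, 0, 0, 0, ⟨0, 0⟩, 0⟩, 0, 0⟩ 0 0) (.pos 51 .mp ⟨⟨148245052, 0, 0, 0, 0, 96241280, 0, 0, 0, ⟨0, 0⟩, 0⟩, 0, 0⟩ 0 0))) (.pos 51 .mp ⟨⟨144690105, 0, 0, 0, 0, 99268074, 0, 0, 0, ⟨0, 0⟩, 0⟩, 0, 0⟩ 0 0)) (.pos 52 .mp ⟨⟨160744111, 0, 0, 0, 0, 77712237, 0, 0, 0, ⟨0, 0⟩, 0⟩, 0, 0⟩ 0 0))) (.cut .d (-8192) (.pos 43 .mp ⟨⟨146639746, 0, 0, 0, 0, 102665677, 0, 0, 0, ⟨0, 0⟩, 0⟩, 0, 0⟩ 0 0) (.cut .l 102527 (.cut .d (-4096)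 (.pos 43 .mp ⟨⟨148873508, 0, 0, 0, 0, 98712340, 0, 0, 0, ⟨0, 0⟩, 0⟩, 0, 0⟩ 0 0) (.cut .s 11015168 (.pos 43 .mp ⟨⟨149243231, 0, 0, 0, 0, 96095971, 0, 0, 0, ⟨0, 0⟩, 0⟩, 0, 0⟩ 0 0) (.pos 43 .mp ⟨⟨149921628, 0, 0, 0, 0, 96429972, 0, 0, 0, ⟨0, 0⟩, 0⟩, 0, 0⟩ 0 0))) (.pos 43 .mp ⟨⟨149394023, 0, 0, 0, 0, 94952975, 0, 0, 0, ⟨0, 0⟩, 0⟩, 0, 0⟩ 0 0)))) (.cut .s 11036672 (.cut .d (-8192) (.pos 43 .mp ⟨⟨147982599, 0, 0, 0, 0, 103366364, 0, 0, 0, ⟨0, 0⟩, 0⟩, 0, 0⟩ 0 0) (.cut .l 102527 (.cut .v 16793600 (.cut .d (-4096) (.pos 51 .mp ⟨⟨148218436, 0, 0, 0, 0, 102651441, 0, 0, 0, ⟨0, 0⟩, 0⟩, 0, 0⟩ 0 0) (.cut .s 11029504 (.pos 51 .mp ⟨⟨150310563,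 0, 0, 0, 0, 97194615, 0, 0, 0, ⟨0, 0⟩, 0⟩, 0, 0⟩ 0 0) (.cut .s 11033088 (.pos 51 .mp ⟨⟨151372886, 0, 0, 0, 0, 96803613, 0, 0, 0, ⟨0, 0⟩, 0⟩, 0, 0⟩ 0 0) (.pos 51 .mp ⟨⟨151685306, 0, 0, 0, 0, 97019642, 0, 0, 0, ⟨0, 0⟩, 0⟩, 0, 0⟩ 0 0)))) (.pos 52 .mp ⟨⟨224036404, 0, 0, 0, 0, 0, 0, 0, 0, ⟨0, 0⟩, 0⟩, 0, 0⟩ 0 0)) (.pos 43 .mp ⟨⟨150760530, 0, 0, 0, 0, 95661607, 0, 0, 0, ⟨0, 0⟩, 0⟩, 0, 0⟩ 0 0))) (.cut .d (-8192) (.cut .s 11043840 (.pos 43 .mp ⟨⟨149337528, 0, 0, 0, 0, 103140541, 0, 0, 0, ⟨0, 0⟩, 0⟩, 0, 0⟩ 0 0) (.pos 43 .mp ⟨⟨150019547, 0, 0, 0, 0, 103505646, 0, 0, 0, ⟨0, 0⟩, 0⟩, 0, 0⟩ 0 0)) (.cut .l 102527 (.cut .v 16793600 (.cut .d (-4096)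 (.pos 51 .mp ⟨⟨149570414, 0, 0, 0, 0, 103377326, 0, 0, 0, ⟨0, 0⟩, 0⟩, 0, 0⟩ 0 0) (.cut .l 51263 (.cut .d (-2048) (.pos 51 .mp ⟨⟨151584569, 0, 0, 0, 0, 99738615, 0, 0, 0, ⟨0, 0⟩, 0⟩, 0, 0⟩ 0 0) (.cut .s 11043840 (.pos 51 .mp ⟨⟨151210340, 0, 0, 0, 0, 98561098, 0, 0, 0, ⟨0, 0⟩, 0⟩, 0, 0⟩ 0 0) (.pos 51 .mp ⟨⟨151913571, 0, 0, 0, 0, 98890005, 0, 0, 0, ⟨0, 0⟩, 0⟩, 0, 0⟩ 0 0))) (.pos 51 .mp ⟨⟨151651891, 0, 0, 0, 0, 96919579, 0, 0, 0, ⟨0, 0⟩, 0⟩, 0, 0⟩ 0 0))) (.pos 52 .mp ⟨⟨225868425, 0, 0, 0, 0, 0, 0, 0, 0, ⟨0, 0⟩, 0⟩, 0, 0⟩ 0 0)) (.pos 43 .mp ⟨⟨152139369, 0, 0, 0, 0, 96378136, 0, 0, 0, ⟨0, 0⟩, 0⟩, 0, 0⟩ 0 0))))) (.pos 44 .mp ⟨⟨222002049,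 0, 0, 0, 0, 0, 0, 0, 0, ⟨0, 0⟩, 0⟩, 0, 0⟩ 0 0)) (.cut .v 16809984 (.cut .s 11079680 (.cut .s 11065344 (.cut .d (-8192) (.cut .s 11058176 (.pos 43 .mp ⟨⟨150704615, 0, 0, 0, 0, 103876896, 0, 0, 0, ⟨0, 0⟩, 0⟩, 0, 0⟩ 0 0) (.pos 43 .mp ⟨⟨151392744, 0, 0, 0, 0, 104254320, 0, 0, 0, ⟨0, 0⟩, 0⟩, 0, 0⟩ 0 0)) (.cut .l 102527 (.cut .v 16793600 (.cut .d (-4096) (.pos 51 .mp ⟨⟨150934535, 0, 0, 0, 0, 104127726, 0, 0, 0, ⟨0, 0⟩, 0⟩, 0, 0⟩ 0 0) (.cut .l 51263 (.cut .d (-2048) (.pos 51 .mp ⟨⟨152890613, 0, 0, 0, 0, 100606422, 0, 0, 0, ⟨0, 0⟩, 0⟩, 0, 0⟩ 0 0) (.cut .s 11058176 (.pos 51 .mp ⟨⟨152604625, 0, 0, 0, 0, 99250354, 0, 0, 0, ⟨0, 0⟩, 0⟩, 0,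 0⟩ 0 0) (.pos 51 .mp ⟨⟨153297200, 0, 0, 0, 0, 99617991, 0, 0, 0, ⟨0, 0⟩, 0⟩, 0, 0⟩ 0 0))) (.pos 51 .mp ⟨⟨153034199, 0, 0, 0, 0, 97654741, 0, 0, 0, ⟨0, 0⟩, 0⟩, 0, 0⟩ 0 0))) (.pos 52 .mp ⟨⟨227717494, 0, 0, 0, 0, 0, 0, 0, 0, ⟨0, 0⟩, 0⟩, 0, 0⟩ 0 0)) (.pos 43 .mp ⟨⟨153530626, 0, 0, 0, 0, 97102279, 0, 0, 0, ⟨0, 0⟩, 0⟩, 0, 0⟩ 0 0))) (.cut .d (-8192) (.cut .s 11072512 (.pos 43 .mp ⟨⟨152083944, 0, 0, 0, 0, 104637943, 0, 0, 0, ⟨0, 0⟩, 0⟩, 0, 0⟩ 0 0) (.pos 43 .mp ⟨⟨152778226, 0, 0, 0, 0, 105027795, 0, 0, 0, ⟨0, 0⟩, 0⟩, 0, 0⟩ 0 0)) (.cut .l 102527 (.cut .v 16793600 (.cut .d (-4096) (.pos 51 .mp ⟨⟨152310882, 0, 0, 0, 0, 104902857, 0, 0, 0,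 ⟨0, 0⟩, 0⟩, 0, 0⟩ 0 0) (.cut .l 51263 (.cut .d (-2048) (.pos 51 .mp ⟨⟨154232501, 0, 0, 0, 0, 101451028, 0, 0, 0, ⟨0, 0⟩, 0⟩, 0, 0⟩ 0 0) (.cut .s 11072512 (.pos 51 .mp ⟨⟨153992875, 0, 0, 0, 0, 99990142, 0, 0, 0, ⟨0, 0⟩, 0⟩, 0, 0⟩ 0 0) (.pos 51 .mp ⟨⟨154691661, 0, 0, 0, 0, 100366806, 0, 0, 0, ⟨0, 0⟩, 0⟩, 0, 0⟩ 0 0))) (.pos 51 .mp ⟨⟨154428907, 0, 0, 0, 0, 98397365, 0, 0, 0, ⟨0, 0⟩, 0⟩, 0, 0⟩ 0 0))) (.pos 52 .mp ⟨⟨229583460, 0, 0, 0, 0, 0, 0, 0, 0, ⟨0, 0⟩, 0⟩, 0, 0⟩ 0 0)) (.pos 43 .mp ⟨⟨154934384, 0, 0, 0, 0, 97833746, 0, 0, 0, ⟨0, 0⟩, 0⟩, 0, 0⟩ 0 0)))) (.cut .s 11094016 (.cut .d (-8192) (.cut .s 11086848 (.pos 43 .mp ⟨⟨153475599,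 0, 0, 0, 0, 105423903, 0, 0, 0, ⟨0, 0⟩, 0⟩, 0, 0⟩ 0 0) (.pos 43 .mp ⟨⟨154176075, 0, 0, 0, 0, 105826293, 0, 0, 0, ⟨0, 0⟩, 0⟩, 0, 0⟩ 0 0)) (.cut .l 102527 (.cut .v 16793600 (.cut .d (-4096) (.pos 51 .mp ⟨⟨153699539, 0, 0, 0, 0, 105702939, 0, 0, 0, ⟨0, 0⟩, 0⟩, 0, 0⟩ 0 0) (.cut .l 51263 (.cut .d (-2048) (.pos 51 .mp ⟨⟨155610969, 0, 0, 0, 0, 102271163, 0, 0, 0, ⟨0, 0⟩, 0⟩, 0, 0⟩ 0 0) (.cut .v 16785408 (.cut .s 11086848 (.pos 53 .mp ⟨⟨155242742, 0, 0, 0, 0, 100968576, 0, 0, 0, ⟨0, 0⟩, 0⟩, 0, 0⟩ 0 0) (.pos 53 .mp ⟨⟨155947152, 0, 0, 0, 0, 101355283, 0, 0, 0, ⟨0, 0⟩, 0⟩, 0, 0⟩ 0 0)) (.pos 54 .mp ⟨⟨221786005, 0, 0, 0, 0, 0, 0, 0, 0, ⟨0,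 0⟩, 0⟩, 0, 0⟩ 0 0))) (.pos 51 .mp ⟨⟨155836098, 0, 0, 0, 0, 99147165, 0, 0, 0, ⟨0, 0⟩, 0⟩, 0, 0⟩ 0 0))) (.pos 52 .mp ⟨⟨231466172, 0, 0, 0, 0, 0, 0, 0, 0, ⟨0, 0⟩, 0⟩, 0, 0⟩ 0 0)) (.pos 43 .mp ⟨⟨156350731, 0, 0, 0, 0, 98572251, 0, 0, 0, ⟨0, 0⟩, 0⟩, 0, 0⟩ 0 0))) (.cut .d (-8192) (.cut .s 11101184 (.pos 43 .mp ⟨⟨154879664, 0, 0, 0, 0, 106234994, 0, 0, 0, ⟨0, 0⟩, 0⟩, 0, 0⟩ 0 0) (.pos 43 .mp ⟨⟨155586378, 0, 0, 0, 0, 106650035, 0, 0, 0, ⟨0, 0⟩, 0⟩, 0, 0⟩ 0 0)) (.cut .l 102527 (.cut .v 16793600 (.cut .d (-4096) (.pos 51 .mp ⟨⟨155100591, 0, 0, 0, 0, 106528191, 0, 0, 0, ⟨0, 0⟩, 0⟩, 0, 0⟩ 0 0) (.cut .l 51263 (.cut .d (-2048) (.pos 51 .mp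 ⟨⟨157026757, 0, 0, 0, 0, 103065552, 0, 0, 0, ⟨0, 0⟩, 0⟩, 0, 0⟩ 0 0) (.cut .v 16785408 (.cut .s 11101184 (.pos 53 .mp ⟨⟨156654702, 0, 0, 0, 0, 101746497, 0, 0, 0, ⟨0, 0⟩, 0⟩, 0, 0⟩ 0 0) (.pos 53 .mp ⟨⟨157365404, 0, 0, 0, 0, 102142212, 0, 0, 0, ⟨0, 0⟩, 0⟩, 0, 0⟩ 0 0)) (.pos 54 .mp ⟨⟨223645122, 0, 0, 0, 0, 0, 0, 0, 0, ⟨0, 0⟩, 0⟩, 0, 0⟩ 0 0))) (.pos 51 .mp ⟨⟨157255858, 0, 0, 0, 0, 99903852, 0, 0, 0, ⟨0, 0⟩, 0⟩, 0, 0⟩ 0 0))) (.pos 52 .mp ⟨⟨233365484, 0, 0, 0, 0, 0, 0, 0, 0, ⟨0, 0⟩, 0⟩, 0, 0⟩ 0 0)) (.pos 43 .mp ⟨⟨157779753, 0, 0, 0, 0, 99317503, 0, 0, 0, ⟨0, 0⟩, 0⟩, 0, 0⟩ 0 0))))) (.pos 44 .mp ⟨⟨229310340, 0, 0, 0, 0, 0, 0, 0, 0, ⟨0,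 0⟩, 0⟩, 0, 0⟩ 0 0)))) (.pos 42 .mp ⟨⟨221032149, 0, 0, 0, 0, 0, 0, 0, 0, ⟨0, 0⟩, 0⟩, 0, 0⟩ 0 0)) (.cut .v 16842752 (.cut .s 11223040 (.cut .s 11165696 (.cut .v 16809984 (.cut .s 11137024 (.cut .s 11122688 (.cut .d (-8192) (.cut .s 11115520 (.pos 43 .mp ⟨⟨156296226, 0, 0, 0, 0, 107071442, 0, 0, 0, ⟨0, 0⟩, 0⟩, 0, 0⟩ 0 0) (.pos 43 .mp ⟨⟨157009220, 0, 0, 0, 0, 107499245, 0, 0, 0, ⟨0, 0⟩, 0⟩, 0, 0⟩ 0 0)) (.cut .l 102527 (.cut .v 16793600 (.cut .d (-4096) (.pos 51 .mp ⟨⟨156514124, 0, 0, 0, 0, 107378838, 0, 0, 0, ⟨0, 0⟩, 0⟩, 0, 0⟩ 0 0) (.cut .l 51263 (.cut .d (-2048) (.pos 51 .mp ⟨⟨158480608, 0, 0, 0, 0, 103832908, 0, 0, 0, ⟨0, 0⟩, 0⟩,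 0, 0⟩ 0 0) (.cut .s 11115520 (.cut .s 11111936 (.pos 51 .mp ⟨⟨158213161, 0, 0, 0, 0, 102174779, 0, 0, 0, ⟨0, 0⟩, 0⟩, 0, 0⟩ 0 0) (.pos 51 .mp ⟨⟨158578299, 0, 0, 0, 0, 102366313, 0, 0, 0, ⟨0, 0⟩, 0⟩, 0, 0⟩ 0 0)) (.pos 51 .mp ⟨⟨158950310, 0, 0, 0, 0, 102721334, 0, 0, 0, ⟨0, 0⟩, 0⟩, 0, 0⟩ 0 0))) (.pos 51 .mp ⟨⟨158688277, 0, 0, 0, 0, 100667137, 0, 0, 0, ⟨0, 0⟩, 0⟩, 0, 0⟩ 0 0))) (.pos 52 .mp ⟨⟨235281248, 0, 0, 0, 0, 0, 0, 0, 0, ⟨0, 0⟩, 0⟩, 0, 0⟩ 0 0)) (.pos 43 .mp ⟨⟨159221539, 0, 0, 0, 0, 100069212, 0, 0, 0, ⟨0, 0⟩, 0⟩, 0, 0⟩ 0 0))) (.cut .d (-8192) (.cut .s 11129856 (.pos 43 .mp ⟨⟨157725371, 0, 0, 0, 0, 107933472, 0, 0, 0, ⟨0, 0⟩,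 0⟩, 0, 0⟩ 0 0) (.pos 43 .mp ⟨⟨158444689, 0, 0, 0, 0, 108374151, 0, 0, 0, ⟨0, 0⟩, 0⟩, 0, 0⟩ 0 0)) (.cut .l 102527 (.cut .v 16793600 (.cut .d (-4096) (.pos 51 .mp ⟨⟨157940224, 0, 0, 0, 0, 108255105, 0, 0, 0, ⟨0, 0⟩, 0⟩, 0, 0⟩ 0 0) (.cut .l 51263 (.cut .d (-2048) (.pos 51 .mp ⟨⟨159973269, 0, 0, 0, 0, 104571934, 0, 0, 0, ⟨0, 0⟩, 0⟩, 0, 0⟩ 0 0) (.cut .s 11129856 (.pos 51 .mp ⟨⟨159671175, 0, 0, 0, 0, 103129477, 0, 0, 0, ⟨0, 0⟩, 0⟩, 0, 0⟩ 0 0) (.pos 51 .mp ⟨⟨160395239, 0, 0, 0, 0, 103542102, 0, 0, 0, ⟨0, 0⟩, 0⟩, 0, 0⟩ 0 0))) (.pos 51 .mp ⟨⟨160133440, 0, 0, 0, 0, 101436730, 0, 0, 0, ⟨0, 0⟩, 0⟩, 0, 0⟩ 0 0))) (.pos 52 .mp ⟨⟨237213318, 0,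 0, 0, 0, 0, 0, 0, 0, ⟨0, 0⟩, 0⟩, 0, 0⟩ 0 0)) (.pos 43 .mp ⟨⟨160676176, 0, 0, 0, 0, 100827086, 0, 0, 0, ⟨0, 0⟩, 0⟩, 0, 0⟩ 0 0)))) (.cut .s 11151360 (.cut .d (-8192) (.pos 43 .mp ⟨⟨159167186, 0, 0, 0, 0, 109865537, 0, 0, 0, ⟨0, 0⟩, 0⟩, 0, 0⟩ 0 0) (.cut .l 102527 (.cut .v 16793600 (.cut .d (-4096) (.pos 51 .mp ⟨⟨159378978, 0, 0, 0, 0, 109157220, 0, 0, 0, ⟨0, 0⟩, 0⟩, 0, 0⟩ 0 0) (.cut .l 51263 (.cut .d (-2048) (.pos 51 .mp ⟨⟨161505493, 0, 0, 0, 0, 105281325, 0, 0, 0, ⟨0, 0⟩, 0⟩, 0, 0⟩ 0 0) (.cut .s 11144192 (.pos 51 .mp ⟨⟨161122512, 0, 0, 0, 0, 103959204, 0, 0, 0, ⟨0, 0⟩, 0⟩, 0, 0⟩ 0 0) (.pos 51 .mp ⟨⟨161841993, 0, 0, 0, 0, 104400313,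 0, 0, 0, ⟨0, 0⟩, 0⟩, 0, 0⟩ 0 0))) (.pos 51 .mp ⟨⟨161591438, 0, 0, 0, 0, 102212340, 0, 0, 0, ⟨0, 0⟩, 0⟩, 0, 0⟩ 0 0))) (.pos 52 .mp ⟨⟨239161551, 0, 0, 0, 0, 0, 0, 0, 0, ⟨0, 0⟩, 0⟩, 0, 0⟩ 0 0)) (.pos 43 .mp ⟨⟨162143755, 0, 0, 0, 0, 101590831, 0, 0, 0, ⟨0, 0⟩, 0⟩, 0, 0⟩ 0 0))) (.cut .d (-8192) (.pos 43 .mp ⟨⟨160621761, 0, 0, 0, 0, 110792979, 0, 0, 0, ⟨0, 0⟩, 0⟩, 0, 0⟩ 0 0) (.cut .l 102527 (.cut .d (-4096) (.pos 43 .mp ⟨⟨162853715, 0, 0, 0, 0, 106829065, 0, 0, 0, ⟨0, 0⟩, 0⟩, 0, 0⟩ 0 0) (.cut .v 16793600 (.cut .s 11158528 (.cut .s 11154944 (.pos 51 .mp ⟨⟨163485669, 0, 0, 0, 0, 103298777, 0, 0, 0, ⟨0, 0⟩, 0⟩, 0, 0⟩ 0 0) (.pos 51 .mp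 ⟨⟨163891862, 0, 0, 0, 0, 103458300, 0, 0, 0, ⟨0, 0⟩, 0⟩, 0, 0⟩ 0 0)) (.pos 51 .mp ⟨⟨163830451, 0, 0, 0, 0, 104514266, 0, 0, 0, ⟨0, 0⟩, 0⟩, 0, 0⟩ 0 0)) (.pos 52 .mp ⟨⟨231488776, 0, 0, 0, 0, 0, 0, 0, 0, ⟨0, 0⟩, 0⟩, 0, 0⟩ 0 0))) (.pos 43 .mp ⟨⟨163624367, 0, 0, 0, 0, 102360153, 0, 0, 0, ⟨0, 0⟩, 0⟩, 0, 0⟩ 0 0))))) (.pos 44 .mp ⟨⟨236885767, 0, 0, 0, 0, 0, 0, 0, 0, ⟨0, 0⟩, 0⟩, 0, 0⟩ 0 0)) (.cut .v 16809984 (.cut .s 11194368 (.cut .s 11180032 (.cut .d (-8192) (.pos 43 .mp ⟨⟨162089184, 0, 0, 0, 0, 111746747, 0, 0, 0, ⟨0, 0⟩, 0⟩, 0, 0⟩ 0 0) (.cut .l 102527 (.cut .d (-4096) (.pos 43 .mp ⟨⟨164465129, 0, 0, 0, 0, 107485468, 0, 0, 0, ⟨0, 0⟩,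 0⟩, 0, 0⟩ 0 0) (.cut .s 11172864 (.cut .s 11169280 (.pos 43 .mp ⟨⟨164375038, 0, 0, 0, 0, 105058412, 0, 0, 0, ⟨0, 0⟩, 0⟩, 0, 0⟩ 0 0) (.pos 43 .mp ⟨⟨164774974, 0, 0, 0, 0, 105237643, 0, 0, 0, ⟨0, 0⟩, 0⟩, 0, 0⟩ 0 0)) (.pos 43 .mp ⟨⟨165640382, 0, 0, 0, 0, 104908171, 0, 0, 0, ⟨0, 0⟩, 0⟩, 0, 0⟩ 0 0))) (.pos 43 .mp ⟨⟨165118102, 0, 0, 0, 0, 103134756, 0, 0, 0, ⟨0, 0⟩, 0⟩, 0, 0⟩ 0 0))) (.cut .d (-8192) (.pos 43 .mp ⟨⟨163569546, 0, 0, 0, 0, 112727077, 0, 0, 0, ⟨0, 0⟩, 0⟩, 0, 0⟩ 0 0) (.cut .l 102527 (.cut .d (-4096) (.pos 43 .mp ⟨⟨166118364, 0, 0, 0, 0, 108108381, 0, 0, 0, ⟨0, 0⟩, 0⟩, 0, 0⟩ 0 0) (.cut .s 11187200 (.pos 43 .mp ⟨⟨166391975,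 0, 0, 0, 0, 105344546, 0, 0, 0, ⟨0, 0⟩, 0⟩, 0, 0⟩ 0 0) (.pos 43 .mp ⟨⟨167146885, 0, 0, 0, 0, 105785319, 0, 0, 0, ⟨0, 0⟩, 0⟩, 0, 0⟩ 0 0))) (.pos 43 .mp ⟨⟨166625055, 0, 0, 0, 0, 103914343, 0, 0, 0, ⟨0, 0⟩, 0⟩, 0, 0⟩ 0 0)))) (.cut .s 11208704 (.cut .d (-8192) (.pos 43 .mp ⟨⟨165062939, 0, 0, 0, 0, 113734205, 0, 0, 0, ⟨0, 0⟩, 0⟩, 0, 0⟩ 0 0) (.cut .v 16793600 (.cut .s 11201536 (.pos 51 .mp ⟨⟨166577460, 0, 0, 0, 0, 108390035, 0, 0, 0, ⟨0, 0⟩, 0⟩, 0, 0⟩ 0 0) (.pos 51 .mp ⟨⟨167732017, 0, 0, 0, 0, 108231952, 0, 0, 0, ⟨0, 0⟩, 0⟩, 0, 0⟩ 0 0)) (.pos 52 .mp ⟨⟨183239136, 0, 0, 0, 0, 84741089, 0, 0, 0, ⟨0, 0⟩, 0⟩, 0, 0⟩ 0 0))) (.cut .d (-8192)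 (.pos 43 .mp ⟨⟨166569455, 0, 0, 0, 0, 114768371, 0, 0, 0, ⟨0, 0⟩, 0⟩, 0, 0⟩ 0 0) (.cut .s 11215872 (.pos 43 .mp ⟨⟨170495537, 0, 0, 0, 0, 105611515, 0, 0, 0, ⟨0, 0⟩, 0⟩, 0, 0⟩ 0 0) (.pos 43 .mp ⟨⟨171271054, 0, 0, 0, 0, 106058852, 0, 0, 0, ⟨0, 0⟩, 0⟩, 0, 0⟩ 0 0))))) (.pos 44 .mp ⟨⟨244719050, 0, 0, 0, 0, 0, 0, 0, 0, ⟨0, 0⟩, 0⟩, 0, 0⟩ 0 0))) (.cut .s 11280384 (.cut .v 16809984 (.cut .s 11251712 (.cut .s 11237376 (.cut .d (-8192) (.pos 43 .mp ⟨⟨168089186, 0, 0, 0, 0, 115829815, 0, 0, 0, ⟨0, 0⟩, 0⟩, 0, 0⟩ 0 0) (.cut .s 11230208 (.pos 43 .mp ⟨⟨172049993, 0, 0, 0, 0, 106510485, 0, 0, 0, ⟨0, 0⟩, 0⟩, 0, 0⟩ 0 0) (.pos 43 .mp ⟨⟨172832367,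 0, 0, 0, 0, 106966409, 0, 0, 0, ⟨0, 0⟩, 0⟩, 0, 0⟩ 0 0))) (.cut .d (-8192) (.pos 43 .mp ⟨⟨169622227, 0, 0, 0, 0, 116918782, 0, 0, 0, ⟨0, 0⟩, 0⟩, 0, 0⟩ 0 0) (.cut .s 11244544 (.pos 43 .mp ⟨⟨173618188, 0, 0, 0, 0, 107426618, 0, 0, 0, ⟨0, 0⟩, 0⟩, 0, 0⟩ 0 0) (.pos 43 .mp ⟨⟨174320831, 0, 0, 0, 0, 108032385, 0, 0, 0, ⟨0, 0⟩, 0⟩, 0, 0⟩ 0 0)))) (.cut .d (-8192) (.pos 43 .mp ⟨⟨171168674, 0, 0, 0, 0, 120359488, 0, 0, 0, ⟨0, 0⟩, 0⟩, 0, 0⟩ 0 0) (.cut .l 102527 (.cut .v 16793600 (.cut .d (-4096) (.pos 51 .mp ⟨⟨171355385, 0, 0, 0, 0, 119652174, 0, 0, 0, ⟨0, 0⟩, 0⟩, 0, 0⟩ 0 0) (.cut .l 51263 (.cut .d (-2048) (.pos 51 .mp ⟨⟨174924381, 0, 0, 0,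 0, 113173651, 0, 0, 0, ⟨0, 0⟩, 0⟩, 0, 0⟩ 0 0) (.cut .v 16785408 (.cut .l 25631 (.cut .d (-1024) (.pos 53 .mp ⟨⟨175046844, 0, 0, 0, 0, 112695098, 0, 0, 0, ⟨0, 0⟩, 0⟩, 0, 0⟩ 0 0) (.cut .v 16781312 (.cut .l 12815 (.cut .d (-512) (.pos 55 .mp ⟨⟨174889535, 0, 0, 0, 0, 112908256, 0, 0, 0, ⟨0, 0⟩, 0⟩, 0, 0⟩ 0 0) (.cut .s 11266048 (.cut .s 11258880 (.pos 55 .mp ⟨⟨173992314, 0, 0, 0, 0, 110214308, 0, 0, 0, ⟨0, 0⟩, 0⟩, 0, 0⟩ 0 0) (.pos 55 .mp ⟨⟨174907365, 0, 0, 0, 0, 110525083, 0, 0, 0, ⟨0, 0⟩, 0⟩, 0, 0⟩ 0 0)) (.pos 55 .mp ⟨⟨174889535, 0, 0, 0, 0, 112624752, 0, 0, 0, ⟨0, 0⟩, 0⟩, 0, 0⟩ 0 0))) (.pos 55 .mp ⟨⟨174824641, 0, 0, 0, 0, 107254612,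 0, 0, 0, ⟨0, 0⟩, 0⟩, 0, 0⟩ 0 0)) (.pos 56 .mp ⟨⟨247359420, 0, 0, 0, 0, 0, 0, 0, 0, ⟨0, 0⟩, 0⟩, 0, 0⟩ 0 0))) (.pos 53 .mp ⟨⟨174984971, 0, 0, 0, 0, 107071356, 0, 0, 0, ⟨0, 0⟩, 0⟩, 0, 0⟩ 0 0)) (.pos 54 .mp ⟨⟨247429091, 0, 0, 0, 0, 0, 0, 0, 0, ⟨0, 0⟩, 0⟩, 0, 0⟩ 0 0))) (.pos 51 .mp ⟨⟨175306113, 0, 0, 0, 0, 106704550, 0, 0, 0, ⟨0, 0⟩, 0⟩, 0, 0⟩ 0 0))) (.pos 52 .mp ⟨⟨255668074, 0, 0, 0, 0, 0, 0, 0, 0, ⟨0, 0⟩, 0⟩, 0, 0⟩ 0 0)) (.pos 43 .mp ⟨⟨175949623, 0, 0, 0, 0, 105969608, 0, 0, 0, ⟨0, 0⟩, 0⟩, 0, 0⟩ 0 0)))) (.pos 44 .mp ⟨⟨252801201, 0, 0, 0, 0, 0, 0, 0, 0, ⟨0, 0⟩, 0⟩, 0, 0⟩ 0 0)) (.cut .v 16809984 (.cut .s 11309056 (.cut .d (-8192) (.pos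 43 .mp ⟨⟨174302170, 0, 0, 0, 0, 122733461, 0, 0, 0, ⟨0, 0⟩, 0⟩, 0, 0⟩ 0 0) (.cut .l 102527 (.cut .d (-4096) (.pos 43 .mp ⟨⟨178591208, 0, 0, 0, 0, 114891367, 0, 0, 0, ⟨0, 0⟩, 0⟩, 0, 0⟩ 0 0) (.cut .s 11294720 (.cut .s 11287552 (.pos 43 .mp ⟨⟨177835588, 0, 0, 0, 0, 111241742, 0, 0, 0, ⟨0, 0⟩, 0⟩, 0, 0⟩ 0 0) (.pos 43 .mp ⟨⟨178793375, 0, 0, 0, 0, 111528953, 0, 0, 0, ⟨0, 0⟩, 0⟩, 0, 0⟩ 0 0)) (.pos 43 .mp ⟨⟨179686358, 0, 0, 0, 0, 112317662, 0, 0, 0, ⟨0, 0⟩, 0⟩, 0, 0⟩ 0 0))) (.pos 43 .mp ⟨⟨179167903, 0, 0, 0, 0, 107530311, 0, 0, 0, ⟨0, 0⟩, 0⟩, 0, 0⟩ 0 0))) (.cut .d (-8192) (.pos 43 .mp ⟨⟨177490455, 0, 0, 0, 0, 125221983, 0, 0, 0, ⟨0, 0⟩,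 0⟩, 0, 0⟩ 0 0) (.cut .s 11323392 (.cut .s 11316224 (.pos 43 .mp ⟨⟨183467852, 0, 0, 0, 0, 109715972, 0, 0, 0, ⟨0, 0⟩, 0⟩, 0, 0⟩ 0 0) (.pos 43 .mp ⟨⟨184585214, 0, 0, 0, 0, 109800930, 0, 0, 0, ⟨0, 0⟩, 0⟩, 0, 0⟩ 0 0)) (.pos 43 .mp ⟨⟨184153238, 0, 0, 0, 0, 112655132, 0, 0, 0, ⟨0, 0⟩, 0⟩, 0, 0⟩ 0 0)))) (.pos 44 .mp ⟨⟨261123516, 0, 0, 0, 0, 0, 0, 0, 0, ⟨0, 0⟩, 0⟩, 0, 0⟩ 0 0)))) (.pos 42 .mp ⟨⟨252161076, 0, 0, 0, 0, 0, 0, 0, 0, ⟨0, 0⟩, 0⟩, 0, 0⟩ 0 0))) (.pos 36 .mp ⟨⟨251397768, 0, 0, 0, 0, 0, 0, 0, 0, ⟨0, 0⟩, 0⟩, 0, 0⟩ 0 0)) (.void 34 ⟨⟨100000, 0, 0, 0, 0, 0, 0, 0, 0, ⟨0, 0⟩, 0⟩, 0, 0⟩ 0 0)) (.void 32 ⟨⟨100000, 0, 0, 0, 0, 0, 0, 0, 0,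 ⟨0, 0⟩, 0⟩, 0, 0⟩ 0 0))))))))) (.void 30 ⟨⟨100000, 0, 0, 0, 0, 0, 0, 0, 0, ⟨0, 0⟩, 0⟩, 0, 0⟩ 0 0))) (.void 28 ⟨⟨100000, 0, 0, 0, 0, 0, 0, 0, 0, ⟨0, 0⟩, 0⟩, 0, 0⟩ 0 0))) (.void 26 ⟨⟨100000, 0, 0, 0, 0, 0, 0, 0, 0, ⟨0, 0⟩, 0⟩, 0, 0⟩ 0 0))) (.void 24 ⟨⟨100000, 0, 0, 0, 0, 0, 0, 0, 0, ⟨0, 0⟩, 0⟩, 0, 0⟩ 0 0)) (.void 105 ⟨⟨100000, 0, 0, 0, 0, 0, 0, 0, 0, ⟨0, 0⟩, 0⟩, 0, 0⟩ 0 0)) (.void 124 ⟨⟨100000, 0, 0, 0, 0, 0, 0, 0, 0, ⟨0, 0⟩, 0⟩, 0, 0⟩ 0 0)) (.void 129 ⟨⟨96608, 0, 0, 3392, 0, 0, 0, 0, 0, ⟨0, 0⟩, 0⟩, 0, 0⟩ 0 0))) (.cut .v 16777216 (.cut .v 8388608 (.cut .v 4194304 (.cut .v 2097152 (.cut .v 1048576 (.pos 130 .pm ⟨⟨0, 0, 36238971,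 0, 0, 0, 0, 0, 53997843, ⟨0, 0⟩, 1983364⟩, 0, 0⟩ 0 0) (.pos 131 .pm ⟨⟨0, 0, 23656009, 0, 0, 0, 0, 0, 0, ⟨0, 0⟩, 0⟩, 0, 34979⟩ 0 0)) (.pos 7 .pm ⟨⟨0, 0, 26776019, 0, 0, 0, 0, 0, 0, ⟨0, 0⟩, 0⟩, 0, 62961⟩ 0 0)) (.pos 5 .pm ⟨⟨0, 0, 3067937, 0, 0, 0, 0, 0, 0, ⟨0, 0⟩, 0⟩, 0, 0⟩ 0 0)) (.pos 3 .pm ⟨⟨0, 0, 0, 0, 0, 0, 0, 0, 0, ⟨0, 0⟩, 0⟩, 0, 0⟩ 0 0)) (.cut .v 268435456 (.cut .v 67108864 (.cut .d 4548041 (.cut .d 2274020 (.cut .v 33554432 (.cut .d 1137010 (.cut .v 25165824 (.cut .d 568505 (.cut .v 20971520 (.cut .d 284252 (.cut .v 18874368 (.cut .v 17825792 (.cut .s 11108352 (.pos 29 .pp ⟨⟨78066770, 0, 0, 0, 0, 0, 0, 0, 0, ⟨0, 0⟩, 0⟩, 11447313,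 0⟩ 0 0) (.pos 29 .pp ⟨⟨100301545, 0, 0, 0, 0, 0, 0, 0, 0, ⟨0, 0⟩, 0⟩, 11992683, 0⟩ 0 0)) (.pos 30 .pp ⟨⟨235149640, 0, 0, 0, 0, 0, 0, 0, 0, ⟨0, 0⟩, 0⟩, 0, 0⟩ 0 0)) (.pos 28 .pp ⟨⟨287282933, 0, 0, 0, 0, 0, 0, 0, 0, ⟨0, 0⟩, 0⟩, 0, 0⟩ 0 0)) (.pos 25 .pp ⟨⟨0, 0, 0, 0, 0, 0, 0, 0, 0, ⟨0, 0⟩, 0⟩, 14420807, 84358⟩ 0 0)) (.cut .d 284252 (.pos 26 .pp ⟨⟨0, 0, 0, 0, 0, 0, 0, 0, 0, ⟨0, 0⟩, 0⟩, 33515606, 0⟩ 0 0) (.pos 26 .pp ⟨⟨0, 0, 0, 0, 0, 0, 0, 0, 0, ⟨0, 0⟩, 0⟩, 24475203, 0⟩ 0 0))) (.pos 23 .pp ⟨⟨0, 0, 0, 0, 0, 0, 0, 0, 0, ⟨0, 0⟩, 0⟩, 14381848, 84730⟩ 0 0)) (.cut .d 568505 (.pos 24 .pp ⟨⟨0, 0, 0, 0, 0, 0, 0, 0, 0, ⟨0, 0⟩, 0⟩, 59389340, 0⟩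 0 0) (.pos 24 .pp ⟨⟨0, 0, 0, 0, 0, 0, 0, 0, 0, ⟨0, 0⟩, 0⟩, 29783990, 0⟩ 0 0))) (.pos 22 .pp ⟨⟨0, 0, 0, 0, 0, 0, 0, 0, 0, ⟨0, 0⟩, 0⟩, 16595390, 84757⟩ 0 0)) (.cut .d 1137010 (.void 105 ⟨⟨0, 0, 0, 0, 0, 0, 0, 0, 0, ⟨0, 0⟩, 0⟩, 100000, 0⟩ 0 0) (.pos 105 .pp ⟨⟨0, 0, 0, 0, 0, 0, 0, 0, 0, ⟨0, 0⟩, 0⟩, 48051980, 0⟩ 0 0))) (.pos 104 .pp ⟨⟨0, 0, 0, 0, 0, 0, 0, 0, 0, ⟨0, 0⟩, 0⟩, 13771015, 90570⟩ 0 0)) (.pos 104 .pp ⟨⟨0, 0, 0, 0, 0, 0, 0, 0, 0, ⟨0, 0⟩, 0⟩, 0, 222227⟩ 0 0)) (.void 124 ⟨⟨0, 93472, 0, 0, 0, 0, 0, 0, 0, ⟨0, 0⟩, 0⟩, 6528, 0⟩ 0 0)) (.void 129 ⟨⟨0, 0, 0, 0, 0, 0, 0, 0, 0, ⟨0, 0⟩, 0⟩, 100000, 0⟩ 0 0)))),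
    by decide +kernel⟩

def covers16 : cell.Covers Vale.Agent.P237.Petty.Cor.Grid.N18.table row16.1 :=
  ⟨(.cut .d 0 (.cut .v 16777216 (.cut .d (-8388608) (.void 1 ⟨⟨0, 0, 0, 0, 0, 100000, 0, 0, 0, ⟨0, 0⟩, 0⟩, 0, 0⟩ 0 0) (.cut .d (-4194304) (.void 1 ⟨⟨0, 0, 0, 0, 0, 100000, 0, 0, 0, ⟨0, 0⟩, 0⟩, 0, 0⟩ 0 0) (.cut .d (-2097152) (.void 1 ⟨⟨0, 0, 0, 0, 0, 100000, 0, 0, 0, ⟨0, 0⟩, 0⟩, 0, 0⟩ 0 0) (.cut .d (-1048576) (.void 1 ⟨⟨0, 0, 0, 0, 0, 100000, 0, 0, 0, ⟨0, 0⟩, 0⟩, 0, 0⟩ 0 0) (.cut .d (-524288) (.void 1 ⟨⟨0, 0, 0, 0, 0, 100000, 0, 0, 0, ⟨0, 0⟩, 0⟩, 0, 0⟩ 0 0) (.cut .d (-262144) (.void 1 ⟨⟨0, 0, 0, 0, 0, 100000, 0, 0, 0, ⟨0, 0⟩,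 0⟩, 0, 0⟩ 0 0) (.cut .d (-131072) (.void 1 ⟨⟨0, 0, 0, 0, 0, 100000, 0, 0, 0, ⟨0, 0⟩, 0⟩, 0, 0⟩ 0 0) (.cut .d (-65536) (.void 1 ⟨⟨0, 0, 0, 0, 0, 100000, 0, 0, 0, ⟨0, 0⟩, 0⟩, 0, 0⟩ 0 0) (.cut .d (-32768) (.void 1 ⟨⟨0, 0, 0, 0, 0, 100000, 0, 0, 0, ⟨0, 0⟩, 0⟩, 0, 0⟩ 0 0) (.cut .d (-16384) (.void 1 ⟨⟨0, 0, 0, 0, 0, 100000, 0, 0, 0, ⟨0, 0⟩, 0⟩, 0, 0⟩ 0 0) (.cut .v 8388608 (.cut .v 4194304 (.void 4 ⟨⟨0, 0, 100000, 0, 0, 0, 0, 0, 0, ⟨0, 0⟩, 0⟩, 0, 0⟩ 0 0) (.pos 5 .mm ⟨⟨0, 0, 4549518, 0, 0, 154661610, 0, 0, 0, ⟨0, 0⟩, 0⟩, 0, 0⟩ 0 0)) (.cut .d (-8192) (.pos 3 .mm ⟨⟨0, 0, 0, 0, 0, 478975039, 0, 0, 0, ⟨0, 0⟩, 0⟩, 0, 0⟩ 0 0) (.cut .l 102527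 (.cut .d (-4096) (.pos 3 .mm ⟨⟨0, 0, 0, 0, 0, 478926579, 0, 0, 0, ⟨0, 0⟩, 0⟩, 0, 0⟩ 0 0) (.cut .l 51263 (.cut .d (-2048) (.pos 3 .mm ⟨⟨0, 0, 0, 0, 0, 478902860, 0, 0, 0, ⟨0, 0⟩, 0⟩, 0, 0⟩ 0 0) (.cut .l 25631 (.cut .d (-1024) (.pos 3 .mm ⟨⟨0, 0, 0, 0, 0, 478892022, 0, 0, 0, ⟨0, 0⟩, 0⟩, 0, 0⟩ 0 0) (.cut .v 12582912 (.pos 8 .mm ⟨⟨0, 0, 0, 0, 0, 252938109, 0, 0, 0, ⟨0, 0⟩, 0⟩, 0, 0⟩ 0 0) (.cut .v 14680064 (.pos 12 .mm ⟨⟨0, 0, 0, 0, 0, 305237427, 0, 0, 0, ⟨0, 0⟩, 0⟩, 0, 0⟩ 0 0) (.cut .v 15728640 (.pos 20 .mm ⟨⟨0, 0, 0, 0, 0, 332721685, 0, 0, 0, ⟨0, 0⟩, 0⟩, 0, 0⟩ 0 0) (.cut .v 16252928 (.pos 37 .mm ⟨⟨0, 0, 0, 0, 0, 346797464, 0, 0,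 0, ⟨0, 0⟩, 0⟩, 0, 0⟩ 0 0) (.cut .v 16515072 (.pos 39 .mm ⟨⟨0, 0, 0, 0, 0, 353918766, 0, 0, 0, ⟨0, 0⟩, 0⟩, 0, 0⟩ 0 0) (.cut .v 16646144 (.pos 47 .mm ⟨⟨0, 0, 0, 0, 0, 357500270, 0, 0, 0, ⟨0, 0⟩, 0⟩, 0, 0⟩ 0 0) (.cut .v 16711680 (.pos 49 .mm ⟨⟨0, 0, 0, 0, 0, 359296235, 0, 0, 0, ⟨0, 0⟩, 0⟩, 0, 0⟩ 0 0) (.cut .v 16744448 (.pos 63 .mm ⟨⟨0, 0, 0, 0, 0, 360195521, 0, 0, 0, ⟨0, 0⟩, 0⟩, 0, 0⟩ 0 0) (.cut .v 16760832 (.pos 65 .mm ⟨⟨0, 0, 0, 0, 0, 409840370, 0, 0, 0, ⟨0, 0⟩, 0⟩, 0, 0⟩ 0 0) (.cut .v 16769024 (.pos 67 .mm ⟨⟨0, 0, 0, 0, 0, 421125220, 0, 0, 0, ⟨0, 0⟩, 0⟩, 0, 0⟩ 0 0) (.cut .v 16773120 (.pos 69 .mm ⟨⟨0, 0, 0, 0, 0, 426772572, 0,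 0, 0, ⟨0, 0⟩, 0⟩, 0, 0⟩ 0 0) (.cut .v 16775168 (.pos 71 .mm ⟨⟨0, 0, 0, 0, 0, 429597480, 0, 0, 0, ⟨0, 0⟩, 0⟩, 0, 0⟩ 0 0) (.cut .l 12815 (.cut .d (-512) (.pos 72 .mm ⟨⟨0, 0, 0, 0, 0, 478888646, 0, 0, 0, ⟨0, 0⟩, 0⟩, 0, 0⟩ 0 0) (.cut .v 16776192 (.pos 73 .mm ⟨⟨0, 0, 0, 0, 0, 429620556, 0, 0, 0, ⟨0, 0⟩, 0⟩, 0, 0⟩ 0 0) (.cut .l 6407 (.cut .s 11534336 (.cut .s 11436032 (.pos 74 .mm ⟨⟨0, 0, 0, 0, 0, 398502698, 0, 0, 0, ⟨0, 0⟩, 0⟩, 0, 0⟩ 0 0) (.pos 74 .mm ⟨⟨0, 0, 0, 0, 0, 423663927, 0, 0, 0, ⟨0, 0⟩, 0⟩, 0, 0⟩ 0 0)) (.cut .s 11632640 (.pos 74 .mm ⟨⟨0, 0, 0, 0, 0, 451359247, 0, 0, 0, ⟨0, 0⟩, 0⟩, 0, 0⟩ 0 0) (.pos 74 .mm ⟨⟨0, 0, 0, 0, 0, 481653335,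 0, 0, 0, ⟨0, 0⟩, 0⟩, 0, 0⟩ 0 0))) (.pos 74 .mm ⟨⟨0, 0, 0, 0, 0, 391174451, 0, 0, 0, ⟨0, 0⟩, 0⟩, 0, 0⟩ 0 0)))) (.pos 72 .mm ⟨⟨0, 0, 0, 0, 0, 391189625, 0, 0, 0, ⟨0, 0⟩, 0⟩, 0, 0⟩ 0 0))))))))))))))) (.pos 3 .mm ⟨⟨0, 0, 0, 0, 0, 391228508, 0, 0, 0, ⟨0, 0⟩, 0⟩, 0, 0⟩ 0 0))) (.pos 3 .mm ⟨⟨0, 0, 0, 0, 0, 391310539, 0, 0, 0, ⟨0, 0⟩, 0⟩, 0, 0⟩ 0 0))) (.pos 3 .mm ⟨⟨0, 0, 0, 0, 0, 391476736, 0, 0, 0, ⟨0, 0⟩, 0⟩, 0, 0⟩ 0 0)))))))))))))) (.cut .v 268435456 (.cut .v 67108864 (.cut .v 33554432 (.cut .v 25165824 (.cut .d (-8388608) (.void 23 ⟨⟨100000, 0, 0, 0, 0, 0, 0, 0, 0, ⟨0, 0⟩, 0⟩, 0, 0⟩ 0 0) (.cut .v 20971520 (.cut .d (-4194304) (.void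 25 ⟨⟨100000, 0, 0, 0, 0, 0, 0, 0, 0, ⟨0, 0⟩, 0⟩, 0, 0⟩ 0 0) (.cut .d (-2097152) (.void 25 ⟨⟨100000, 0, 0, 0, 0, 0, 0, 0, 0, ⟨0, 0⟩, 0⟩, 0, 0⟩ 0 0) (.cut .v 18874368 (.cut .d (-1048576) (.void 27 ⟨⟨100000, 0, 0, 0, 0, 0, 0, 0, 0, ⟨0, 0⟩, 0⟩, 0, 0⟩ 0 0) (.cut .v 17825792 (.cut .d (-524288) (.void 29 ⟨⟨100000, 0, 0, 0, 0, 0, 0, 0, 0, ⟨0, 0⟩, 0⟩, 0, 0⟩ 0 0) (.cut .d (-262144) (.void 29 ⟨⟨100000, 0, 0, 0, 0, 0, 0, 0, 0, ⟨0, 0⟩, 0⟩, 0, 0⟩ 0 0) (.cut .d (-131072) (.void 29 ⟨⟨100000, 0, 0, 0, 0, 0, 0, 0, 0, ⟨0, 0⟩, 0⟩, 0, 0⟩ 0 0) (.cut .d (-65536) (.void 29 ⟨⟨100000, 0, 0, 0, 0, 0, 0, 0, 0, ⟨0, 0⟩, 0⟩, 0, 0⟩ 0 0) (.cut .d (-32768) (.void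 29 ⟨⟨100000, 0, 0, 0, 0, 0, 0, 0, 0, ⟨0, 0⟩, 0⟩, 0, 0⟩ 0 0) (.cut .d (-16384) (.void 29 ⟨⟨0, 0, 0, 0, 0, 100000, 0, 0, 0, ⟨0, 0⟩, 0⟩, 0, 0⟩ 0 0) (.cut .v 17301504 (.cut .v 17039360 (.cut .v 16908288 (.cut .s 11534336 (.cut .v 16842752 (.cut .s 11436032 (.cut .s 11386880 (.cut .v 16809984 (.cut .d (-8192) (.pos 43 .mp ⟨⟨180731684, 0, 0, 0, 0, 131501272, 0, 0, 0, ⟨0, 0⟩, 0⟩, 0, 0⟩ 0 0) (.cut .l 102527 (.cut .v 16793600 (.cut .d (-4096) (.pos 51 .mp ⟨⟨180898956, 0, 0, 0, 0, 130789575, 0, 0, 0, ⟨0, 0⟩, 0⟩, 0, 0⟩ 0 0) (.cut .l 51263 (.cut .v 16785408 (.cut .d (-2048) (.pos 53 .mp ⟨⟨180983195, 0, 0, 0, 0, 130432806, 0, 0, 0, ⟨0, 0⟩,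 0⟩, 0, 0⟩ 0 0) (.cut .l 25631 (.cut .d (-1024) (.pos 53 .mp ⟨⟨186980280, 0, 0, 0, 0, 119430411, 0, 0, 0, ⟨0, 0⟩, 0⟩, 0, 0⟩ 0 0) (.cut .v 16781312 (.cut .l 12815 (.cut .d (-512) (.pos 55 .mp ⟨⟨186991389, 0, 0, 0, 0, 119284435, 0, 0, 0, ⟨0, 0⟩, 0⟩, 0, 0⟩ 0 0) (.cut .v 16779264 (.cut .l 6407 (.cut .s 11362304 (.cut .s 11350016 (.pos 57 .mp ⟨⟨185846341, 0, 0, 0, 0, 113372358, 0, 0, 0, ⟨0, 0⟩, 0⟩, 0, 0⟩ 0 0) (.pos 57 .mp ⟨⟨186788992, 0, 0, 0, 0, 114645433, 0, 0, 0, ⟨0, 0⟩, 0⟩, 0, 0⟩ 0 0)) (.cut .s 11374592 (.pos 57 .mp ⟨⟨187761550, 0, 0, 0, 0, 115910212, 0, 0, 0, ⟨0, 0⟩, 0⟩, 0, 0⟩ 0 0) (.pos 57 .mp ⟨⟨188764802, 0, 0, 0, 0, 117165534,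 0, 0, 0, ⟨0, 0⟩, 0⟩, 0, 0⟩ 0 0))) (.pos 57 .mp ⟨⟨186836973, 0, 0, 0, 0, 111183577, 0, 0, 0, ⟨0, 0⟩, 0⟩, 0, 0⟩ 0 0)) (.pos 58 .mp ⟨⟨263377446, 0, 0, 0, 0, 0, 0, 0, 0, ⟨0, 0⟩, 0⟩, 0, 0⟩ 0 0))) (.pos 55 .mp ⟨⟨186928076, 0, 0, 0, 0, 111077637, 0, 0, 0, ⟨0, 0⟩, 0⟩, 0, 0⟩ 0 0)) (.pos 56 .mp ⟨⟨263422431, 0, 0, 0, 0, 0, 0, 0, 0, ⟨0, 0⟩, 0⟩, 0, 0⟩ 0 0))) (.pos 53 .mp ⟨⟨187110177, 0, 0, 0, 0, 110866850, 0, 0, 0, ⟨0, 0⟩, 0⟩, 0, 0⟩ 0 0))) (.pos 54 .mp ⟨⟨270024611, 0, 0, 0, 0, 0, 0, 0, 0, ⟨0, 0⟩, 0⟩, 0, 0⟩ 0 0)) (.pos 51 .mp ⟨⟨187474912, 0, 0, 0, 0, 110445072, 0, 0, 0, ⟨0, 0⟩, 0⟩, 0, 0⟩ 0 0))) (.pos 52 .mp ⟨⟨270312433, 0, 0, 0, 0, 0, 0, 0,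 0, ⟨0, 0⟩, 0⟩, 0, 0⟩ 0 0)) (.pos 43 .mp ⟨⟨188205753, 0, 0, 0, 0, 109600076, 0, 0, 0, ⟨0, 0⟩, 0⟩, 0, 0⟩ 0 0))) (.pos 44 .mp ⟨⟨270887137, 0, 0, 0, 0, 0, 0, 0, 0, ⟨0, 0⟩, 0⟩, 0, 0⟩ 0 0)) (.cut .v 16809984 (.cut .s 11411456 (.cut .d (-8192) (.pos 43 .mp ⟨⟨186452458, 0, 0, 0, 0, 129370547, 0, 0, 0, ⟨0, 0⟩, 0⟩, 0, 0⟩ 0 0) (.cut .v 16793600 (.cut .s 11399168 (.pos 51 .mp ⟨⟨189603420, 0, 0, 0, 0, 118934266, 0, 0, 0, ⟨0, 0⟩, 0⟩, 0, 0⟩ 0 0) (.cut .s 11405312 (.pos 51 .mp ⟨⟨194905911, 0, 0, 0, 0, 113189312, 0, 0, 0, ⟨0, 0⟩, 0⟩, 0, 0⟩ 0 0) (.pos 51 .mp ⟨⟨195350276, 0, 0, 0, 0, 113939531, 0, 0, 0, ⟨0, 0⟩, 0⟩, 0, 0⟩ 0 0))) (.pos 52 .mp ⟨⟨221360223,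 0, 0, 0, 0, 73189857, 0, 0, 0, ⟨0, 0⟩, 0⟩, 0, 0⟩ 0 0))) (.cut .d (-8192) (.pos 43 .mp ⟨⟨189381586, 0, 0, 0, 0, 130625101, 0, 0, 0, ⟨0, 0⟩, 0⟩, 0, 0⟩ 0 0) (.cut .l 102527 (.cut .d (-4096) (.pos 43 .mp ⟨⟨193723253, 0, 0, 0, 0, 122531898, 0, 0, 0, ⟨0, 0⟩, 0⟩, 0, 0⟩ 0 0) (.cut .v 16793600 (.cut .s 11423744 (.pos 51 .mp ⟨⟨192782326, 0, 0, 0, 0, 119704658, 0, 0, 0, ⟨0, 0⟩, 0⟩, 0, 0⟩ 0 0) (.cut .s 11429888 (.pos 51 .mp ⟨⟨195332942, 0, 0, 0, 0, 118317677, 0, 0, 0, ⟨0, 0⟩, 0⟩, 0, 0⟩ 0 0) (.pos 51 .mp ⟨⟨195900456, 0, 0, 0, 0, 118919770, 0, 0, 0, ⟨0, 0⟩, 0⟩, 0, 0⟩ 0 0))) (.pos 52 .mp ⟨⟨271328603, 0, 0, 0, 0, 0, 0, 0, 0, ⟨0, 0⟩, 0⟩, 0, 0⟩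 0 0))) (.pos 43 .mp ⟨⟨194158283, 0, 0, 0, 0, 116501403, 0, 0, 0, ⟨0, 0⟩, 0⟩, 0, 0⟩ 0 0)))) (.pos 44 .mp ⟨⟨278524786, 0, 0, 0, 0, 0, 0, 0, 0, ⟨0, 0⟩, 0⟩, 0, 0⟩ 0 0))) (.cut .s 11485184 (.cut .v 16809984 (.cut .d (-8192) (.cut .s 11460608 (.pos 43 .mp ⟨⟨192357318, 0, 0, 0, 0, 131975934, 0, 0, 0, ⟨0, 0⟩, 0⟩, 0, 0⟩ 0 0) (.pos 43 .mp ⟨⟨195380247, 0, 0, 0, 0, 133424602, 0, 0, 0, ⟨0, 0⟩, 0⟩, 0, 0⟩ 0 0)) (.cut .s 11460608 (.cut .l 102527 (.cut .d (-4096) (.pos 43 .mp ⟨⟨196182468, 0, 0, 0, 0, 124960317, 0, 0, 0, ⟨0, 0⟩, 0⟩, 0, 0⟩ 0 0) (.cut .v 16793600 (.cut .l 51263 (.cut .d (-2048) (.pos 51 .mp ⟨⟨196458277, 0, 0, 0, 0, 123853054, 0,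 0, 0, ⟨0, 0⟩, 0⟩, 0, 0⟩ 0 0) (.cut .v 16785408 (.cut .l 25631 (.cut .d (-1024) (.pos 53 .mp ⟨⟨196128789, 0, 0, 0, 0, 124279973, 0, 0, 0, ⟨0, 0⟩, 0⟩, 0, 0⟩ 0 0) (.cut .v 16781312 (.cut .l 12815 (.cut .d (-512) (.pos 55 .mp ⟨⟨195868210, 0, 0, 0, 0, 124694700, 0, 0, 0, ⟨0, 0⟩, 0⟩, 0, 0⟩ 0 0) (.cut .s 11448320 (.pos 55 .mp ⟨⟨194359407, 0, 0, 0, 0, 123132030, 0, 0, 0, ⟨0, 0⟩, 0⟩, 0, 0⟩ 0 0) (.cut .s 11454464 (.pos 55 .mp ⟨⟨196596875, 0, 0, 0, 0, 122328481, 0, 0, 0, ⟨0, 0⟩, 0⟩, 0, 0⟩ 0 0) (.pos 55 .mp ⟨⟨197258758, 0, 0, 0, 0, 122825873, 0, 0, 0, ⟨0, 0⟩, 0⟩, 0, 0⟩ 0 0)))) (.pos 55 .mp ⟨⟨195807047, 0, 0, 0, 0, 119637183, 0, 0, 0, ⟨0,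 0⟩, 0⟩, 0, 0⟩ 0 0)) (.pos 56 .mp ⟨⟨274772651, 0, 0, 0, 0, 0, 0, 0, 0, ⟨0, 0⟩, 0⟩, 0, 0⟩ 0 0))) (.pos 53 .mp ⟨⟨196006450, 0, 0, 0, 0, 119404439, 0, 0, 0, ⟨0, 0⟩, 0⟩, 0, 0⟩ 0 0)) (.pos 54 .mp ⟨⟨274849849, 0, 0, 0, 0, 0, 0, 0, 0, ⟨0, 0⟩, 0⟩, 0, 0⟩ 0 0))) (.pos 51 .mp ⟨⟨196405827, 0, 0, 0, 0, 118938482, 0, 0, 0, ⟨0, 0⟩, 0⟩, 0, 0⟩ 0 0)) (.pos 52 .mp ⟨⟨275001881, 0, 0, 0, 0, 0, 0, 0, 0, ⟨0, 0⟩, 0⟩, 0, 0⟩ 0 0))) (.pos 43 .mp ⟨⟨197206062, 0, 0, 0, 0, 118004871, 0, 0, 0, ⟨0, 0⟩, 0⟩, 0, 0⟩ 0 0)) (.cut .l 102527 (.cut .v 16793600 (.cut .d (-4096) (.pos 51 .mp ⟨⟨195493010, 0, 0, 0, 0, 132770836, 0, 0, 0, ⟨0, 0⟩, 0⟩, 0, 0⟩ 0 0) (.cut .l 51263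 (.cut .d (-2048) (.pos 51 .mp ⟨⟨195737286, 0, 0, 0, 0, 133152273, 0, 0, 0, ⟨0, 0⟩, 0⟩, 0, 0⟩ 0 0) (.cut .v 16785408 (.cut .l 25631 (.cut .d (-1024) (.pos 53 .mp ⟨⟨195672317, 0, 0, 0, 0, 133019297, 0, 0, 0, ⟨0, 0⟩, 0⟩, 0, 0⟩ 0 0) (.cut .v 16781312 (.cut .l 12815 (.cut .d (-512) (.pos 55 .mp ⟨⟨195640014, 0, 0, 0, 0, 132952685, 0, 0, 0, ⟨0, 0⟩, 0⟩, 0, 0⟩ 0 0) (.cut .v 16779264 (.cut .l 6407 (.cut .s 11472896 (.cut .s 11466752 (.pos 57 .mp ⟨⟨198506628, 0, 0, 0, 0, 122299459, 0, 0, 0, ⟨0, 0⟩, 0⟩, 0, 0⟩ 0 0) (.pos 57 .mp ⟨⟨199150842, 0, 0, 0, 0, 122850607, 0, 0, 0, ⟨0, 0⟩, 0⟩, 0, 0⟩ 0 0)) (.cut .s 11479040 (.pos 57 .mp ⟨⟨199804448,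 0, 0, 0, 0, 123396810, 0, 0, 0, ⟨0, 0⟩, 0⟩, 0, 0⟩ 0 0) (.pos 57 .mp ⟨⟨200467554, 0, 0, 0, 0, 123937906, 0, 0, 0, ⟨0, 0⟩, 0⟩, 0, 0⟩ 0 0))) (.pos 57 .mp ⟨⟨198758426, 0, 0, 0, 0, 121346745, 0, 0, 0, ⟨0, 0⟩, 0⟩, 0, 0⟩ 0 0)) (.pos 58 .mp ⟨⟨278505652, 0, 0, 0, 0, 0, 0, 0, 0, ⟨0, 0⟩, 0⟩, 0, 0⟩ 0 0))) (.pos 55 .mp ⟨⟨198861184, 0, 0, 0, 0, 121226195, 0, 0, 0, ⟨0, 0⟩, 0⟩, 0, 0⟩ 0 0)) (.pos 56 .mp ⟨⟨278548620, 0, 0, 0, 0, 0, 0, 0, 0, ⟨0, 0⟩, 0⟩, 0, 0⟩ 0 0))) (.pos 53 .mp ⟨⟨199066596, 0, 0, 0, 0, 120985779, 0, 0, 0, ⟨0, 0⟩, 0⟩, 0, 0⟩ 0 0)) (.pos 54 .mp ⟨⟨278626903, 0, 0, 0, 0, 0, 0, 0, 0, ⟨0, 0⟩, 0⟩, 0, 0⟩ 0 0))) (.pos 51 .mp ⟨⟨199478000,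 0, 0, 0, 0, 120504465, 0, 0, 0, ⟨0, 0⟩, 0⟩, 0, 0⟩ 0 0))) (.pos 52 .mp ⟨⟨288519992, 0, 0, 0, 0, 0, 0, 0, 0, ⟨0, 0⟩, 0⟩, 0, 0⟩ 0 0)) (.pos 43 .mp ⟨⟨200302332, 0, 0, 0, 0, 119540092, 0, 0, 0, ⟨0, 0⟩, 0⟩, 0, 0⟩ 0 0)))) (.pos 44 .mp ⟨⟨286440261, 0, 0, 0, 0, 0, 0, 0, 0, ⟨0, 0⟩, 0⟩, 0, 0⟩ 0 0)) (.cut .v 16809984 (.cut .d (-8192) (.cut .d (-12288) (.void 43 ⟨⟨0, 0, 0, 0, 0, 100000, 0, 0, 0, ⟨0, 0⟩, 0⟩, 0, 0⟩ 0 0) (.cut .d (-10240) (.pos 43 .mp ⟨⟨199135559, 0, 0, 0, 0, 141051261, 0, 0, 0, ⟨0, 0⟩, 0⟩, 0, 0⟩ 0 0) (.cut .v 16793600 (.pos 51 .mp ⟨⟨0, 0, 0, 0, 0, 456017496, 0, 0, 0, ⟨0, 0⟩, 0⟩, 0, 0⟩ 0 0) (.cut .l 102527 (.void 52 ⟨⟨100000,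 0, 0, 0, 0, 0, 0, 0, 0, ⟨0, 0⟩, 0⟩, 0, 0⟩ 0 0) (.cut .s 11509760 (.pos 52 .mp ⟨⟨204535411, 0, 0, 0, 0, 123170921, 0, 0, 0, ⟨0, 0⟩, 0⟩, 0, 0⟩ 0 0) (.pos 52 .mp ⟨⟨207752667, 0, 0, 0, 0, 124636639, 0, 0, 0, ⟨0, 0⟩, 0⟩, 0, 0⟩ 0 0)))))) (.cut .s 11509760 (.cut .s 11497472 (.cut .v 16793600 (.cut .s 11491328 (.pos 51 .mp ⟨⟨200785566, 0, 0, 0, 0, 125275655, 0, 0, 0, ⟨0, 0⟩, 0⟩, 0, 0⟩ 0 0) (.pos 51 .mp ⟨⟨201132186, 0, 0, 0, 0, 126345499, 0, 0, 0, ⟨0, 0⟩, 0⟩, 0, 0⟩ 0 0)) (.pos 52 .mp ⟨⟨219131276, 0, 0, 0, 0, 98780466, 0, 0, 0, ⟨0, 0⟩, 0⟩, 0, 0⟩ 0 0)) (.cut .v 16793600 (.cut .s 11503616 (.pos 51 .mp ⟨⟨201512360, 0, 0, 0, 0, 127372167, 0,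 0, 0, ⟨0, 0⟩, 0⟩, 0, 0⟩ 0 0) (.cut .s 11506688 (.pos 51 .mp ⟨⟨205741143, 0, 0, 0, 0, 122078479, 0, 0, 0, ⟨0, 0⟩, 0⟩, 0, 0⟩ 0 0) (.pos 51 .mp ⟨⟨206063827, 0, 0, 0, 0, 122383124, 0, 0, 0, ⟨0, 0⟩, 0⟩, 0, 0⟩ 0 0))) (.pos 52 .mp ⟨⟨220351140, 0, 0, 0, 0, 100060366, 0, 0, 0, ⟨0, 0⟩, 0⟩, 0, 0⟩ 0 0))) (.cut .s 11522048 (.cut .l 102527 (.cut .d (-4096) (.pos 43 .mp ⟨⟨202045931, 0, 0, 0, 0, 133700718, 0, 0, 0, ⟨0, 0⟩, 0⟩, 0, 0⟩ 0 0) (.cut .s 11515904 (.pos 43 .mp ⟨⟨204717795, 0, 0, 0, 0, 125444062, 0, 0, 0, ⟨0, 0⟩, 0⟩, 0, 0⟩ 0 0) (.pos 43 .mp ⟨⟨205513513, 0, 0, 0, 0, 125840679, 0, 0, 0, ⟨0, 0⟩, 0⟩, 0, 0⟩ 0 0))) (.pos 43 .mp ⟨⟨205039029,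 0, 0, 0, 0, 124213112, 0, 0, 0, ⟨0, 0⟩, 0⟩, 0, 0⟩ 0 0)) (.cut .l 102527 (.cut .d (-4096) (.pos 43 .mp ⟨⟨203620864, 0, 0, 0, 0, 134540877, 0, 0, 0, ⟨0, 0⟩, 0⟩, 0, 0⟩ 0 0) (.cut .s 11528192 (.pos 43 .mp ⟨⟨206312357, 0, 0, 0, 0, 126241695, 0, 0, 0, ⟨0, 0⟩, 0⟩, 0, 0⟩ 0 0) (.pos 43 .mp ⟨⟨207114337, 0, 0, 0, 0, 126647107, 0, 0, 0, ⟨0, 0⟩, 0⟩, 0, 0⟩ 0 0))) (.pos 43 .mp ⟨⟨206642860, 0, 0, 0, 0, 125037334, 0, 0, 0, ⟨0, 0⟩, 0⟩, 0, 0⟩ 0 0))))) (.pos 44 .mp ⟨⟨294625664, 0, 0, 0, 0, 0, 0, 0, 0, ⟨0, 0⟩, 0⟩, 0, 0⟩ 0 0)))) (.pos 42 .mp ⟨⟨285700191, 0, 0, 0, 0, 0, 0, 0, 0, ⟨0, 0⟩, 0⟩, 0, 0⟩ 0 0)) (.cut .v 16842752 (.cut .s 11632640 (.cut .s 11583488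 (.cut .v 16809984 (.cut .d (-8192) (.cut .d (-12288) (.void 43 ⟨⟨0, 0, 0, 0, 0, 100000, 0, 0, 0, ⟨0, 0⟩, 0⟩, 0, 0⟩ 0 0) (.cut .d (-10240) (.pos 43 .mp ⟨⟨205455479, 0, 0, 0, 0, 144745805, 0, 0, 0, ⟨0, 0⟩, 0⟩, 0, 0⟩ 0 0) (.cut .v 16793600 (.pos 51 .mp ⟨⟨0, 0, 0, 0, 0, 470843087, 0, 0, 0, ⟨0, 0⟩, 0⟩, 0, 0⟩ 0 0) (.cut .l 102527 (.void 52 ⟨⟨100000, 0, 0, 0, 0, 0, 0, 0, 0, ⟨0, 0⟩, 0⟩, 0, 0⟩ 0 0) (.cut .s 11558912 (.pos 52 .mp ⟨⟨211020801, 0, 0, 0, 0, 126181394, 0, 0, 0, ⟨0, 0⟩, 0⟩, 0, 0⟩ 0 0) (.cut .s 11571200 (.pos 52 .mp ⟨⟨212674157, 0, 0, 0, 0, 128523347, 0, 0, 0, ⟨0, 0⟩, 0⟩, 0, 0⟩ 0 0) (.pos 52 .mp ⟨⟨214340484, 0, 0, 0, 0, 129372881,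 0, 0, 0, ⟨0, 0⟩, 0⟩, 0, 0⟩ 0 0))))))) (.cut .s 11558912 (.cut .s 11546624 (.cut .l 102527 (.cut .d (-4096) (.pos 43 .mp ⟨⟨205208123, 0, 0, 0, 0, 135406851, 0, 0, 0, ⟨0, 0⟩, 0⟩, 0, 0⟩ 0 0) (.cut .s 11540480 (.pos 43 .mp ⟨⟨207919463, 0, 0, 0, 0, 127056910, 0, 0, 0, ⟨0, 0⟩, 0⟩, 0, 0⟩ 0 0) (.pos 43 .mp ⟨⟨208727746, 0, 0, 0, 0, 127471098, 0, 0, 0, ⟨0, 0⟩, 0⟩, 0, 0⟩ 0 0))) (.pos 43 .mp ⟨⟨208259291, 0, 0, 0, 0, 125867956, 0, 0, 0, ⟨0, 0⟩, 0⟩, 0, 0⟩ 0 0)) (.cut .l 102527 (.cut .d (-4096) (.pos 43 .mp ⟨⟨206807788, 0, 0, 0, 0, 136298851, 0, 0, 0, ⟨0, 0⟩, 0⟩, 0, 0⟩ 0 0) (.cut .s 11552768 (.pos 43 .mp ⟨⟨209539196, 0, 0, 0, 0, 127889666, 0,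 0, 0, ⟨0, 0⟩, 0⟩, 0, 0⟩ 0 0) (.pos 43 .mp ⟨⟨210353823, 0, 0, 0, 0, 128312609, 0, 0, 0, ⟨0, 0⟩, 0⟩, 0, 0⟩ 0 0))) (.pos 43 .mp ⟨⟨209888405, 0, 0, 0, 0, 126704718, 0, 0, 0, ⟨0, 0⟩, 0⟩, 0, 0⟩ 0 0))) (.cut .s 11571200 (.cut .l 102527 (.cut .d (-4096) (.pos 43 .mp ⟨⟨208419942, 0, 0, 0, 0, 137217087, 0, 0, 0, ⟨0, 0⟩, 0⟩, 0, 0⟩ 0 0) (.cut .s 11565056 (.pos 43 .mp ⟨⟨211171637, 0, 0, 0, 0, 128739922, 0, 0, 0, ⟨0, 0⟩, 0⟩, 0, 0⟩ 0 0) (.cut .s 11568128 (.pos 43 .mp ⟨⟨211259951, 0, 0, 0, 0, 130049543, 0, 0, 0, ⟨0, 0⟩, 0⟩, 0, 0⟩ 0 0) (.pos 43 .mp ⟨⟨211669397, 0, 0, 0, 0, 130269849, 0, 0, 0, ⟨0, 0⟩, 0⟩, 0, 0⟩ 0 0)))) (.pos 43 .mp ⟨⟨211530287,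 0, 0, 0, 0, 127547360, 0, 0, 0, ⟨0, 0⟩, 0⟩, 0, 0⟩ 0 0)) (.cut .l 102527 (.cut .d (-4096) (.pos 43 .mp ⟨⟨210044666, 0, 0, 0, 0, 138161773, 0, 0, 0, ⟨0, 0⟩, 0⟩, 0, 0⟩ 0 0) (.cut .s 11577344 (.cut .s 11574272 (.pos 43 .mp ⟨⟨212081098, 0, 0, 0, 0, 130489196, 0, 0, 0, ⟨0, 0⟩, 0⟩, 0, 0⟩ 0 0) (.pos 43 .mp ⟨⟨212495065, 0, 0, 0, 0, 130707567, 0, 0, 0, ⟨0, 0⟩, 0⟩, 0, 0⟩ 0 0)) (.pos 43 .mp ⟨⟨213644312, 0, 0, 0, 0, 130048026, 0, 0, 0, ⟨0, 0⟩, 0⟩, 0, 0⟩ 0 0))) (.pos 43 .mp ⟨⟨213185018, 0, 0, 0, 0, 128395621, 0, 0, 0, ⟨0, 0⟩, 0⟩, 0, 0⟩ 0 0))))) (.pos 44 .mp ⟨⟨303073305, 0, 0, 0, 0, 0, 0, 0, 0, ⟨0, 0⟩, 0⟩, 0, 0⟩ 0 0)) (.cut .v 16809984 (.cut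 .d (-8192) (.cut .d (-12288) (.void 43 ⟨⟨0, 0, 0, 0, 0, 100000, 0, 0, 0, ⟨0, 0⟩, 0⟩, 0, 0⟩ 0 0) (.cut .d (-10240) (.pos 43 .mp ⟨⟨211975730, 0, 0, 0, 0, 148860099, 0, 0, 0, ⟨0, 0⟩, 0⟩, 0, 0⟩ 0 0) (.cut .v 16793600 (.pos 51 .mp ⟨⟨0, 0, 0, 0, 0, 486481053, 0, 0, 0, ⟨0, 0⟩, 0⟩, 0, 0⟩ 0 0) (.cut .l 102527 (.void 52 ⟨⟨100000, 0, 0, 0, 0, 0, 0, 0, 0, ⟨0, 0⟩, 0⟩, 0, 0⟩ 0 0) (.cut .s 11608064 (.pos 52 .mp ⟨⟨211626273, 0, 0, 0, 0, 140067537, 0, 0, 0, ⟨0, 0⟩, 0⟩, 0, 0⟩ 0 0) (.pos 52 .mp ⟨⟨214951380, 0, 0, 0, 0, 142039485, 0, 0, 0, ⟨0, 0⟩, 0⟩, 0, 0⟩ 0 0)))))) (.cut .s 11608064 (.cut .s 11595776 (.cut .l 102527 (.cut .d (-4096) (.pos 43 .mp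 ⟨⟨211682042, 0, 0, 0, 0, 139133126, 0, 0, 0, ⟨0, 0⟩, 0⟩, 0, 0⟩ 0 0) (.cut .s 11589632 (.pos 43 .mp ⟨⟨214474982, 0, 0, 0, 0, 130492764, 0, 0, 0, ⟨0, 0⟩, 0⟩, 0, 0⟩ 0 0) (.pos 43 .mp ⟨⟨215308893, 0, 0, 0, 0, 130941844, 0, 0, 0, ⟨0, 0⟩, 0⟩, 0, 0⟩ 0 0))) (.pos 43 .mp ⟨⟨214852685, 0, 0, 0, 0, 129249237, 0, 0, 0, ⟨0, 0⟩, 0⟩, 0, 0⟩ 0 0)) (.cut .l 102527 (.cut .d (-4096) (.pos 43 .mp ⟨⟨213332154, 0, 0, 0, 0, 140131362, 0, 0, 0, ⟨0, 0⟩, 0⟩, 0, 0⟩ 0 0) (.cut .s 11601920 (.pos 43 .mp ⟨⟨216146055, 0, 0, 0, 0, 131395260, 0, 0, 0, ⟨0, 0⟩, 0⟩, 0, 0⟩ 0 0) (.pos 43 .mp ⟨⟨216986479, 0, 0, 0, 0, 131853007, 0, 0, 0, ⟨0, 0⟩, 0⟩, 0, 0⟩ 0 0))) (.pos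 43 .mp ⟨⟨216533374, 0, 0, 0, 0, 130107944, 0, 0, 0, ⟨0, 0⟩, 0⟩, 0, 0⟩ 0 0))) (.cut .s 11620352 (.cut .l 102527 (.cut .d (-4096) (.pos 43 .mp ⟨⟨214995087, 0, 0, 0, 0, 141156701, 0, 0, 0, ⟨0, 0⟩, 0⟩, 0, 0⟩ 0 0) (.cut .s 11614208 (.pos 43 .mp ⟨⟨217830175, 0, 0, 0, 0, 132315078, 0, 0, 0, ⟨0, 0⟩, 0⟩, 0, 0⟩ 0 0) (.pos 43 .mp ⟨⟨218677156, 0, 0, 0, 0, 132781467, 0, 0, 0, ⟨0, 0⟩, 0⟩, 0, 0⟩ 0 0))) (.pos 43 .mp ⟨⟨218227169, 0, 0, 0, 0, 130971477, 0, 0, 0, ⟨0, 0⟩, 0⟩, 0, 0⟩ 0 0)) (.cut .l 102527 (.cut .d (-4096) (.pos 43 .mp ⟨⟨216670926, 0, 0, 0, 0, 142209364, 0, 0, 0, ⟨0, 0⟩, 0⟩, 0, 0⟩ 0 0) (.cut .s 11626496 (.pos 43 .mp ⟨⟨219527430, 0,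 0, 0, 0, 133252169, 0, 0, 0, ⟨0, 0⟩, 0⟩, 0, 0⟩ 0 0) (.pos 43 .mp ⟨⟨220381011, 0, 0, 0, 0, 133727177, 0, 0, 0, ⟨0, 0⟩, 0⟩, 0, 0⟩ 0 0))) (.pos 43 .mp ⟨⟨219934160, 0, 0, 0, 0, 131839569, 0, 0, 0, ⟨0, 0⟩, 0⟩, 0, 0⟩ 0 0))))) (.pos 44 .mp ⟨⟨311775695, 0, 0, 0, 0, 0, 0, 0, 0, ⟨0, 0⟩, 0⟩, 0, 0⟩ 0 0))) (.cut .s 11681792 (.cut .v 16809984 (.cut .d (-8192) (.cut .s 11657216 (.cut .s 11644928 (.pos 43 .mp ⟨⟨217914659, 0, 0, 0, 0, 143573891, 0, 0, 0, ⟨0, 0⟩, 0⟩, 0, 0⟩ 0 0) (.pos 43 .mp ⟨⟨219619729, 0, 0, 0, 0, 144673680, 0, 0, 0, ⟨0, 0⟩, 0⟩, 0, 0⟩ 0 0)) (.pos 43 .mp ⟨⟨221337982, 0, 0, 0, 0, 148731988, 0, 0, 0, ⟨0, 0⟩, 0⟩, 0, 0⟩ 0 0)) (.cut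 .s 11657216 (.cut .s 11644928 (.cut .l 102527 (.cut .d (-4096) (.pos 43 .mp ⟨⟨218359757, 0, 0, 0, 0, 143289576, 0, 0, 0, ⟨0, 0⟩, 0⟩, 0, 0⟩ 0 0) (.cut .s 11638784 (.pos 43 .mp ⟨⟨221237908, 0, 0, 0, 0, 134206485, 0, 0, 0, ⟨0, 0⟩, 0⟩, 0, 0⟩ 0 0) (.pos 43 .mp ⟨⟨222096320, 0, 0, 0, 0, 134693375, 0, 0, 0, ⟨0, 0⟩, 0⟩, 0, 0⟩ 0 0))) (.pos 43 .mp ⟨⟨221654433, 0, 0, 0, 0, 132711952, 0, 0, 0, ⟨0, 0⟩, 0⟩, 0, 0⟩ 0 0)) (.cut .v 16793600 (.cut .s 11651072 (.pos 51 .mp ⟨⟨221441720, 0, 0, 0, 0, 137771480, 0, 0, 0, ⟨0, 0⟩, 0⟩, 0, 0⟩ 0 0) (.pos 51 .mp ⟨⟨222753244, 0, 0, 0, 0, 137557107, 0, 0, 0, ⟨0, 0⟩, 0⟩, 0, 0⟩ 0 0)) (.pos 52 .mp ⟨⟨242642384, 0,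 0, 0, 0, 106735214, 0, 0, 0, ⟨0, 0⟩, 0⟩, 0, 0⟩ 0 0))) (.cut .l 102527 (.cut .d (-4096) (.pos 43 .mp ⟨⟨221776742, 0, 0, 0, 0, 148906244, 0, 0, 0, ⟨0, 0⟩, 0⟩, 0, 0⟩ 0 0) (.cut .v 16793600 (.cut .l 51263 (.cut .d (-2048) (.pos 51 .mp ⟨⟨221575955, 0, 0, 0, 0, 148691194, 0, 0, 0, ⟨0, 0⟩, 0⟩, 0, 0⟩ 0 0) (.cut .v 16785408 (.cut .l 25631 (.cut .d (-1024) (.pos 53 .mp ⟨⟨221475957, 0, 0, 0, 0, 148583141, 0, 0, 0, ⟨0, 0⟩, 0⟩, 0, 0⟩ 0 0) (.cut .v 16781312 (.cut .l 12815 (.cut .d (-512) (.pos 55 .mp ⟨⟨221426169, 0, 0, 0, 0, 148528973, 0, 0, 0, ⟨0, 0⟩, 0⟩, 0, 0⟩ 0 0) (.cut .v 16779264 (.cut .l 6407 (.cut .s 11669504 (.cut .s 11663360 (.pos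 57 .mp ⟨⟨224328699, 0, 0, 0, 0, 136643992, 0, 0, 0, ⟨0, 0⟩, 0⟩, 0, 0⟩ 0 0) (.pos 57 .mp ⟨⟨225329037, 0, 0, 0, 0, 136951523, 0, 0, 0, ⟨0, 0⟩, 0⟩, 0, 0⟩ 0 0)) (.cut .s 11675648 (.pos 57 .mp ⟨⟨226342446, 0, 0, 0, 0, 137248412, 0, 0, 0, ⟨0, 0⟩, 0⟩, 0, 0⟩ 0 0) (.pos 57 .mp ⟨⟨227369051, 0, 0, 0, 0, 137534462, 0, 0, 0, ⟨0, 0⟩, 0⟩, 0, 0⟩ 0 0))) (.pos 57 .mp ⟨⟨224956648, 0, 0, 0, 0, 135033801, 0, 0, 0, ⟨0, 0⟩, 0⟩, 0, 0⟩ 0 0)) (.pos 58 .mp ⟨⟨312676052, 0, 0, 0, 0, 0, 0, 0, 0, ⟨0, 0⟩, 0⟩, 0, 0⟩ 0 0))) (.pos 55 .mp ⟨⟨225085713, 0, 0, 0, 0, 134879339, 0, 0, 0, ⟨0, 0⟩, 0⟩, 0, 0⟩ 0 0)) (.pos 56 .mp ⟨⟨312724605, 0, 0, 0, 0, 0, 0, 0, 0, ⟨0, 0⟩,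 0⟩, 0, 0⟩ 0 0))) (.pos 53 .mp ⟨⟨225343735, 0, 0, 0, 0, 134571203, 0, 0, 0, ⟨0, 0⟩, 0⟩, 0, 0⟩ 0 0)) (.pos 54 .mp ⟨⟨312812688, 0, 0, 0, 0, 0, 0, 0, 0, ⟨0, 0⟩, 0⟩, 0, 0⟩ 0 0))) (.pos 51 .mp ⟨⟨225860476, 0, 0, 0, 0, 133954332, 0, 0, 0, ⟨0, 0⟩, 0⟩, 0, 0⟩ 0 0)) (.pos 52 .mp ⟨⟨312986005, 0, 0, 0, 0, 0, 0, 0, 0, ⟨0, 0⟩, 0⟩, 0, 0⟩ 0 0))) (.pos 43 .mp ⟨⟨226895844, 0, 0, 0, 0, 132718383, 0, 0, 0, ⟨0, 0⟩, 0⟩, 0, 0⟩ 0 0)))) (.pos 44 .mp ⟨⟨320725539, 0, 0, 0, 0, 0, 0, 0, 0, ⟨0, 0⟩, 0⟩, 0, 0⟩ 0 0)) (.cut .v 16809984 (.cut .d (-8192) (.cut .s 11706368 (.pos 43 .mp ⟨⟨224814393, 0, 0, 0, 0, 151135923, 0, 0, 0, ⟨0, 0⟩, 0⟩, 0, 0⟩ 0 0) (.pos 43 .mp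 ⟨⟨228344612, 0, 0, 0, 0, 153654877, 0, 0, 0, ⟨0, 0⟩, 0⟩, 0, 0⟩ 0 0)) (.cut .s 11706368 (.cut .l 102527 (.cut .d (-4096) (.pos 43 .mp ⟨⟨225246747, 0, 0, 0, 0, 151334492, 0, 0, 0, ⟨0, 0⟩, 0⟩, 0, 0⟩ 0 0) (.cut .v 16793600 (.cut .l 51263 (.cut .d (-2048) (.pos 51 .mp ⟨⟨225036644, 0, 0, 0, 0, 151125814, 0, 0, 0, ⟨0, 0⟩, 0⟩, 0, 0⟩ 0 0) (.cut .v 16785408 (.cut .l 25631 (.cut .d (-1024) (.pos 53 .mp ⟨⟨224931998, 0, 0, 0, 0, 151020935, 0, 0, 0, ⟨0, 0⟩, 0⟩, 0, 0⟩ 0 0) (.cut .v 16781312 (.cut .l 12815 (.cut .d (-512) (.pos 55 .mp ⟨⟨224879890, 0, 0, 0, 0, 150968350, 0, 0, 0, ⟨0, 0⟩, 0⟩, 0, 0⟩ 0 0) (.cut .v 16779264 (.cut .l 6407 (.cut .s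 11694080 (.cut .s 11687936 (.pos 57 .mp ⟨⟨228408976, 0, 0, 0, 0, 137809478, 0, 0, 0, ⟨0, 0⟩, 0⟩, 0, 0⟩ 0 0) (.pos 57 .mp ⟨⟨229462346, 0, 0, 0, 0, 138073258, 0, 0, 0, ⟨0, 0⟩, 0⟩, 0, 0⟩ 0 0)) (.cut .s 11700224 (.pos 57 .mp ⟨⟨230529288, 0, 0, 0, 0, 138325605, 0, 0, 0, ⟨0, 0⟩, 0⟩, 0, 0⟩ 0 0) (.pos 57 .mp ⟨⟨231609927, 0, 0, 0, 0, 138566316, 0, 0, 0, ⟨0, 0⟩, 0⟩, 0, 0⟩ 0 0))) (.pos 57 .mp ⟨⟨228465118, 0, 0, 0, 0, 136831497, 0, 0, 0, ⟨0, 0⟩, 0⟩, 0, 0⟩ 0 0)) (.pos 58 .mp ⟨⟨317464266, 0, 0, 0, 0, 0, 0, 0, 0, ⟨0, 0⟩, 0⟩, 0, 0⟩ 0 0))) (.pos 55 .mp ⟨⟨228597769, 0, 0, 0, 0, 136672373, 0, 0, 0, ⟨0, 0⟩, 0⟩, 0, 0⟩ 0 0)) (.pos 56 .mp ⟨⟨317513602,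 0, 0, 0, 0, 0, 0, 0, 0, ⟨0, 0⟩, 0⟩, 0, 0⟩ 0 0))) (.pos 53 .mp ⟨⟨228862960, 0, 0, 0, 0, 136354925, 0, 0, 0, ⟨0, 0⟩, 0⟩, 0, 0⟩ 0 0)) (.pos 54 .mp ⟨⟨317603057, 0, 0, 0, 0, 0, 0, 0, 0, ⟨0, 0⟩, 0⟩, 0, 0⟩ 0 0))) (.pos 51 .mp ⟨⟨229394057, 0, 0, 0, 0, 135719413, 0, 0, 0, ⟨0, 0⟩, 0⟩, 0, 0⟩ 0 0)) (.pos 52 .mp ⟨⟨317779056, 0, 0, 0, 0, 0, 0, 0, 0, ⟨0, 0⟩, 0⟩, 0, 0⟩ 0 0))) (.pos 43 .mp ⟨⟨230458188, 0, 0, 0, 0, 134446117, 0, 0, 0, ⟨0, 0⟩, 0⟩, 0, 0⟩ 0 0)) (.cut .l 102527 (.cut .d (-4096) (.pos 43 .mp ⟨⟨228770491, 0, 0, 0, 0, 153878142, 0, 0, 0, ⟨0, 0⟩, 0⟩, 0, 0⟩ 0 0) (.cut .v 16793600 (.cut .l 51263 (.cut .d (-2048) (.pos 51 .mp ⟨⟨228550947,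 0, 0, 0, 0, 153675864, 0, 0, 0, ⟨0, 0⟩, 0⟩, 0, 0⟩ 0 0) (.cut .s 11718656 (.cut .s 11712512 (.pos 51 .mp ⟨⟨231850552, 0, 0, 0, 0, 140345582, 0, 0, 0, ⟨0, 0⟩, 0⟩, 0, 0⟩ 0 0) (.pos 51 .mp ⟨⟨232900994, 0, 0, 0, 0, 140667264, 0, 0, 0, ⟨0, 0⟩, 0⟩, 0, 0⟩ 0 0)) (.pos 51 .mp ⟨⟨233193114, 0, 0, 0, 0, 142664793, 0, 0, 0, ⟨0, 0⟩, 0⟩, 0, 0⟩ 0 0))) (.pos 51 .mp ⟨⟨232982406, 0, 0, 0, 0, 137495959, 0, 0, 0, ⟨0, 0⟩, 0⟩, 0, 0⟩ 0 0)) (.pos 52 .mp ⟨⟨322692011, 0, 0, 0, 0, 0, 0, 0, 0, ⟨0, 0⟩, 0⟩, 0, 0⟩ 0 0))) (.pos 43 .mp ⟨⟨234075853, 0, 0, 0, 0, 136184509, 0, 0, 0, ⟨0, 0⟩, 0⟩, 0, 0⟩ 0 0)))) (.pos 44 .mp ⟨⟨329915733, 0, 0, 0, 0, 0, 0, 0, 0, ⟨0, 0⟩,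 0⟩, 0, 0⟩ 0 0)))) (.pos 42 .mp ⟨⟨319986445, 0, 0, 0, 0, 0, 0, 0, 0, ⟨0, 0⟩, 0⟩, 0, 0⟩ 0 0))) (.pos 36 .mp ⟨⟨319837441, 0, 0, 0, 0, 0, 0, 0, 0, ⟨0, 0⟩, 0⟩, 0, 0⟩ 0 0)) (.void 34 ⟨⟨100000, 0, 0, 0, 0, 0, 0, 0, 0, ⟨0, 0⟩, 0⟩, 0, 0⟩ 0 0)) (.void 32 ⟨⟨100000, 0, 0, 0, 0, 0, 0, 0, 0, ⟨0, 0⟩, 0⟩, 0, 0⟩ 0 0)))))))) (.void 30 ⟨⟨100000, 0, 0, 0, 0, 0, 0, 0, 0, ⟨0, 0⟩, 0⟩, 0, 0⟩ 0 0))) (.void 28 ⟨⟨100000, 0, 0, 0, 0, 0, 0, 0, 0, ⟨0, 0⟩, 0⟩, 0, 0⟩ 0 0)))) (.void 26 ⟨⟨100000, 0, 0, 0, 0, 0, 0, 0, 0, ⟨0, 0⟩, 0⟩, 0, 0⟩ 0 0))) (.void 24 ⟨⟨100000, 0, 0, 0, 0, 0, 0, 0, 0, ⟨0, 0⟩, 0⟩, 0, 0⟩ 0 0)) (.void 105 ⟨⟨100000, 0, 0, 0, 0, 0, 0, 0, 0, ⟨0,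 0⟩, 0⟩, 0, 0⟩ 0 0)) (.void 124 ⟨⟨100000, 0, 0, 0, 0, 0, 0, 0, 0, ⟨0, 0⟩, 0⟩, 0, 0⟩ 0 0)) (.void 129 ⟨⟨96482, 0, 0, 3518, 0, 0, 0, 0, 0, ⟨0, 0⟩, 0⟩, 0, 0⟩ 0 0))) (.cut .v 16777216 (.cut .v 8388608 (.cut .v 4194304 (.cut .v 2097152 (.cut .v 1048576 (.pos 130 .pm ⟨⟨0, 0, 21553112, 0, 0, 0, 0, 0, 0, ⟨0, 0⟩, 0⟩, 0, 8835⟩ 0 0) (.pos 131 .pm ⟨⟨0, 0, 19043271, 0, 0, 0, 0, 0, 0, ⟨0, 0⟩, 0⟩, 0, 24542⟩ 0 0)) (.pos 7 .pm ⟨⟨0, 0, 19380285, 0, 0, 0, 0, 0, 0, ⟨0, 0⟩, 0⟩, 0, 44175⟩ 0 0)) (.pos 5 .pm ⟨⟨0, 0, 4472268, 0, 0, 0, 0, 0, 0, ⟨0, 0⟩, 0⟩, 0, 0⟩ 0 0)) (.pos 3 .pm ⟨⟨0, 0, 0, 0, 0, 0, 0, 0, 0, ⟨0, 0⟩, 0⟩, 0, 0⟩ 0 0)) (.cut .v 268435456 (.cut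 .v 67108864 (.cut .d 4024593 (.cut .d 2012296 (.cut .v 33554432 (.cut .d 1006148 (.cut .v 25165824 (.cut .d 503074 (.cut .v 20971520 (.cut .d 251537 (.cut .v 18874368 (.cut .v 17825792 (.cut .s 11534336 (.pos 29 .pp ⟨⟨104188551, 0, 0, 0, 0, 0, 0, 0, 0, ⟨0, 0⟩, 0⟩, 14666597, 0⟩ 0 0) (.pos 29 .pp ⟨⟨127812711, 0, 0, 0, 0, 0, 0, 0, 0, ⟨0, 0⟩, 0⟩, 15377710, 0⟩ 0 0)) (.pos 30 .pp ⟨⟨301794745, 0, 0, 0, 0, 0, 0, 0, 0, ⟨0, 0⟩, 0⟩, 0, 0⟩ 0 0)) (.pos 28 .pp ⟨⟨365429700, 0, 0, 0, 0, 0, 0, 0, 0, ⟨0, 0⟩, 0⟩, 0, 0⟩ 0 0)) (.pos 25 .pp ⟨⟨0, 0, 0, 0, 0, 0, 0, 0, 0, ⟨0, 0⟩, 0⟩, 18666417, 60627⟩ 0 0)) (.cut .d 251537 (.pos 26 .pp ⟨⟨0, 0, 0, 0, 0,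 0, 0, 0, 0, ⟨0, 0⟩, 0⟩, 42380637, 0⟩ 0 0) (.pos 26 .pp ⟨⟨0, 0, 0, 0, 0, 0, 0, 0, 0, ⟨0, 0⟩, 0⟩, 30857387, 0⟩ 0 0))) (.pos 23 .pp ⟨⟨0, 0, 0, 0, 0, 0, 0, 0, 0, ⟨0, 0⟩, 0⟩, 17739568, 65426⟩ 0 0)) (.cut .d 503074 (.pos 24 .pp ⟨⟨0, 0, 0, 0, 0, 0, 0, 0, 0, ⟨0, 0⟩, 0⟩, 73046240, 0⟩ 0 0) (.pos 24 .pp ⟨⟨0, 0, 0, 0, 0, 0, 0, 0, 0, ⟨0, 0⟩, 0⟩, 39028101, 0⟩ 0 0))) (.pos 22 .pp ⟨⟨0, 0, 0, 0, 0, 0, 0, 0, 0, ⟨0, 0⟩, 0⟩, 19337971, 57149⟩ 0 0)) (.cut .d 1006148 (.void 105 ⟨⟨0, 0, 0, 0, 0, 0, 0, 0, 0, ⟨0, 0⟩, 0⟩, 100000, 0⟩ 0 0) (.pos 105 .pp ⟨⟨0, 0, 0, 0, 0, 0, 0, 0, 0, ⟨0, 0⟩, 0⟩, 57731650, 0⟩ 0 0))) (.pos 104 .pp ⟨⟨0, 0, 0, 0, 0, 0, 0, 0, 0,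 ⟨0, 0⟩, 0⟩, 12902677, 90475⟩ 0 0)) (.pos 104 .pp ⟨⟨0, 4784785, 0, 0, 0, 0, 0, 0, 0, ⟨0, 0⟩, 0⟩, 0, 110437⟩ 0 0)) (.void 124 ⟨⟨0, 93637, 0, 0, 0, 0, 0, 0, 0, ⟨0, 0⟩, 0⟩, 6363, 0⟩ 0 0)) (.void 129 ⟨⟨0, 0, 0, 0, 0, 0, 0, 0, 0, ⟨0, 0⟩, 0⟩, 100000, 0⟩ 0 0)))),
    by decide +kernel⟩

end Vale.Agent.P237.Petty.Cor.Grid.Tiny.N18
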